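import Crest.Agent.R086.NB.Alg
import Crest.Agent.R086.M.OdeLim

/-! # Row 86, part N: limits at r = R and uniqueness (task) -/

open MeasureTheory Set Filter Topology
open scoped ComplexConjugate

namespace Crest.Agent.R086.NB

noncomputable section

variable {R M : ℝ} {α α₀ c : ℂ} {w φ : ℕ → ℝ → ℂ}

theorem lim_n {t a b p q c x y u v : ℂ} {T K N P : ℝ} (ht : ‖t‖ ≤ T) (ha : ‖a‖ ≤ K) (hb : ‖b‖ ≤ K)
    (hp : ‖p‖ ≤ K) (hq : ‖q‖ ≤ K) (hx : ‖x‖ ≤ N) (hy : ‖y‖ ≤ N) (hu : ‖u‖ ≤ P) (hv : ‖v‖ ≤ P) :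
    ‖t * (a * x + b * y + c * (p * u + q * v))‖ ≤
      (T * (2 * K) + 1) * N + (T * (2 * K) + 1) * ‖c‖ * P := by
  have hK : 0 ≤ K := (norm_nonneg _).trans ha
  have hT : 0 ≤ T := (norm_nonneg _).trans ht
  have hN : 0 ≤ N := (norm_nonneg _).trans hx
  have hP : 0 ≤ P := (norm_nonneg _).trans hu
  have m : ∀ {a x : ℂ} {N : ℝ}, ‖a‖ ≤ K → ‖x‖ ≤ N → ‖a * x‖ ≤ K * N := fun ha hx => by
    rw [norm_mul]; exact mul_le_mul ha hx (norm_nonneg _) hK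
  have h1 : ‖a * x + b * y‖ ≤ 2 * K * N :=
    (norm_add_le _ _).trans (by linarith [m ha hx, m hb hy])
  have h2 : ‖p * u + q * v‖ ≤ 2 * K * P :=
    (norm_add_le _ _).trans (by linarith [m hp hu, m hq hv])
  have h3 : ‖c * (p * u + q * v)‖ ≤ ‖c‖ * (2 * K * P) := by
    rw [norm_mul]; exact mul_le_mul_of_nonneg_left h2 (norm_nonneg _)
  have h4 : ‖a * x + b * y + c * (p * u + q * v)‖ ≤ 2 * K * N + ‖c‖ * (2 * K * P) :=
    (norm_add_le _ _).trans (add_le_add h1 h3)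
  rw [norm_mul]
  refine (mul_le_mul ht h4 (norm_nonneg _) hT).trans ?_
  have := mul_nonneg (norm_nonneg c) hP
  nlinarith

theorem lim_ss (α : ℂ) : Continuous fun r : ℝ => ss (r ^ 2 / 4) α := by
  unfold ss
  fun_prop

theorem lim_bound (hR : 0 < R) (h : FL R M α α₀ c w φ) (S : ℝ) : ∃ L : ℝ, 1 ≤ L ∧ ∀ r ∈ Ioc R S,
    ‖(2 / (r : ℂ) * (-(α + (0 : ℕ)) * w 0 r + w (0 + 1) r - c * φ 0 r),
      2 / (r : ℂ) * (-(α + (1 : ℕ)) * w 1 r + w (1 + 1) r - c * φ 1 r))‖ ≤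
      L * ‖(w 0 r, w 1 r)‖ + L * ‖c‖ * ‖(φ 0 r, φ 1 r)‖ := by
  obtain ⟨K0, hK0⟩ := (isCompact_Icc (a := R) (b := S)).exists_bound_of_continuousOn
    (f := fun r : ℝ => -(α + 1) - ss (r ^ 2 / 4) α) (continuous_const.sub (lim_ss α)).continuousOn
  set K : ℝ := |K0| + ‖α‖ + 1 + ‖AA M α‖ + ‖5 - α - α₀‖ with hK
  have a0 := abs_nonneg K0
  have a1 := norm_nonneg α
  have a2 := norm_nonneg (AA M α)
  have a3 := norm_nonneg (5 - α - α₀)
  have a4 := le_abs_self K0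
  refine ⟨2 / R * (2 * K) + 1, by
    have : 0 ≤ 2 / R * (2 * K) := by positivity
    linarith, fun r hr => ?_⟩
  have ht : ‖2 / (r : ℂ)‖ ≤ 2 / R := by
    rw [norm_div, Complex.norm_real, Real.norm_of_nonneg (by linarith [hr.1]), Complex.norm_two]
    exact div_le_div_of_nonneg_left (by norm_num) hR hr.1.le
  have one : ‖(1 : ℂ)‖ ≤ K := by rw [norm_one]; linarith
  rw [Prod.norm_def]
  refine max_le ?_ ?_
  · have e : 2 / (r : ℂ) * (-(α + (0 : ℕ)) * w 0 r + w (0 + 1) r - c * φ 0 r) =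
        2 / (r : ℂ) * (-α * w 0 r + 1 * w 1 r + c * (-1 * φ 0 r + 0 * φ 1 r)) := by
      push_cast; ring
    simp only [e]
    exact lim_n ht (by rw [norm_neg]; linarith) one (by rw [norm_neg]; exact one)
      (by rw [norm_zero]; linarith) (norm_fst_le (w 0 r, w 1 r)) (norm_snd_le (w 0 r, w 1 r))
      (norm_fst_le (φ 0 r, φ 1 r)) (norm_snd_le (φ 0 r, φ 1 r))
  · have e : 2 / (r : ℂ) * (-(α + (1 : ℕ)) * w 1 r + w (1 + 1) r - c * φ 1 r) =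
        2 / (r : ℂ) * (AA M α * w 0 r + (-(α + 1) - ss (r ^ 2 / 4) α) * w 1 r +
          c * ((5 - α - α₀) * φ 0 r + 1 * φ 1 r)) := by
      have := h.recu 0 r hr.1
      simp only [Nat.cast_zero, add_zero, zero_add] at this
      rw [show 1 + 1 = 2 from rfl, this]
      push_cast; ring
    simp only [e]
    exact lim_n ht (by linarith) ((hK0 r ⟨hr.1.le, hr.2⟩).trans (by linarith)) (by linarith) one
      (norm_fst_le (w 0 r, w 1 r)) (norm_snd_le (w 0 r, w 1 r))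
      (norm_fst_le (φ 0 r, φ 1 r)) (norm_snd_le (φ 0 r, φ 1 r))

theorem lim_of_bdd {E : Type} [NormedAddCommGroup E] [NormedSpace ℝ E] [CompleteSpace E] {K : ℝ}
    {U U' : ℝ → E} (hU : ∀ r ∈ Ioc R (R + 1), HasDerivAt U (U' r) r)
    (hb : ∀ r ∈ Ioc R (R + 1), ‖U' r‖ ≤ K) : ∃ l, Tendsto U (𝓝[>] R) (𝓝 l) := by
  have hl : LipschitzOnWith K.toNNReal U (Ioc R (R + 1)) :=
    (convex_Ioc R (R + 1)).lipschitzOnWith_of_nnnorm_hasDerivWithin_le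
      (fun r hr => (hU r hr).hasDerivWithinAt) fun r hr => by
        rw [← NNReal.coe_le_coe, coe_nnnorm]
        exact (hb r hr).trans (Real.le_coe_toNNReal K)
  have hc : Cauchy (𝓝[>] R) := cauchy_nhds.mono nhdsWithin_le_nhds
  exact cauchy_map_iff_exists_tendsto.1 (hc.map_of_le hl.uniformContinuousOn
    (le_principal_iff.2 (Ioc_mem_nhdsGT (by linarith))))

theorem lim_all (hR : 0 < R) (h : FL R M α α₀ c w φ) (K : ℝ)
    (hK : ∀ r ∈ Ioc R (R + 1), ‖c‖ * ‖(φ 0 r, φ 1 r)‖ ≤ K)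
    (hφ : ∀ j, ∃ l, Tendsto (fun r => c * φ j r) (𝓝[>] R) (𝓝 l)) (j : ℕ) :
    ∃ l, Tendsto (w j) (𝓝[>] R) (𝓝 l) := by
  obtain ⟨L, hL1, hL⟩ := lim_bound hR h (R + 1)
  have hK0 : 0 ≤ K := le_trans (by positivity) (hK (R + 1) ⟨by linarith, le_rfl⟩)
  have hd := fun r (hr : r ∈ Ioc R (R + 1)) => (h.d 0 r hr.1).prodMk (h.d 1 r hr.1)
  have hb := fun r (hr : r ∈ Ioc R (R + 1)) => (hL r hr).trans (add_le_add le_rfl
    ((mul_assoc _ _ _).trans_le (mul_le_mul_of_nonneg_left (hK r hr) (by linarith))))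
  obtain ⟨B, hB⟩ := R086.M.ode_bdd R (R + 1) (L + L * K) (by linarith) (fun r => (w 0 r, w 1 r)) _ hd
    (fun r hr => (hb r hr).trans (by
      have := mul_nonneg (mul_nonneg (by linarith : 0 ≤ L) hK0) (norm_nonneg (w 0 r, w 1 r))
      nlinarith))
  obtain ⟨l, hl⟩ := lim_of_bdd (K := L * B + L * K) hd fun r hr => (hb r hr).trans
    (add_le_add (mul_le_mul_of_nonneg_left (hB r hr) (by linarith)) le_rfl)
  induction j using Nat.twoStepInduction with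
  | zero => exact ⟨_, hl.fst_nhds⟩
  | one => exact ⟨_, hl.snd_nhds⟩
  | more j ih0 ih1 =>
    obtain ⟨l0, h0⟩ := ih0
    obtain ⟨l1, h1⟩ := ih1
    obtain ⟨p0, hp0⟩ := hφ j
    obtain ⟨p1, hp1⟩ := hφ (j + 1)
    have hs := ((lim_ss (α + j)).tendsto R).mono_left (nhdsWithin_le_nhds (s := Ioi R))
    refine ⟨_, ((((h0.const_mul (AA M (α + j))).sub (hs.mul h1)).add
      ((hp0.const_mul (5 - (α + j) - (α₀ + j))).add (hp1.const_mul 2))).congr' ?_)⟩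
    filter_upwards [self_mem_nhdsWithin] with r hr
    rw [h.recu j r hr]
    ring

/-- U = (w 0, w 1, φ 0, φ 1) solves a linear ODE with bounded coefficients on (R,R+1] (`M.ode_bdd`), so U' is bounded, U is Lipschitz and has
a limit at R+ (Cauchy filter, or extend: `LipschitzOnWith.extend…`/`cauchy_map_iff_exists_tendsto`); the other levels by the recurrences -/
theorem FL.lim (hR : 0 < R) (h : FL R M α α₀ c w φ) :
    ∃ W Φ : ℕ → ℂ, ∀ j, Tendsto (w j) (𝓝[>] R) (𝓝 (W j)) ∧ Tendsto (φ j) (𝓝[>] R) (𝓝 (Φ j)) := by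
  have hφ : ∀ j, ∃ l, Tendsto (φ j) (𝓝[>] R) (𝓝 l) := by
    refine (lim_all hR h.hφ.toFL 0 (fun r _ => by simp) (fun j => ?_))
    exact ⟨0, by simp⟩
  obtain ⟨L, hL1, hL⟩ := lim_bound hR h.hφ.toFL (R + 1)
  obtain ⟨K, hK⟩ := R086.M.ode_bdd R (R + 1) L (by linarith) (fun r => (φ 0 r, φ 1 r)) _
    (fun r hr => (h.hφ.toFL.d 0 r hr.1).prodMk (h.hφ.toFL.d 1 r hr.1)) (fun r hr => by
      have := hL r hr
      rw [norm_zero, mul_zero] at this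
      linarith)
  have hw : ∀ j, ∃ l, Tendsto (w j) (𝓝[>] R) (𝓝 l) := by
    refine lim_all hR h (‖c‖ * K) (fun r hr => mul_le_mul_of_nonneg_left (hK r hr) (norm_nonneg _))
      fun j => ?_
    obtain ⟨l, hl⟩ := hφ j
    exact ⟨_, hl.const_mul c⟩
  choose W hW using hw
  choose Φ hΦ using hφ
  exact ⟨W, Φ, fun j => ⟨hW j, hΦ j⟩⟩

theorem Seq.closed {U : ℕ → ℂ} (h : ∀ r, R < r → Seq M (r ^ 2 / 4) α (fun j => w j r))
    (hU : ∀ j, Tendsto (w j) (𝓝[>] R) (𝓝 (U j))) : Seq M (R ^ 2 / 4) α U := by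
  refine ⟨fun j => ?_, fun j hj => ?_⟩
  · have hs := ((lim_ss (α + j)).tendsto R).mono_left (nhdsWithin_le_nhds (s := Ioi R))
    refine tendsto_nhds_unique (hU (j + 2))
      ((((hU j).const_mul (AA M (α + j))).sub (hs.mul (hU (j + 1)))).congr' ?_)
    filter_upwards [self_mem_nhdsWithin] with r hr
    exact ((h r hr).recu j).symm
  · refine le_of_tendsto_of_tendsto (b := 𝓝[>] R)
      ((Complex.continuous_re.tendsto _).comp
        (((Complex.continuous_conj.tendsto _).comp (hU j)).mul (hU (j + 1))))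
      (((hU j).norm.pow 2).const_mul _) ?_
    filter_upwards [self_mem_nhdsWithin] with r hr
    exact (h r hr).neg j hj

theorem lim_fl {U : ℕ → ℂ} (hU : ∀ j, Tendsto (w j) (𝓝[>] R) (𝓝 (U j))) (α : ℂ) (j : ℕ) :
    Tendsto (fun r => fl (r ^ 2 / 4) α (fun j => w j r) j) (𝓝[>] R) (𝓝 (fl (R ^ 2 / 4) α U j)) := by
  have hs : Tendsto (fun r : ℝ => r ^ 2 / 4 / 2 - α.im) (𝓝[>] R) (𝓝 (R ^ 2 / 4 / 2 - α.im)) :=
    (Continuous.tendsto (by fun_prop) R).mono_left nhdsWithin_le_nhds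
  exact ((Complex.continuous_im.tendsto _).comp
    (((Complex.continuous_conj.tendsto _).comp (hU j)).mul (hU (j + 1)))).add
    (hs.mul ((hU j).norm.pow 2))

theorem Pair.closed {ω : ℕ → ℝ → ℂ} {U Φ Ω : ℕ → ℂ}
    (h : ∀ r, R < r → Pair M (r ^ 2 / 4) α α₀ (fun j => w j r) (fun j => φ j r) (fun j => ω j r))
    (hU : ∀ j, Tendsto (w j) (𝓝[>] R) (𝓝 (U j))) (hΦ : ∀ j, Tendsto (φ j) (𝓝[>] R) (𝓝 (Φ j)))
    (hΩ : ∀ j, Tendsto (ω j) (𝓝[>] R) (𝓝 (Ω j))) : Pair M (R ^ 2 / 4) α α₀ U Φ Ω := by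
  refine ⟨Seq.closed (fun r hr => (h r hr).hw) hU, Seq.closed (fun r hr => (h r hr).hφ) hΦ,
    fun j => ?_, fun j hj a ha => ?_⟩
  · refine tendsto_nhds_unique (hΩ (j + 1))
      (((((hΩ j).const_mul (-AA M (α₀ + j))).add
        (((hΦ (j + 1)).const_mul (5 - (α + j) - (α₀ + j))).mul (hU j))).add
        (((hΦ (j + 1)).const_mul 2).mul (hU (j + 1)))).congr' ?_)
    filter_upwards [self_mem_nhdsWithin] with r hr
    exact ((h r hr).recu j).symm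
  · refine le_of_tendsto_of_tendsto (b := 𝓝[>] R) ((hΩ j).sub ((hΦ j).mul (hU j))).norm
      ((((((lim_fl hΦ α₀ j).const_mul a).div_const _).add
        ((lim_fl hU α j).div_const _))).div_const 2) ?_
    filter_upwards [self_mem_nhdsWithin] with r hr
    exact (h r hr).bd j hj a ha

theorem lim_gron (hR : 0 < R) (h : HL R M α w) (S : ℝ) : ∃ L : ℝ, ∀ s ∈ Ioc R S, ∀ r ∈ Ioc R S,
    ‖w 0 r‖ ≤ ‖(w 0 s, w 1 s)‖ * L := by
  obtain ⟨L, hL1, hL⟩ := lim_bound hR h.toFL S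
  refine ⟨Real.exp (L * (S - R)), fun s hs r hr => ?_⟩
  have hm : R < min s r := lt_min hs.1 hr.1
  have := R086.M.gron2 (s := min s r) (S := S) (r₁ := s) (δ := ‖(w 0 s, w 1 s)‖) (ε := 0) hL1 le_rfl
    (w := fun r => (w 0 r, w 1 r)) ⟨min_le_left _ _, hs.2⟩
    (fun x hx => (h.toFL.d 0 x (hm.trans_le hx.1)).prodMk (h.toFL.d 1 x (hm.trans_le hx.1)))
    (fun x hx => by
      have := hL x ⟨hm.trans_le hx.1, hx.2⟩
      rw [norm_zero, mul_zero] at this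
      linarith) le_rfl r ⟨min_le_right _ _, hr.2⟩
  rw [add_zero] at this
  refine (norm_fst_le (w 0 r, w 1 r)).trans (this.trans ?_)
  refine mul_le_mul_of_nonneg_left (Real.exp_le_exp.2 ?_) (norm_nonneg _)
  exact mul_le_mul_of_nonneg_left (by linarith) (by linarith)

/-- Gronwall `M.gron2` for (w 0, w 1) on [s, r] from the point s, s → R+ -/
theorem HL.uniq (hR : 0 < R) (h : HL R M α w) (h0 : Tendsto (w 0) (𝓝[>] R) (𝓝 0))
    (h1 : Tendsto (w 1) (𝓝[>] R) (𝓝 0)) (r : ℝ) (hr : R < r) : w 0 r = 0 := by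
  obtain ⟨L, hL⟩ := lim_gron hR h r
  have ht : Tendsto (fun s => ‖(w 0 s, w 1 s)‖ * L) (𝓝[>] R) (𝓝 (‖((0 : ℂ), (0 : ℂ))‖ * L)) :=
    (h0.prodMk_nhds h1).norm.mul_const L
  have : ‖w 0 r‖ ≤ ‖((0 : ℂ), (0 : ℂ))‖ * L := by
    refine ge_of_tendsto ht ?_
    filter_upwards [Ioc_mem_nhdsGT hr] with s hs
    exact hL s hs r ⟨hr, le_rfl⟩
  simpa using this

theorem HL.uniq' (hR : 0 < R) (h : HL R M α w) {r₀ : ℝ} (hr₀ : R < r₀) (h0 : w 0 r₀ = 0) (h1 : w 1 r₀ = 0)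
    (r : ℝ) (hr : R < r) : w 0 r = 0 := by
  obtain ⟨L, hL⟩ := lim_gron hR h (max r r₀)
  have := hL r₀ ⟨hr₀, le_max_right _ _⟩ r ⟨hr, le_max_left _ _⟩
  rw [h0, h1] at this
  simpa using this

/-- δ ≠ 0: δw + cφ ≡ 0 (`FL.hom`, `HL.uniq`), d = -c/δ.  δ = 0: c = 0, w - dφ is homogeneous with zero limits. -/
theorem core (hR : 0 < R) {α' δ : ℂ} {w' : ℕ → ℝ → ℂ} (hF : FL R M α α₀ c w φ)
    (hG : FL R M α' α₀ (conj c) w' φ) (e : α - α₀ = δ) (e' : α' - α₀ = conj δ) {W W' Φ : ℕ → ℂ}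
    (hW : ∀ j, Tendsto (w j) (𝓝[>] R) (𝓝 (W j))) (hW' : ∀ j, Tendsto (w' j) (𝓝[>] R) (𝓝 (W' j)))
    (hΦ : ∀ j, Tendsto (φ j) (𝓝[>] R) (𝓝 (Φ j)))
    (z0 : δ * W 0 + c * Φ 0 = 0) (z1 : δ * W 1 + c * Φ 1 = 0)
    (z0' : conj δ * W' 0 + conj c * Φ 0 = 0) (z1' : conj δ * W' 1 + conj c * Φ 1 = 0)
    (hδ : δ = 0 → c = 0 ∧ ∃ d : ℂ, W 0 = d * Φ 0 ∧ W 1 = d * Φ 1 ∧ W' 0 = conj d * Φ 0 ∧ W' 1 = conj d * Φ 1) :
    ∃ d : ℂ, ∀ r, R < r → w 0 r = d * φ 0 r ∧ w' 0 r = conj d * φ 0 r := by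
  by_cases h0 : δ = 0
  · obtain ⟨hc, d, d0, d1, d0', d1'⟩ := hδ h0
    subst hc
    rw [h0] at e e'
    rw [map_zero] at e' hG
    obtain rfl := sub_eq_zero.1 e
    obtain rfl := sub_eq_zero.1 e'
    have key : ∀ {w : ℕ → ℝ → ℂ} {W : ℕ → ℂ} {d : ℂ}, HL R M α' w →
        (∀ j, Tendsto (w j) (𝓝[>] R) (𝓝 (W j))) → W 0 = d * Φ 0 → W 1 = d * Φ 1 →
        ∀ r, R < r → w 0 r = d * φ 0 r := by
      intro w W d hw hW d0 d1 r hr
      have := HL.uniq hR (hw.add (hF.hφ.smul (-d)))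
        (by simpa [d0] using (hW 0).add ((hΦ 0).const_mul (-d)))
        (by simpa [d1] using (hW 1).add ((hΦ 1).const_mul (-d))) r hr
      linear_combination this
    exact ⟨d, fun r hr => ⟨key hF.toHL hW d0 d1 r hr, key hG.toHL hW' d0' d1' r hr⟩⟩
  · have key : ∀ {α δ c : ℂ} {w : ℕ → ℝ → ℂ} {W : ℕ → ℂ}, FL R M α α₀ c w φ → α - α₀ = δ → δ ≠ 0 →
        (∀ j, Tendsto (w j) (𝓝[>] R) (𝓝 (W j))) → δ * W 0 + c * Φ 0 = 0 → δ * W 1 + c * Φ 1 = 0 →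
        ∀ r, R < r → w 0 r = -c / δ * φ 0 r := by
      intro α δ c w W hF e h0 hW z0 z1 r hr
      subst e
      have := HL.uniq hR hF.hom
        (z0 ▸ ((hW 0).const_mul _).add ((hΦ 0).const_mul _))
        (z1 ▸ ((hW 1).const_mul _).add ((hΦ 1).const_mul _)) r hr
      field_simp
      linear_combination this
    refine ⟨-c / δ, fun r hr => ⟨key hF e h0 hW z0 z1 r hr, ?_⟩⟩
    rw [map_div₀, map_neg]
    exact key hG e' ((map_ne_zero _).2 h0) hW' z0' z1' r hr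

end

end Crest.Agent.R086.NB
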