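import Crest.Agent.R086.NB.L2

/-! # Row 86, part N: Re ζ_j ≤ 0 (task) -/

open MeasureTheory Set Filter Topology
open scoped ComplexConjugate

namespace Crest.Agent.R086.NB

noncomputable section

/-- invariance of the left half plane.  g = 5/2 - Re α ≤ 0, t = Im α, ν² = (M+25)/4, A = ν² + t² - g² + 2igt; the hypothesis is
Re(A a conj Y) ≤ g|Y|².  With x + iy = a conj Y (|a|²|Y|² = x²+y²): if x > 0 and g < 0 then
-g x |Y|² ≤ -x Re(A(x+iy)) ≤ g²(x²+y²) because the difference is ν²x² + (t x - g y)²; if g = 0: (ν²+t²) x ≤ 0. -/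
theorem neg_step {M ρ : ℝ} (hM : 0 ≤ M) {α a Y : ℂ} (hα : 5 / 2 ≤ α.re)
    (h : (conj Y * (AA M α * a - ss ρ α * Y)).re ≤ (α.re + 1 - 5 / 2) * ‖Y‖ ^ 2) :
    (conj a * Y).re ≤ (α.re - 5 / 2) * ‖a‖ ^ 2 := by
  by_contra c
  rw [not_le] at c
  obtain ⟨p, t⟩ := α
  obtain ⟨a1, a2⟩ := a
  obtain ⟨y1, y2⟩ := Y
  simp only [Complex.sq_norm, Complex.normSq_mk] at h c hα
  simp [AA, ss, pow_two] at h c
  obtain ⟨G, rfl⟩ : ∃ G, p = G + 5 / 2 := ⟨p - 5 / 2, by ring⟩
  have hG : 0 ≤ G := by linarith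
  set x := a1 * y1 + a2 * y2 with hx
  set y := a2 * y1 - a1 * y2 with hy
  have c' : G * (a1 * a1 + a2 * a2) < x := by linarith
  have hx0 : 0 < x := lt_of_le_of_lt (mul_nonneg hG (by nlinarith)) c'
  have h1 : ((M + 25) / 4 + t ^ 2 - G ^ 2) * x + 2 * G * t * y ≤ -G * (y1 * y1 + y2 * y2) := by
    rw [hx, hy]
    linarith
  have h2 : (a1 * a1 + a2 * a2) * (y1 * y1 + y2 * y2) = x ^ 2 + y ^ 2 := by
    rw [hx, hy]
    ring
  have h3 := mul_le_mul_of_nonneg_left h1 hx0.le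
  have h4 := mul_le_mul_of_nonneg_right c'.le
    (mul_nonneg hG (show 0 ≤ y1 * y1 + y2 * y2 by nlinarith))
  have h5 : G * (a1 * a1 + a2 * a2) * (G * (y1 * y1 + y2 * y2)) = G ^ 2 * (x ^ 2 + y ^ 2) := by
    rw [← h2]
    ring
  have h6 : 0 < (M + 25) / 4 * x ^ 2 := by positivity
  nlinarith [sq_nonneg (t * x + G * y)]


private theorem neg_normSq {u : ℝ → ℂ} {u' : ℂ} {r : ℝ} (h : HasDerivAt u u' r) :
    HasDerivAt (fun s => ‖u s‖ ^ 2) (2 * (conj (u r) * u').re) r := by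
  have h1 : HasDerivAt (fun s => (u s).re) u'.re r :=
    Complex.reCLM.hasFDerivAt.comp_hasDerivAt r h
  have h2 : HasDerivAt (fun s => (u s).im) u'.im r :=
    Complex.imCLM.hasFDerivAt.comp_hasDerivAt r h
  have e : (fun s => ‖u s‖ ^ 2) = fun s => (u s).re * (u s).re + (u s).im * (u s).im := by
    funext s
    rw [Complex.sq_norm, Complex.normSq_apply]
  rw [e]
  refine ((h1.fun_mul h1).fun_add (h2.fun_mul h2)).congr_deriv ?_
  simp only [Complex.mul_re, Complex.conj_re, Complex.conj_im]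
  ring

private theorem neg_key {M ρ : ℝ} {α u U : ℂ} (hα : 5 / 2 ≤ α.re)
    (hd : ((M + 25) / 4 + α.im ^ 2) ^ 2 ≤ (α.re - 5 / 2) ^ 2 * (M + 25)) :
    0 ≤ 10 * (‖U‖ ^ 2 - (α.re - 5 / 2) ^ 2 * ‖u‖ ^ 2) +
      4 * ((conj U * (AA M α * u - (5 + Complex.I * (ρ : ℂ) - α) * U)).re -
        (α.re - 5 / 2) ^ 2 * (conj u * (-α * u + U)).re) := by
  set G := α.re - 5 / 2 with hG
  have hG0 : 0 ≤ G := by linarith
  have h1 : ‖AA M α - ((G ^ 2 : ℝ) : ℂ)‖ ≤ 2 * G ^ 2 := by
    refine (pow_le_pow_iff_left₀ (norm_nonneg _) (by positivity) two_ne_zero).1 ?_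
    rw [Complex.sq_norm, Complex.normSq_apply]
    have e : α.re = G + 5 / 2 := by linarith
    simp only [AA, pow_two, Complex.sub_re, Complex.add_re, Complex.mul_re, Complex.sub_im,
      Complex.add_im, Complex.mul_im, Complex.ofReal_re, Complex.ofReal_im, Complex.div_ofNat_re,
      Complex.div_ofNat_im, Complex.re_ofNat, Complex.im_ofNat, e]
    nlinarith
  have h2 : |(conj U * ((AA M α - ((G ^ 2 : ℝ) : ℂ)) * u)).re| ≤ ‖U‖ * (2 * G ^ 2 * ‖u‖) := by
    refine (Complex.abs_re_le_norm _).trans ?_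
    rw [norm_mul, norm_mul, Complex.norm_conj]
    gcongr
  have h3 : 10 * (‖U‖ ^ 2 - G ^ 2 * ‖u‖ ^ 2) +
      4 * ((conj U * (AA M α * u - (5 + Complex.I * (ρ : ℂ) - α) * U)).re -
        G ^ 2 * (conj u * (-α * u + U)).re) =
      4 * (G * (‖U‖ ^ 2 + G ^ 2 * ‖u‖ ^ 2) + (conj U * ((AA M α - ((G ^ 2 : ℝ) : ℂ)) * u)).re) := by
    have e : α.re = G + 5 / 2 := by linarith
    simp only [Complex.sq_norm, Complex.normSq_apply, Complex.sub_re, Complex.add_re,
      Complex.mul_re, Complex.sub_im, Complex.add_im, Complex.mul_im, Complex.ofReal_re,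
      Complex.ofReal_im, Complex.re_ofNat, Complex.im_ofNat, Complex.conj_re, Complex.conj_im,
      Complex.neg_re, Complex.neg_im, Complex.I_re, Complex.I_im, e]
    ring
  rw [h3]
  have h4 := (abs_le.1 h2).1
  nlinarith [mul_nonneg hG0 (sq_nonneg (‖U‖ - G * ‖u‖))]

/-- the disc lemma at a deep level: Ψ = r¹⁰(|U|² - g²|u|²), θΨ = r¹⁰(2|g|(|U|² + g²|u|²) + 2Re((A - g²) u conj U)) ≥ 0 because
|A - g²|² = (ν²+t²)² - 4g²ν² + 4g⁴ ≤ (2g²)².  If Ψ(r₀) > 0 then r¹¹|U|² ≥ Ψ(r₀) r on [r₀,∞), not integrable. -/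
theorem disc_lemma {R M : ℝ} (hR : 0 < R) {α : ℂ} {u U : ℝ → ℂ} (hα : 5 / 2 ≤ α.re)
    (hd : ((M + 25) / 4 + α.im ^ 2) ^ 2 ≤ (α.re - 5 / 2) ^ 2 * (M + 25))
    (hu : ∀ r : ℝ, R < r → HasDerivAt u (2 / (r : ℂ) * (-α * u r + U r)) r)
    (hU : ∀ r : ℝ, R < r → HasDerivAt U
      (2 / (r : ℂ) * (AA M α * u r - (5 + Complex.I * ((r ^ 2 / 4 : ℝ) : ℂ) - α) * U r)) r)
    (h : L2 R U) (r : ℝ) (hr : R < r) : ‖U r‖ ≤ (α.re - 5 / 2) * ‖u r‖ := by
  set G := α.re - 5 / 2 with hG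
  have hG0 : 0 ≤ G := by linarith
  set Ψ : ℝ → ℝ := fun s => s ^ 10 * (‖U s‖ ^ 2 - G ^ 2 * ‖u s‖ ^ 2) with hΨ
  have hD : ∀ s, R < s → ∃ d, 0 ≤ d ∧ HasDerivAt Ψ d s := by
    intro s hs
    have hs0 : 0 < s := hR.trans hs
    refine ⟨_, ?_, (hasDerivAt_pow 10 s).fun_mul
      ((neg_normSq (hU s hs)).fun_sub ((neg_normSq (hu s hs)).const_mul (G ^ 2)))⟩
    have key := neg_key (ρ := s ^ 2 / 4) (u := u s) (U := U s) hα hd
    rw [← hG] at key
    have e : ∀ a b : ℂ, (a * (2 / (s : ℂ) * b)).re = 2 / s * (a * b).re := by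
      intro a b
      have : a * (2 / (s : ℂ) * b) = ((2 / s : ℝ) : ℂ) * (a * b) := by push_cast; ring
      rw [this, Complex.re_ofReal_mul]
    rw [e, e]
    refine le_of_le_of_eq (mul_nonneg (pow_nonneg hs0.le 9) key) ?_
    have hs' : s ≠ 0 := hs0.ne'
    push_cast
    field_simp
    ring
  have hmono : MonotoneOn Ψ (Ioi R) := by
    refine monotoneOn_of_deriv_nonneg (convex_Ioi R) (fun s hs => ?_) (fun s hs => ?_) fun s hs => ?_
    · obtain ⟨d, -, h1⟩ := hD s hs
      exact h1.continuousAt.continuousWithinAt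
    · obtain ⟨d, -, h1⟩ := hD s (interior_subset hs)
      exact h1.differentiableAt.differentiableWithinAt
    · obtain ⟨d, h0, h1⟩ := hD s (interior_subset hs)
      rwa [h1.deriv]
  by_contra c
  rw [not_le] at c
  have hr0 : 0 < r := hR.trans hr
  have hpos : 0 < Ψ r := by
    refine mul_pos (by positivity) ?_
    have := pow_lt_pow_left₀ c (mul_nonneg hG0 (norm_nonneg _)) two_ne_zero
    rw [mul_pow] at this
    linarith
  have h1 : IntegrableOn (fun _ : ℝ => Ψ r) (Ioi (max r (R + 1))) := by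
    refine Integrable.mono' (h.mono_set (Ioi_subset_Ioi (le_max_right _ _)))
      aestronglyMeasurable_const ?_
    refine (ae_restrict_iff' measurableSet_Ioi).2 (ae_of_all _ fun s hs => ?_)
    have hs1 : r ≤ s := (le_max_left _ _).trans (le_of_lt hs)
    have hs2 : R + 1 ≤ s := (le_max_right _ _).trans (le_of_lt hs)
    rw [Real.norm_eq_abs, abs_of_pos hpos]
    refine (hmono hr (hr.trans_le hs1) hs1).trans ?_
    have hs0 : 0 ≤ s := by linarith
    calc s ^ 10 * (‖U s‖ ^ 2 - G ^ 2 * ‖u s‖ ^ 2) ≤ s ^ 10 * ‖U s‖ ^ 2 := by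
          gcongr
          exact sub_le_self _ (by positivity)
      _ ≤ s ^ 11 * ‖U s‖ ^ 2 := by
          gcongr
          · linarith
          · norm_num
  rw [integrableOn_const_iff] at h1
  rcases h1 with h1 | h1
  · exact hpos.ne' (by simpa using h1)
  · simp at h1


/-- `disc_lemma` at all large levels, then downward induction with `neg_step` -/
theorem HL.seq {R M : ℝ} (hR : 0 < R) (hM : 0 ≤ M) {α : ℂ} {w : ℕ → ℝ → ℂ} (h : HL R M α w)
    (hα : 0 ≤ α.re) (h4 : L2 R (w 4)) {r : ℝ} (hr : R < r) : Seq M (r ^ 2 / 4) α (fun j => w j r) := by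
  refine ⟨fun j => h.recu j r hr, ?_⟩
  obtain ⟨J, hJ⟩ := exists_nat_ge (((M + 25) / 4 + α.im ^ 2) + 5)
  have hν : 0 ≤ (M + 25) / 4 + α.im ^ 2 := by positivity
  have key : ∀ k j : ℕ, J ≤ j + k → 5 / 2 ≤ α.re + j →
      (conj (w j r) * w (j + 1) r).re ≤ (α.re + j - 5 / 2) * ‖w j r‖ ^ 2 := by
    intro k
    induction k with
    | zero =>
      intro j hj hα'
      have hj' : (J : ℝ) ≤ j := by exact_mod_cast hj
      have hj4 : 4 ≤ j + 1 := by
        have : (3 : ℝ) ≤ j := by linarith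
        have : 3 ≤ j := by exact_mod_cast this
        omega
      have h1 := disc_lemma (M := M) (α := α + j) (u := w j) (U := w (j + 1)) hR
        (by simpa using hα') (by
          simp only [Complex.add_re, Complex.add_im, Complex.natCast_re, Complex.natCast_im,
            add_zero]
          calc ((M + 25) / 4 + α.im ^ 2) ^ 2 ≤ (α.re + j - 5 / 2) ^ 2 * 1 := by
                rw [mul_one]
                gcongr
                linarith
            _ ≤ _ := by
                gcongr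
                linarith) (h.d j) (fun s hs => by
          convert h.d (j + 1) s hs using 2
          rw [h.recu j s hs, ss]
          push_cast
          ring) (h.l2 hR hα h4 (j + 1) hj4).1 r hr
      simp only [Complex.add_re, Complex.natCast_re] at h1
      refine (Complex.re_le_norm _).trans ?_
      rw [norm_mul, Complex.norm_conj]
      calc ‖w j r‖ * ‖w (j + 1) r‖ ≤ ‖w j r‖ * ((α.re + j - 5 / 2) * ‖w j r‖) := by gcongr
        _ = _ := by ring
    | succ k ih =>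
      intro j hj hα'
      have h1 := ih (j + 1) (by omega) (by push_cast; linarith)
      rw [h.recu j r hr] at h1
      have := neg_step (α := α + j) hM (by simpa using hα') (by
        convert h1 using 2
        simp only [Complex.add_re, Complex.natCast_re]
        push_cast
        ring)
      simpa using this
  exact fun j hj => key J j (by omega) hj


end

end Crest.Agent.R086.NB
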