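import Crest.Agent.R086.NB.Lad
import Crest.Agent.R086.NB.Neg
import Crest.Agent.R086.NB.Lim

/-! # Row 86, part N: reduction of MatchStmt to the algebraic statement (task) -/

open MeasureTheory Set Filter Topology
open scoped ComplexConjugate

namespace Crest.Agent.R086.NB

noncomputable section

/-- `lad_of_free0` (R = 3), `HL.seq`, `HL.uniq'`; F'/F = (2/r)(w₁/w₀ + ib), 0.6 ≤ 2/r ≤ 1 -/
theorem match_of (h : AlgMatch) : MatchStmt := by
  rintro b F hb hF ⟨r₀, hr₀, hne⟩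
  obtain ⟨w, hw, h4, he⟩ := lad_of_free0 (by norm_num) hF
  have hM : MM 0 = 0 := by simp [MM]
  rw [hM] at hw
  have key : ∀ r ∈ Icc (3.28936 : ℝ) 3.28948, ∃ (c : ℝ) (ℓ : ℂ), 0.6 ≤ c ∧ c ≤ 1 ∧ F r ≠ 0 ∧
      deriv F r / F r = c * ℓ ∧ ‖ℓ‖ ≤ 1 / 1000 ∧ (r ≤ 3.28937 → 2 / 10 ^ 6 ≤ ℓ.re) ∧
      (3.28947 ≤ r → ℓ.re ≤ -(2 / 10 ^ 6)) ∧ (b = 0.334766 → 2 / 10 ^ 7 ≤ ℓ.im) ∧
      (b = 0.334786 → ℓ.im ≤ -(2 / 10 ^ 7)) := by
    intro r hr
    have r3 : 3 < r := by linarith [hr.1]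
    have r0 : 0 < r := by linarith
    obtain ⟨a1, a2, a3, a4, a5, a6⟩ := h b r (fun j => w j r) hb hr
      (hw.seq (by norm_num) le_rfl (by simp) h4 r3) (by
        by_contra hn
        push Not at hn
        exact hne ((he r₀ hr₀).1.symm.trans (hw.uniq' (by norm_num) r3 hn.1 hn.2 r₀ hr₀)))
    have f0 : F r ≠ 0 := (he r r3).1 ▸ a1
    refine ⟨2 / r, w 1 r / w 0 r + Complex.I * b, ?_, ?_, f0, ?_, a2, ?_, ?_, ?_, ?_⟩
    · rw [le_div_iff₀ r0]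
      linarith [hr.2]
    · rw [div_le_iff₀ r0]
      linarith
    · have rc : (r : ℂ) ≠ 0 := by exact_mod_cast r0.ne'
      rw [(he r r3).1, (he r r3).2]
      push_cast
      field_simp
      ring
    · simpa using a3
    · simpa using a4
    · simpa using a5
    · simpa using a6
  refine ⟨fun r hr => ?_, fun r hr => ?_, fun r hr => ?_, fun hb' r hr => ?_, fun hb' r hr => ?_⟩
  · obtain ⟨c, ℓ, c1, c2, f0, e, a2, -⟩ := key r hr
    refine ⟨f0, ?_⟩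
    rw [e, norm_mul, Complex.norm_real, Real.norm_of_nonneg (by linarith)]
    nlinarith [norm_nonneg ℓ]
  · obtain ⟨c, ℓ, c1, c2, f0, e, -, a3, -⟩ := key r ⟨hr.1, by linarith [hr.2]⟩
    have := a3 hr.2
    rw [e, Complex.re_ofReal_mul]
    nlinarith
  · obtain ⟨c, ℓ, c1, c2, f0, e, -, -, a3, -⟩ := key r ⟨by linarith [hr.1], hr.2⟩
    have := a3 hr.1
    rw [e, Complex.re_ofReal_mul]
    nlinarith
  · obtain ⟨c, ℓ, c1, c2, f0, e, -, -, -, a3, -⟩ := key r hr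
    have := a3 hb'
    rw [e, Complex.im_ofReal_mul]
    nlinarith
  · obtain ⟨c, ℓ, c1, c2, f0, e, -, -, -, -, a3⟩ := key r hr
    have := a3 hb'
    rw [e, Complex.im_ofReal_mul]
    nlinarith

end

end Crest.Agent.R086.NB
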