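import Crest.Agent.R086.NB.Defs

/-! # Row 86, part N: algebra of the level structures (task) -/

open MeasureTheory Set Filter Topology
open scoped ComplexConjugate

namespace Crest.Agent.R086.NB

noncomputable section

variable {R M : ℝ} {α α₀ c : ℂ} {w φ ψ : ℕ → ℝ → ℂ}

theorem HL.zero (R M : ℝ) (α : ℂ) : HL R M α (fun _ _ => 0) := by
  exact ⟨fun j r _ => by simpa using hasDerivAt_const r (0 : ℂ), fun j r _ => by simp⟩

theorem HL.smul (h : HL R M α φ) (a : ℂ) : HL R M α (fun j r => a * φ j r) := by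
  refine ⟨fun j r hr => ((h.d j r hr).const_mul a).congr_deriv (by ring), fun j r hr => ?_⟩
  rw [h.recu j r hr]
  ring

theorem HL.add (h : HL R M α φ) (h' : HL R M α ψ) : HL R M α (fun j r => φ j r + ψ j r) := by
  refine ⟨fun j r hr => ((h.d j r hr).fun_add (h'.d j r hr)).congr_deriv (by ring),
    fun j r hr => ?_⟩
  rw [h.recu j r hr, h'.recu j r hr]
  ring

private theorem alg_cast (α : ℂ) (j : ℕ) : α + 1 + j = α + (j + 1 : ℕ) := by
  push_cast
  ring

theorem HL.shift (h : HL R M α φ) : HL R M (α + 1) (fun j => φ (j + 1)) := by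
  refine ⟨fun j r hr => ?_, fun j r hr => ?_⟩
  · rw [alg_cast]
    exact h.d (j + 1) r hr
  · rw [alg_cast]
    exact h.recu (j + 1) r hr

/-- the r-derivatives of the levels of a radial solution are levels for m = 1.
With θu_j = -(α+j)u_j + u_{j+1}: θ((2/r)θu_j) = (2/r)(-(1/2)θu_j - (α+j)θu_j + θu_{j+1}); the recurrence is
`linear_combination` of h.recu j, h.recu (j+1) -/
theorem HL.der (hR : 0 < R) (h : HL R 0 α φ) :
    HL R 11 (α + 1 / 2) (fun j r => 2 / (r : ℂ) * (-(α + j) * φ j r + φ (j + 1) r)) := by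
  refine ⟨fun j r hr => ?_, fun j r hr => ?_⟩
  · have h0 : (r : ℂ) ≠ 0 := Complex.ofReal_ne_zero.2 (hR.trans hr).ne'
    have h1 : HasDerivAt (fun r : ℝ => 2 / (r : ℂ)) (-2 / (r : ℂ) ^ 2) r :=
      (((hasDerivAt_const (r : ℂ) (2 : ℂ)).fun_div (hasDerivAt_id (r : ℂ)) h0).congr_deriv
        (by simp)).comp_ofReal
    refine (h1.fun_mul (((h.d j r hr).const_mul (-(α + j))).fun_add
      (h.d (j + 1) r hr))).congr_deriv ?_
    push_cast
    field_simp
    ring
  · have h1 := h.recu j r hr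
    have h2 := h.recu (j + 1) r hr
    rw [show j + 1 + 2 = j + 2 + 1 from rfl, show j + 1 + 1 = j + 2 from rfl] at h2
    rw [show j + 1 + 1 = j + 2 from rfl, h2, h1]
    simp only [AA, ss]
    push_cast
    ring

theorem HL.toFL (h : HL R M α w) : FL R M α α 0 w w := by
  exact ⟨h, fun j r hr => by simpa using h.d j r hr, fun j r hr => by simpa using h.recu j r hr⟩

theorem FL.toHL (h : FL R M α α₀ 0 w φ) : HL R M α w := by
  exact ⟨fun j r hr => by simpa using h.d j r hr, fun j r hr => by simpa using h.recu j r hr⟩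

/-- (α-α₀) w + c φ is homogeneous at α -/
theorem FL.hom (h : FL R M α α₀ c w φ) : HL R M α (fun j r => (α - α₀) * w j r + c * φ j r) := by
  refine ⟨fun j r hr => (((h.d j r hr).const_mul (α - α₀)).fun_add
    ((h.hφ.d j r hr).const_mul c)).congr_deriv (by ring), fun j r hr => ?_⟩
  rw [h.recu j r hr, h.hφ.recu j r hr]
  simp only [AA, ss]
  ring

theorem HL.cont (h : HL R M α φ) (j : ℕ) : ContinuousOn (φ j) (Ioi R) := by
  exact fun r hr => (h.d j r hr).continuousAt.continuousWithinAt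

theorem FL.cont (h : FL R M α α₀ c w φ) (j : ℕ) : ContinuousOn (w j) (Ioi R) := by
  exact fun r hr => (h.d j r hr).continuousAt.continuousWithinAt

theorem L2.zero (R : ℝ) : L2 R (fun _ => 0) := by
  simp [L2]

theorem L2.congr {u v : ℝ → ℂ} (h : L2 R u) (e : ∀ r, R < r → v r = u r) : L2 R v := by
  refine IntegrableOn.congr_fun h (fun r hr => ?_) measurableSet_Ioi
  simp only [e r (by linarith [mem_Ioi.1 hr])]

private theorem alg_sq (a b x y : ℂ) :
    ‖a * x + b * y‖ ^ 2 ≤ 2 * ‖a‖ ^ 2 * ‖x‖ ^ 2 + 2 * ‖b‖ ^ 2 * ‖y‖ ^ 2 := by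
  have h := norm_add_le (a * x) (b * y)
  rw [norm_mul, norm_mul] at h
  nlinarith [pow_le_pow_left₀ (norm_nonneg _) h 2, sq_nonneg (‖a‖ * ‖x‖ - ‖b‖ * ‖y‖)]

private theorem alg_L2 {u : ℝ → ℂ} {g : ℝ → ℝ} (hR : 0 < R) (hg : IntegrableOn g (Ioi (R + 1)))
    (cu : ContinuousOn u (Ioi R)) (h : ∀ r, R + 1 < r → r ^ 11 * ‖u r‖ ^ 2 ≤ g r) : L2 R u := by
  refine Integrable.mono' hg (ContinuousOn.aestronglyMeasurable
    ((continuousOn_id.pow 11).mul (((cu.mono (Ioi_subset_Ioi (by linarith))).norm).pow 2))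
    measurableSet_Ioi) ((ae_restrict_iff' measurableSet_Ioi).2 (ae_of_all _ fun r hr => ?_))
  have h0 : 0 < r := by linarith [mem_Ioi.1 hr]
  rw [Real.norm_of_nonneg (by positivity)]
  exact h r hr

/-- |a u + b v|² ≤ 2|a|²|u|² + 2|b|²|v|² -/
theorem L2.comb (hR : 0 < R) {u v : ℝ → ℂ} (hu : L2 R u) (hv : L2 R v) (cu : ContinuousOn u (Ioi R))
    (cv : ContinuousOn v (Ioi R)) (a b : ℂ) : L2 R (fun r => a * u r + b * v r) := by
  refine alg_L2 hR ((hu.const_mul (2 * ‖a‖ ^ 2)).add (hv.const_mul (2 * ‖b‖ ^ 2)))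
    ((continuousOn_const.mul cu).add (continuousOn_const.mul cv)) fun r hr => ?_
  have h0 : 0 < r := by linarith
  refine (mul_le_mul_of_nonneg_left (alg_sq a b _ _) (by positivity)).trans_eq ?_
  simp only [Pi.add_apply]
  ring

/-- |2/r| ≤ 2 for r ≥ 1 -/
theorem L2.div (hR : 0 < R) {u : ℝ → ℂ} (hu : L2 R u) (cu : ContinuousOn u (Ioi R)) :
    L2 R (fun r => 2 / (r : ℂ) * u r) := by
  refine alg_L2 hR (hu.const_mul 4) ((continuousOn_const.div
    Complex.continuous_ofReal.continuousOn fun r hr =>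
      Complex.ofReal_ne_zero.2 (hR.trans hr).ne').mul cu) fun r hr => ?_
  have h0 : 0 < r := by linarith
  have h1 : ‖2 / (r : ℂ)‖ ≤ 2 := by
    rw [norm_div, Complex.norm_real, Real.norm_of_nonneg h0.le, Complex.norm_ofNat]
    exact div_le_self (by norm_num) (by linarith)
  have h2 := pow_le_pow_left₀ (norm_nonneg _) h1 2
  rw [norm_mul, mul_pow]
  have h3 : 0 ≤ r ^ 11 * ‖u r‖ ^ 2 := by positivity
  nlinarith

theorem Dec.comb {u v : ℝ → ℂ} (hu : Dec u) (hv : Dec v) (a b : ℂ) : Dec (fun r => a * u r + b * v r) := by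
  have h := (Tendsto.const_mul (2 * ‖a‖ ^ 2) hu).add (Tendsto.const_mul (2 * ‖b‖ ^ 2) hv)
  rw [mul_zero, mul_zero, add_zero] at h
  refine squeeze_zero (fun r => by positivity) (fun r => ?_) h
  refine (mul_le_mul_of_nonneg_left (alg_sq a b _ _) (by positivity)).trans_eq ?_
  ring

private theorem alg_re (α : ℂ) (j : ℕ) : (α + 1).re + j = α.re + (j + 1 : ℕ) := by
  simp only [Complex.add_re, Complex.one_re]
  push_cast
  ring

theorem Seq.shift {ρ : ℝ} {u : ℕ → ℂ} (h : Seq M ρ α u) : Seq M ρ (α + 1) (fun j => u (j + 1)) := by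
  refine ⟨fun j => ?_, fun j => ?_⟩
  · rw [alg_cast]
    exact h.recu (j + 1)
  · rw [alg_re]
    exact h.neg (j + 1)

theorem Pair.shift {ρ : ℝ} {u v ω : ℕ → ℂ} (h : Pair M ρ α α₀ u v ω) :
    Pair M ρ (α + 1) (α₀ + 1) (fun j => u (j + 1)) (fun j => v (j + 1)) (fun j => ω (j + 1)) := by
  refine ⟨h.hw.shift, h.hφ.shift, fun j => ?_, fun j hj a ha => ?_⟩
  · rw [alg_cast, alg_cast]
    exact h.recu (j + 1)
  · rw [alg_re, alg_re]
    simpa only [fl, Complex.add_im, Complex.one_im, add_zero] using h.bd (j + 1) (by omega) a ha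

end

end Crest.Agent.R086.NB
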