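import Crest.Agent.R086.NB.Defs

/-! # Row 86, part N: real balls with 48 fractional bits -/

open scoped ComplexConjugate

namespace Crest.Agent.R086.NB

/-- the ball with centre `m / 2^48` and radius `r / 2^48` -/
structure RB where
  /-- centre -/
  m : ℤ
  /-- radius -/
  r : ℕ

/-- the value of a fixed-point number -/
noncomputable def val (x : ℤ) : ℝ := (x : ℝ) / 2 ^ 48
/-- the value of a nonnegative fixed-point number -/
noncomputable def valN (x : ℕ) : ℝ := (x : ℝ) / 2 ^ 48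

/-- `2^48` -/
def one : ℕ := 281474976710656

namespace RB

/-- membership -/
def mem (a : RB) (x : ℝ) : Prop := |x - val a.m| ≤ valN a.r
/-- a point -/
def pt (c : ℤ) : RB := ⟨c, 0⟩
/-- the interval `[lo, hi]` -/
def iv (lo hi : ℤ) : RB :=
  ⟨Int.shiftRight (Int.add lo hi) 1, Nat.succ (Nat.shiftRight (Int.natAbs (Int.sub hi lo)) 1)⟩
/-- sum -/
def add (a b : RB) : RB := ⟨Int.add a.m b.m, Nat.add a.r b.r⟩
/-- difference -/
def sub (a b : RB) : RB := ⟨Int.sub a.m b.m, Nat.add a.r b.r⟩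
/-- negation -/
def neg (a : RB) : RB := ⟨Int.neg a.m, a.r⟩
/-- upper bound of the absolute value -/
def mag (a : RB) : ℕ := Nat.add a.m.natAbs a.r
/-- lower bound of the absolute value -/
def mig (a : RB) : ℕ := Nat.sub a.m.natAbs a.r
/-- product -/
def mul (a b : RB) : RB :=
  ⟨Int.shiftRight (Int.mul a.m b.m) 48,
    Nat.add (Nat.shiftRight (Nat.add (Nat.mul a.m.natAbs b.r) (Nat.mul a.r b.mag)) 48) 2⟩
/-- product with a point -/
def cmul (c : ℤ) (b : RB) : RB :=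
  ⟨Int.shiftRight (Int.mul c b.m) 48, Nat.add (Nat.shiftRight (Nat.mul c.natAbs b.r) 48) 2⟩
/-- square -/
def sq (a : RB) : RB :=
  ⟨Int.ofNat (Nat.shiftRight (Nat.add (Nat.mul 2 (Nat.mul a.m.natAbs a.m.natAbs)) (Nat.mul a.r a.r)) 49),
    Nat.add (Nat.shiftRight (Nat.add (Nat.mul 4 (Nat.mul a.m.natAbs a.r)) (Nat.mul a.r a.r)) 49) 2⟩
/-- twice -/
def two (a : RB) : RB := ⟨Int.add a.m a.m, Nat.add a.r a.r⟩
/-- half -/
def half (a : RB) : RB := ⟨Int.shiftRight a.m 1, Nat.add (Nat.shiftRight a.r 1) 2⟩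
/-- lower end -/
def lo (a : RB) : ℤ := Int.sub a.m (Int.ofNat a.r)
/-- upper end -/
def hi (a : RB) : ℤ := Int.add a.m (Int.ofNat a.r)

end RB

/-- one Newton step for the square root; always an upper bound -/
def newt (s h : ℕ) : ℕ := Nat.succ (Nat.shiftRight (Nat.add h (Nat.div s h)) 1)
/-- upper bound of `√(x² + y²)` -/
def hyp (x y : ℕ) : ℕ :=
  newt (Nat.add (Nat.mul x x) (Nat.mul y y))
    (newt (Nat.add (Nat.mul x x) (Nat.mul y y))
      (newt (Nat.add (Nat.mul x x) (Nat.mul y y)) (Nat.succ (Nat.add x y))))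
/-- `a < b` -/
def ltZ (a b : ℤ) : Bool := Int.casesOn (Int.sub a b) (fun _ => false) (fun _ => true)

theorem one_eq : (one : ℝ) = 2 ^ 48 := by unfold one; norm_num

theorem ltZ_iff {a b : ℤ} (h : ltZ a b = true) : a < b := by
  unfold ltZ at h
  have e : Int.sub a b = a - b := rfl
  rw [e] at h
  rcases hc : a - b with n | n
  · rw [hc] at h; exact absurd h (by simp)
  · have : a - b < 0 := by rw [hc]; exact Int.negSucc_lt_zero n
    omega

theorem val_lt {a b : ℤ} (h : ltZ a b = true) : val a < val b := by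
  unfold val
  have : (a : ℝ) < b := by exact_mod_cast ltZ_iff h
  gcongr

theorem valN_nonneg (x : ℕ) : 0 ≤ valN x := by unfold valN; positivity

theorem val_ofNat (x : ℕ) : val (Int.ofNat x) = valN x := by unfold val valN; simp

theorem val_add (a b : ℤ) : val (Int.add a b) = val a + val b := by
  show val (a + b) = _
  unfold val; push_cast; ring

theorem val_sub (a b : ℤ) : val (Int.sub a b) = val a - val b := by
  show val (a - b) = _
  unfold val; push_cast; ring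

theorem val_neg (a : ℤ) : val (Int.neg a) = -val a := by
  show val (-a) = _
  unfold val; push_cast; ring

theorem valN_add (a b : ℕ) : valN (Nat.add a b) = valN a + valN b := by
  show valN (a + b) = _
  unfold valN; push_cast; ring

theorem valN_natAbs (a : ℤ) : valN a.natAbs = |val a| := by
  unfold val valN
  rw [abs_div, Nat.cast_natAbs, Int.cast_abs]
  congr 1
  rw [abs_of_pos]; positivity

theorem shr_err (x : ℤ) (k : ℕ) :
    (x : ℝ) / 2 ^ k - 1 ≤ ((Int.shiftRight x k : ℤ) : ℝ) ∧ ((Int.shiftRight x k : ℤ) : ℝ) ≤ (x : ℝ) / 2 ^ k := by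
  have e : Int.shiftRight x k = x / ((2 ^ k : ℕ) : ℤ) := by
    rw [← Int.shiftRight_eq_div_pow]; rfl
  rw [e]
  have hm' : (0 : ℤ) < ((2 ^ k : ℕ) : ℤ) := by positivity
  have h1 := Int.emod_nonneg x hm'.ne'
  have h2 := Int.emod_lt_of_pos x hm'
  have h3 := Int.mul_ediv_add_emod x ((2 ^ k : ℕ) : ℤ)
  set q := x / ((2 ^ k : ℕ) : ℤ)
  set s := x % ((2 ^ k : ℕ) : ℤ)
  have h3r : (2 : ℝ) ^ k * (q : ℝ) + (s : ℝ) = x := by exact_mod_cast h3
  have h1r : (0 : ℝ) ≤ (s : ℝ) := by exact_mod_cast h1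
  have h2r : (s : ℝ) < 2 ^ k := by exact_mod_cast h2
  have hp : (0 : ℝ) < 2 ^ k := by positivity
  constructor
  · rw [sub_le_iff_le_add, div_le_iff₀ hp]; nlinarith
  · rw [le_div_iff₀ hp]; nlinarith

theorem shrN_err (x k : ℕ) :
    (x : ℝ) / 2 ^ k - 1 ≤ ((Nat.shiftRight x k : ℕ) : ℝ) ∧ ((Nat.shiftRight x k : ℕ) : ℝ) ≤ (x : ℝ) / 2 ^ k := by
  have h := shr_err (Int.ofNat x) k
  have e : Int.shiftRight (Int.ofNat x) k = Int.ofNat (Nat.shiftRight x k) := rfl
  rw [e] at h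
  exact h

theorem div_err (s : ℕ) {h : ℕ} (hh : 0 < h) : (s : ℝ) / h ≤ ((Nat.div s h : ℕ) : ℝ) + 1 := by
  have h1 := Nat.lt_div_mul_add (a := s) hh
  have hr : (0 : ℝ) < h := by exact_mod_cast hh
  have h' : (s : ℝ) < ((s / h : ℕ) : ℝ) * h + h := by exact_mod_cast h1
  show (s : ℝ) / h ≤ ((s / h : ℕ) : ℝ) + 1
  rw [div_le_iff₀ hr]; nlinarith

theorem newt_pos (s h : ℕ) : 0 < newt s h := Nat.succ_pos _

theorem newt_ge (s : ℕ) {h : ℕ} (hh : 0 < h) : s ≤ newt s h ^ 2 := by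
  have e : newt s h = (h + s / h) / 2 + 1 := by
    show Nat.shiftRight (h + s / h) 1 + 1 = _
    rw [show Nat.shiftRight (h + s / h) 1 = (h + s / h) >>> 1 from rfl, Nat.shiftRight_eq_div_pow]
  rw [e]
  have h1 := Nat.lt_div_mul_add (a := s) hh
  set q := s / h
  have h2 : h + q + 1 ≤ 2 * ((h + q) / 2 + 1) := by omega
  set n := (h + q) / 2 + 1
  have h3 : (h + q + 1) ^ 2 ≤ (2 * n) ^ 2 := Nat.pow_le_pow_left h2 2
  have h4 : 4 * (h * (q + 1)) ≤ (h + q + 1) ^ 2 := by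
    zify; nlinarith [sq_nonneg ((h : ℤ) - (q + 1))]
  nlinarith

theorem hyp_ge {x y : ℕ} {a b : ℝ} (ha : |a| ≤ valN x) (hb : |b| ≤ valN y) :
    ‖(a : ℂ) + (b : ℂ) * Complex.I‖ ≤ valN (hyp x y) := by
  have h := newt_ge (Nat.add (Nat.mul x x) (Nat.mul y y)) (newt_pos (Nat.add (Nat.mul x x) (Nat.mul y y))
      (newt (Nat.add (Nat.mul x x) (Nat.mul y y)) (Nat.succ (Nat.add x y))))
  have h' : (x : ℝ) * x + y * y ≤ (hyp x y : ℝ) ^ 2 := by exact_mod_cast h
  refine abs_le_of_sq_le_sq' ?_ (valN_nonneg _) |>.2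
  rw [Complex.sq_norm, Complex.normSq_add_mul_I]
  have h1 : a ^ 2 ≤ valN x ^ 2 := by rw [← sq_abs]; gcongr
  have h2 : b ^ 2 ≤ valN y ^ 2 := by rw [← sq_abs]; gcongr
  have h3 : valN x ^ 2 + valN y ^ 2 ≤ valN (hyp x y) ^ 2 := by
    unfold valN
    rw [div_pow, div_pow, div_pow, ← add_div]
    gcongr; nlinarith
  linarith

namespace RB

variable {a b : RB} {x y : ℝ}

theorem mem_pt (c : ℤ) : (pt c).mem (val c) := by
  unfold mem pt valN; simp

theorem mem_iv {lo hi : ℤ} (h1 : val lo ≤ x) (h2 : x ≤ val hi) : (iv lo hi).mem x := by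
  unfold mem iv
  have e1 := shr_err (Int.add lo hi) 1
  have e2 := shrN_err (Int.natAbs (Int.sub hi lo)) 1
  have e3 : ((Int.add lo hi : ℤ) : ℝ) = lo + hi := by show ((lo + hi : ℤ) : ℝ) = _; push_cast; ring
  have e4 : ((Int.natAbs (Int.sub hi lo) : ℕ) : ℝ) = |(hi : ℝ) - lo| := by
    show ((Int.natAbs (hi - lo) : ℕ) : ℝ) = _
    rw [Nat.cast_natAbs]; push_cast; rfl
  rw [e3] at e1; rw [e4] at e2
  unfold val at h1 h2
  rw [div_le_iff₀ (by positivity)] at h1
  rw [le_div_iff₀ (by positivity)] at h2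
  have h3 : (0 : ℝ) ≤ hi - lo := by linarith
  rw [abs_of_nonneg h3] at e2
  have hpar : ((Int.shiftRight (Int.add lo hi) 1 : ℤ) : ℝ) + (Nat.shiftRight (Int.natAbs (Int.sub hi lo)) 1 : ℕ) + 1 ≥ hi ∧
      ((Int.shiftRight (Int.add lo hi) 1 : ℤ) : ℝ) - (Nat.shiftRight (Int.natAbs (Int.sub hi lo)) 1 : ℕ) - 1 ≤ lo := by
    have hl : lo ≤ hi := by exact_mod_cast (by linarith : (lo : ℝ) ≤ hi)
    have f1 : Int.shiftRight (Int.add lo hi) 1 = (lo + hi) / 2 := by
      have := Int.shiftRight_eq_div_pow (lo + hi) 1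
      exact this
    have f2 : ((Nat.shiftRight (Int.natAbs (Int.sub hi lo)) 1 : ℕ) : ℤ) = (hi - lo) / 2 := by
      have := Nat.shiftRight_eq_div_pow (Int.natAbs (hi - lo)) 1
      show ((Int.natAbs (hi - lo) >>> 1 : ℕ) : ℤ) = _
      rw [this]; omega
    have g1 : Int.shiftRight (Int.add lo hi) 1 + ((Nat.shiftRight (Int.natAbs (Int.sub hi lo)) 1 : ℕ) : ℤ) + 1 ≥ hi := by
      rw [f1, f2]; omega
    have g2 : Int.shiftRight (Int.add lo hi) 1 - ((Nat.shiftRight (Int.natAbs (Int.sub hi lo)) 1 : ℕ) : ℤ) - 1 ≤ lo := by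
      rw [f1, f2]; omega
    exact ⟨by exact_mod_cast g1, by exact_mod_cast g2⟩
  unfold val valN
  simp only [Nat.succ_eq_add_one]
  push_cast
  rw [abs_le]
  constructor
  · rw [neg_le_sub_iff_le_add, ← sub_le_iff_le_add, ← sub_div, div_le_iff₀ (by positivity)]
    linarith [hpar.2]
  · rw [sub_le_iff_le_add, ← add_div, le_div_iff₀ (by positivity)]
    linarith [hpar.1]

theorem mem.add (ha : a.mem x) (hb : b.mem y) : (a.add b).mem (x + y) := by
  unfold mem RB.add at *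
  simp only [val_add, valN_add]
  rw [abs_le] at *; constructor <;> linarith [ha.1, ha.2, hb.1, hb.2]

theorem mem.sub (ha : a.mem x) (hb : b.mem y) : (a.sub b).mem (x - y) := by
  unfold mem RB.sub at *
  simp only [val_sub, valN_add]
  rw [abs_le] at *; constructor <;> linarith [ha.1, ha.2, hb.1, hb.2]

theorem mem.neg (ha : a.mem x) : a.neg.mem (-x) := by
  unfold mem RB.neg at *
  simp only [val_neg]
  rw [abs_le] at *; constructor <;> linarith [ha.1, ha.2]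

theorem mem.two (ha : a.mem x) : a.two.mem (2 * x) := by
  unfold mem RB.two at *
  simp only [val_add, valN_add]
  rw [abs_le] at *; constructor <;> linarith [ha.1, ha.2]

theorem mem.mag (ha : a.mem x) : |x| ≤ valN a.mag := by
  unfold mem RB.mag at *
  rw [valN_add, valN_natAbs]
  calc |x| = |val a.m + (x - val a.m)| := by ring_nf
    _ ≤ _ := (abs_add_le _ _).trans (by linarith)

theorem mem.mig (ha : a.mem x) : valN a.mig ≤ |x| := by
  unfold mem RB.mig at *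
  have h1 : |val a.m| ≤ |x| + valN a.r := by
    calc |val a.m| = |x - (x - val a.m)| := by ring_nf
      _ ≤ _ := (abs_sub _ _).trans (by linarith)
  rw [← valN_natAbs] at h1
  show valN (a.m.natAbs - a.r) ≤ _
  rcases le_total a.r a.m.natAbs with h | h
  · unfold valN at *
    rw [Nat.cast_sub h, sub_div]; linarith
  · rw [Nat.sub_eq_zero_of_le h]; unfold valN; simp

theorem mem.lo (ha : a.mem x) : val a.lo ≤ x := by
  unfold mem RB.lo at *
  rw [val_sub, val_ofNat]; linarith [(abs_le.1 ha).1]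

theorem mem.hi (ha : a.mem x) : x ≤ val a.hi := by
  unfold mem RB.hi at *
  rw [val_add, val_ofNat]; linarith [(abs_le.1 ha).2]

theorem round {p : ℤ} {q k : ℕ} {z : ℝ} (h : |z * 2 ^ 48 - (p : ℝ) / 2 ^ k| ≤ (q : ℝ) / 2 ^ k) :
    |z - val (Int.shiftRight p k)| ≤ valN (Nat.add (Nat.shiftRight q k) 2) := by
  have e1 := shr_err p k
  have e2 := shrN_err q k
  have e3 : ((Nat.add (Nat.shiftRight q k) 2 : ℕ) : ℝ) = (Nat.shiftRight q k : ℕ) + 2 := by
    show ((Nat.shiftRight q k + 2 : ℕ) : ℝ) = _; push_cast; ring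
  unfold val valN
  rw [e3]
  rw [abs_le] at h ⊢
  constructor
  · rw [neg_le_sub_iff_le_add, ← sub_le_iff_le_add, ← sub_div, div_le_iff₀ (by positivity)]
    linarith [h.1, e1.2, e2.1]
  · rw [sub_le_iff_le_add, ← add_div, le_div_iff₀ (by positivity)]
    linarith [h.2, e1.1, e2.1]

theorem mem.mul (ha : a.mem x) (hb : b.mem y) : (a.mul b).mem (x * y) := by
  have hy := hb.mag
  unfold mem at *
  refine round ?_
  have e1 : ((Int.mul a.m b.m : ℤ) : ℝ) = a.m * b.m := by show ((a.m * b.m : ℤ) : ℝ) = _; push_cast; ring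
  have e2 : ((Nat.add (Nat.mul a.m.natAbs b.r) (Nat.mul a.r b.mag) : ℕ) : ℝ) =
      (a.m.natAbs : ℝ) * b.r + a.r * b.mag := by
    show ((a.m.natAbs * b.r + a.r * b.mag : ℕ) : ℝ) = _; push_cast; ring
  rw [e1, e2]
  have h1 : |x * y - val a.m * val b.m| ≤ valN a.m.natAbs * valN b.r + valN a.r * valN b.mag := by
    rw [valN_natAbs]
    calc |x * y - val a.m * val b.m| = |val a.m * (y - val b.m) + (x - val a.m) * y| := by ring_nf
      _ ≤ |val a.m| * |y - val b.m| + |x - val a.m| * |y| := by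
        refine (abs_add_le _ _).trans ?_; rw [abs_mul, abs_mul]
      _ ≤ _ := by gcongr; exact valN_nonneg _
  have e3 : x * y * 2 ^ 48 - (a.m : ℝ) * b.m / 2 ^ 48 = (x * y - val a.m * val b.m) * 2 ^ 48 := by
    unfold val; field_simp
  have e4 : ((a.m.natAbs : ℝ) * b.r + a.r * b.mag) / 2 ^ 48 =
      (valN a.m.natAbs * valN b.r + valN a.r * valN b.mag) * 2 ^ 48 := by
    unfold valN; field_simp
  rw [e3, e4, abs_mul, abs_of_pos (by positivity : (0 : ℝ) < 2 ^ 48)]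
  gcongr

theorem mem.cmul (c : ℤ) (hb : b.mem y) : (cmul c b).mem (val c * y) := by
  have h := (mem_pt c).mul hb
  have e : (pt c).mul b = RB.cmul c b := by
    unfold RB.mul RB.cmul pt
    simp
  rwa [e] at h

theorem mem.sq (ha : a.mem x) : a.sq.mem (x ^ 2) := by
  unfold mem at *
  have e0 : (RB.sq a).m = Int.shiftRight
      (Int.ofNat (Nat.add (Nat.mul 2 (Nat.mul a.m.natAbs a.m.natAbs)) (Nat.mul a.r a.r))) 49 := rfl
  rw [e0]
  refine round ?_
  have e1 : ((Int.ofNat (Nat.add (Nat.mul 2 (Nat.mul a.m.natAbs a.m.natAbs)) (Nat.mul a.r a.r)) : ℤ) : ℝ) =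
      2 * ((a.m.natAbs : ℝ) * a.m.natAbs) + a.r * a.r := by
    show (((2 * (a.m.natAbs * a.m.natAbs) + a.r * a.r : ℕ) : ℤ) : ℝ) = _
    rw [Int.cast_natCast]; push_cast; ring
  have e2 : ((Nat.add (Nat.mul 4 (Nat.mul a.m.natAbs a.r)) (Nat.mul a.r a.r) : ℕ) : ℝ) =
      4 * ((a.m.natAbs : ℝ) * a.r) + a.r * a.r := by
    show ((4 * (a.m.natAbs * a.r) + a.r * a.r : ℕ) : ℝ) = _; push_cast; ring
  rw [e1, e2]
  have h1 : |x ^ 2 - (valN a.m.natAbs ^ 2 + valN a.r ^ 2 / 2)| ≤ 2 * (valN a.m.natAbs * valN a.r) + valN a.r ^ 2 / 2 := by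
    rw [valN_natAbs, sq_abs]
    have h2 : |val a.m * (x - val a.m)| ≤ |val a.m| * valN a.r := by rw [abs_mul]; gcongr
    have h3 : (x - val a.m) ^ 2 ≤ valN a.r ^ 2 := by rw [← sq_abs]; gcongr
    have h4 := sq_nonneg (x - val a.m)
    rw [abs_le] at h2 ⊢
    constructor <;> nlinarith [h2.1, h2.2]
  have e3 : x ^ 2 * 2 ^ 48 - (2 * ((a.m.natAbs : ℝ) * a.m.natAbs) + a.r * a.r) / 2 ^ 49 =
      (x ^ 2 - (valN a.m.natAbs ^ 2 + valN a.r ^ 2 / 2)) * 2 ^ 48 := by
    unfold valN; ring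
  have e4 : (4 * ((a.m.natAbs : ℝ) * a.r) + a.r * a.r) / 2 ^ 49 =
      (2 * (valN a.m.natAbs * valN a.r) + valN a.r ^ 2 / 2) * 2 ^ 48 := by
    unfold valN; ring
  rw [e3, e4, abs_mul, abs_of_pos (by positivity : (0 : ℝ) < 2 ^ 48)]
  gcongr

theorem mem.half (ha : a.mem x) : a.half.mem (x / 2) := by
  unfold mem at *
  refine round ?_
  unfold val valN at ha
  have e3 : x / 2 * 2 ^ 48 - (a.m : ℝ) / 2 ^ 1 = (x - (a.m : ℝ) / 2 ^ 48) * 2 ^ 47 := by ring
  have e4 : (a.r : ℝ) / 2 ^ 1 = (a.r : ℝ) / 2 ^ 48 * 2 ^ 47 := by ring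
  rw [e3, e4, abs_mul, abs_of_pos (by positivity : (0 : ℝ) < 2 ^ 47)]
  gcongr

end RB

end Crest.Agent.R086.NB
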