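import Crest.Agent.R086.NB.SDisc

/-! # Row 86, part N: boxes covered by boxes that pass a test -/

namespace Crest.Agent.R086.NB

/-- the box is covered by boxes that pass the test `f` -/
def Cov (f : ℕ → ℤ → ℤ → ℤ → ℤ → ℤ → ℤ → Bool) (x₁ x₂ y₁ y₂ z₁ z₂ : ℤ) : Prop :=
  ∀ Q : ℝ → ℝ → ℝ → Prop,
    (∀ n x₁ x₂ y₁ y₂ z₁ z₂, f n x₁ x₂ y₁ y₂ z₁ z₂ = true → Box Q x₁ x₂ y₁ y₂ z₁ z₂) → Box Q x₁ x₂ y₁ y₂ z₁ z₂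

variable {f : ℕ → ℤ → ℤ → ℤ → ℤ → ℤ → ℤ → Bool} {x₁ x₂ y₁ y₂ z₁ z₂ m : ℤ}

theorem Cov.of (τ : T) (h : τ.chk f x₁ x₂ y₁ y₂ z₁ z₂ = true) : Cov f x₁ x₂ y₁ y₂ z₁ z₂ :=
  fun _ hf => T.chk_ok hf τ _ _ _ _ _ _ h

theorem Cov.a (p : Cov f x₁ m y₁ y₂ z₁ z₂) (q : Cov f m x₂ y₁ y₂ z₁ z₂) : Cov f x₁ x₂ y₁ y₂ z₁ z₂ := by
  intro Q hf x y z h1 h2 h3 h4 h5 h6
  rcases le_total x (val m) with hm | hm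
  · exact p Q hf x y z h1 hm h3 h4 h5 h6
  · exact q Q hf x y z hm h2 h3 h4 h5 h6

theorem Cov.b (p : Cov f x₁ x₂ y₁ m z₁ z₂) (q : Cov f x₁ x₂ m y₂ z₁ z₂) : Cov f x₁ x₂ y₁ y₂ z₁ z₂ := by
  intro Q hf x y z h1 h2 h3 h4 h5 h6
  rcases le_total y (val m) with hm | hm
  · exact p Q hf x y z h1 h2 h3 hm h5 h6
  · exact q Q hf x y z h1 h2 hm h4 h5 h6

theorem Cov.c (p : Cov f x₁ x₂ y₁ y₂ z₁ m) (q : Cov f x₁ x₂ y₁ y₂ m z₂) : Cov f x₁ x₂ y₁ y₂ z₁ z₂ := by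
  intro Q hf x y z h1 h2 h3 h4 h5 h6
  rcases le_total z (val m) with hm | hm
  · exact p Q hf x y z h1 h2 h3 h4 h5 hm
  · exact q Q hf x y z h1 h2 h3 h4 hm h6

end Crest.Agent.R086.NB
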