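import Crest.Agent.R086.Defs

/-!
# Row 86, part N (version B, helper13): definitions

Levels `w_j = i^j 𝒟^j f` of a solution of `i 𝒟 f = α f + θ f + e`, `θ = (r/2) ∂_r`, `ρ = r²/4`, `M = m(m+10)`:
`θ w_j = -(α+j) w_j + w_{j+1} - e_j`, and a three-term recurrence in `j`.
`ζ_j = w_{j+1}/w_j + 5/2 + iρ/2 - (α+j)` is the logarithmic derivative of `y_j = r⁵ e^{iρ/2} w_j`.
-/

open MeasureTheory Set Filter Topology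
open scoped ComplexConjugate

namespace Crest.Agent.R086.NB

noncomputable section

/-- M = m(m+10) -/
def MM (m : ℕ) : ℝ := (m : ℝ) * (m + 10)
/-- A = M/4 + 5α - α² = ν² - (5/2 - α)², ν² = (M+25)/4 -/
def AA (M : ℝ) (α : ℂ) : ℂ := (M : ℂ) / 4 + 5 * α - α ^ 2
/-- s = 4 + iρ - 2α -/
def ss (ρ : ℝ) (α : ℂ) : ℂ := 4 + Complex.I * ρ - 2 * α

/-! ## at one point -/

/-- the levels of an admissible homogeneous solution at the point ρ; `neg` says Re ζ_j ≤ 0 -/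
structure Seq (M ρ : ℝ) (α : ℂ) (w : ℕ → ℂ) : Prop where
  recu : ∀ j : ℕ, w (j + 2) = AA M (α + j) * w j - ss ρ (α + j) * w (j + 1)
  neg : ∀ j : ℕ, 5 / 2 ≤ α.re + j → (conj (w j) * w (j + 1)).re ≤ (α.re + j - 5 / 2) * ‖w j‖ ^ 2

/-- the flux Im ζ_j |w_j|² -/
def fl (ρ : ℝ) (α : ℂ) (w : ℕ → ℂ) (j : ℕ) : ℝ :=
  (conj (w j) * w (j + 1)).im + (ρ / 2 - α.im) * ‖w j‖ ^ 2

/-- a forced solution W (forcing c φ, φ homogeneous at α₀): w = (α-α₀) W + c φ, ω_j = φ_j W_{j+1} - W_j φ_{j+1} -/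
structure Pair (M ρ : ℝ) (α α₀ : ℂ) (w φ ω : ℕ → ℂ) : Prop where
  hw : Seq M ρ α w
  hφ : Seq M ρ α₀ φ
  recu : ∀ j : ℕ, ω (j + 1) = -AA M (α₀ + j) * ω j + (5 - (α + j) - (α₀ + j)) * φ (j + 1) * w j
    + 2 * φ (j + 1) * w (j + 1)
  bd : ∀ j : ℕ, 5 ≤ j → ∀ a : ℝ, 0 < a → ‖ω j - φ j * w j‖ ≤
    (a * fl ρ α₀ φ j / (α₀.re + j - 3) + fl ρ α w j / (a * (α.re + j - 3))) / 2

/-! ## on (R, ∞) -/

/-- homogeneous levels -/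
structure HL (R M : ℝ) (α : ℂ) (φ : ℕ → ℝ → ℂ) : Prop where
  d : ∀ (j : ℕ) (r : ℝ), R < r →
    HasDerivAt (φ j) (2 / (r : ℂ) * (-(α + j) * φ j r + φ (j + 1) r)) r
  recu : ∀ (j : ℕ) (r : ℝ), R < r →
    φ (j + 2) r = AA M (α + j) * φ j r - ss (r ^ 2 / 4) (α + j) * φ (j + 1) r

/-- forced levels -/
structure FL (R M : ℝ) (α α₀ c : ℂ) (w φ : ℕ → ℝ → ℂ) : Prop where
  hφ : HL R M α₀ φ
  d : ∀ (j : ℕ) (r : ℝ), R < r →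
    HasDerivAt (w j) (2 / (r : ℂ) * (-(α + j) * w j r + w (j + 1) r - c * φ j r)) r
  recu : ∀ (j : ℕ) (r : ℝ), R < r →
    w (j + 2) r = AA M (α + j) * w j r - ss (r ^ 2 / 4) (α + j) * w (j + 1) r
      + c * ((5 - (α + j) - (α₀ + j)) * φ j r + 2 * φ (j + 1) r)

/-- L²(r¹¹ dr) near ∞ -/
def L2 (R : ℝ) (u : ℝ → ℂ) : Prop := IntegrableOn (fun r : ℝ => r ^ 11 * ‖u r‖ ^ 2) (Ioi (R + 1))

/-- r⁶ u → 0 -/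
def Dec (u : ℝ → ℂ) : Prop := Tendsto (fun r : ℝ => r ^ 12 * ‖u r‖ ^ 2) atTop (𝓝 0)

/-! ## the algebraic statements (proved by kernel computation) -/

/-- the box for (b, ρ), ρ = R²/4 -/
def Bx (b ρ : ℝ) : Prop := b ∈ Icc (0.334766 : ℝ) 0.334786 ∧ ρ ∈ Icc (2.704972 : ℝ) 2.705170

/-- λ is within 1/4 of λ* -/
def Nr (ls : ℝ) (lam : ℂ) : Prop := |lam.re - ls| ≤ 1 / 4 ∧ |lam.im| ≤ 1 / 4

/-- away from the symmetry eigenvalues -/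
def AlgFar : Prop :=
  ∀ (m : ℕ) (b ρ : ℝ) (lam : ℂ) (u v : ℕ → ℂ), Bx b ρ → 0 ≤ lam.re → lam.re ≤ 33 / 10 →
    (m = 0 → ¬ Nr 0 lam ∧ ¬ Nr 1 lam) → (m = 1 → ¬ Nr (1 / 2) lam) →
    Seq (MM m) ρ (lam - Complex.I * b) u → Seq (MM m) ρ (conj lam - Complex.I * b) v →
    u 0 + conj (v 0) = 0 → u 1 - conj (v 1) = (2 * lam + m) * u 0 → u 0 = 0 ∧ u 1 = 0

/-- m = 0, near λ* ∈ {0, 1} -/
def AlgNear0 : Prop :=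
  ∀ (ls b ρ : ℝ) (lam : ℂ) (u v φ ω ω' : ℕ → ℂ), (ls = 0 ∨ ls = 1) → Bx b ρ → 0 ≤ lam.re → Nr ls lam →
    Pair 0 ρ (lam - Complex.I * b) (ls - Complex.I * b) u φ ω →
    Pair 0 ρ (conj lam - Complex.I * b) (ls - Complex.I * b) v φ ω' →
    φ 0 ≠ 0 → conj (φ 0) = -φ 0 → u 0 + conj (v 0) = 0 → ω 0 + conj (ω' 0) = 2 * φ 0 * u 0 →
    u 0 = 0 ∧ u 1 = 0 ∧ v 1 = 0 ∧ ω 0 = 0 ∧ ω' 0 = 0

/-- m = 1, near λ* = 1/2; `f₀ = W_0` -/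
def AlgNear1 : Prop :=
  ∀ (b ρ : ℝ) (lam f₀ : ℂ) (u v φ ω ω' : ℕ → ℂ), Bx b ρ → Nr (1 / 2) lam →
    Pair 11 ρ (lam - Complex.I * b) (1 / 2 - Complex.I * b) u φ ω →
    Pair 11 ρ (conj lam - Complex.I * b) (1 / 2 - Complex.I * b) v φ ω' →
    φ 0 = 0 → φ 1 ≠ 0 → u 0 = (lam - 1 / 2) * f₀ → v 0 = -conj (u 0) →
    ω 0 = -f₀ * φ 1 → ω' 0 = conj f₀ * φ 1 → u 1 - conj (v 1) = (2 * lam + 1) * u 0 →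
    f₀ = 0 ∧ u 1 = 0 ∧ v 1 = 0

/-- ℓ = θF/F = w₁/w₀ + ib,  F'/F = (2/r) ℓ -/
def AlgMatch : Prop :=
  ∀ (b r : ℝ) (w : ℕ → ℂ), b ∈ Icc (0.334766 : ℝ) 0.334786 → r ∈ Icc (3.28936 : ℝ) 3.28948 →
    Seq 0 (r ^ 2 / 4) (-Complex.I * b) w → (w 0 ≠ 0 ∨ w 1 ≠ 0) →
    w 0 ≠ 0 ∧ ‖w 1 / w 0 + Complex.I * b‖ ≤ 1 / 1000 ∧
    (r ≤ 3.28937 → 2 / 10 ^ 6 ≤ (w 1 / w 0).re) ∧ (3.28947 ≤ r → (w 1 / w 0).re ≤ -(2 / 10 ^ 6)) ∧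
    (b = 0.334766 → 2 / 10 ^ 7 ≤ (w 1 / w 0).im + b) ∧ (b = 0.334786 → (w 1 / w 0).im + b ≤ -(2 / 10 ^ 7))

end

end Crest.Agent.R086.NB
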