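import Crest.Agent.R086.NB.Ball

/-! # Row 86, part N: the kernel engine (definitions only) -/

namespace Crest.Agent.R086.NB

open RB

/-- a disc: centre `(cr + i ci)/2^48`, radius `r/2^48`; meaningful when `ok` -/
structure St where
  /-- validity -/
  ok : Bool
  /-- real part of the centre -/
  cr : ℤ
  /-- imaginary part of the centre -/
  ci : ℤ
  /-- radius -/
  r : ℕ

/-- parameters of the disc recursion -/
structure Pm where
  /-- Re α -/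
  sg : RB
  /-- Im α -/
  t : RB
  /-- ρ -/
  rho : RB
  /-- ρ/2 -/
  hr : RB
  /-- ρ/2 - t -/
  ki : RB
  /-- ν² + t² -/
  S : RB
  /-- ν² - (ρ/2)² -/
  nq : RB

/-- parameters from balls for Re α, Im α, ν², ρ -/
def mkP (sg t n2 rho : RB) : Pm :=
  ⟨sg, t, rho, half rho, sub (half rho) t, add n2 (sq t), sub n2 (sq (half rho))⟩

/-- `5/2 - j` -/
def gI (j : ℕ) : ℤ := Int.subNatNat 703687441776640 (Nat.mul j one)
/-- `g = 5/2 - j - σ` -/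
def gB (sg : RB) (j : ℕ) : RB := sub (pt (gI j)) sg
/-- `a b + c d` for points -/
def dot (a b c d : ℤ) : RB := ⟨Int.shiftRight (Int.add (Int.mul a b) (Int.mul c d)) 48, 2⟩
/-- `⌊a/b⌋ + 1` -/
def cdiv (a b : ℕ) : ℕ := Nat.succ (Nat.div a b)

/-- the first disc, at level `j` -/
def start (P : Pm) (j : ℕ) : St :=
  let g := gB P.sg j
  let g2 := sq g
  let tg := two g
  let G := neg tg
  let gs := add g2 P.S
  let cr := Int.neg (Int.ediv (Int.mul gs.m (Int.ofNat one)) G.m)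
  let ci := P.hr.m
  let h₁ := hyp (sub gs (cmul cr tg)).mag (sub (mul g P.rho) (cmul ci tg)).mag
  let h₂ := hyp (sub P.S g2).mag (two (mul g P.t)).mag
  ⟨ltZ (Int.ofNat 0) G.lo, cr, ci, cdiv (Nat.mul (Nat.add h₁ h₂) one) G.lo.natAbs⟩

/-- from level `j+1` to level `j` -/
def step (P : Pm) (j : ℕ) (s : St) : St :=
  let g := gB P.sg j
  let Dr := add g (pt s.cr)
  let Di := add P.ki (pt s.ci)
  let R2 := sq (pt (Int.ofNat s.r))
  let Δ := sub (add (sq Dr) (sq Di)) R2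
  let Ar := sub P.S (sq g)
  let Ai := two (mul g P.t)
  let cr := Int.add g.m (Int.ediv (Int.add (Int.mul Ar.m Dr.m) (Int.mul Ai.m Di.m)) Δ.m)
  let ci := Int.add P.ki.m (Int.ediv (Int.sub (Int.mul Ai.m Dr.m) (Int.mul Ar.m Di.m)) Δ.m)
  let er := Int.sub s.cr cr
  let ei := Int.sub s.ci ci
  let pe := add P.rho (pt ei)
  let nr := sub (add (add (sub P.nq (dot s.cr cr (Int.neg s.ci) ci)) (cmul er g)) (mul P.t pe)) (cmul ei P.hr)
  let ni := add (sub (mul g pe) (dot s.cr ci s.ci cr)) (cmul er P.ki)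
  let Nr := sub (add (mul nr Dr) (mul ni Di)) (mul R2 (sub g (pt cr)))
  let Ni := sub (sub (mul ni Dr) (mul nr Di)) (mul R2 (sub P.ki (pt ci)))
  ⟨and s.ok (ltZ (Int.ofNat 0) Δ.lo), cr, ci,
    cdiv (Nat.add (Nat.mul (hyp Nr.mag Ni.mag) one) (Nat.mul (hyp Ar.mag Ai.mag) s.r)) Δ.lo.natAbs⟩

/-- start at level `N`, `k` steps -/
def iter (P : Pm) (N k : ℕ) : St :=
  Nat.rec (motive := fun _ => St) (start P N) (fun i s => step P (Nat.sub N (Nat.succ i)) s) k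

/-- ρ ∈ [2.704972, 2.705170] -/
def rhoB : RB := iv (Int.ofNat 761381930702976) (Int.ofNat 761437662748366)
/-- b ∈ [0.334766, 0.334786] -/
def bB : RB := iv (Int.ofNat 94228252053519) (Int.ofNat 94233881553054)
/-- ν = (m+5)/2 -/
def nuI (m : ℕ) : ℕ := Nat.mul (Nat.add m 5) 140737488355328
/-- ν² -/
def n2B (m : ℕ) : RB := pt (Int.ofNat (Nat.mul (Nat.mul (Nat.add m 5) (Nat.add m 5)) 70368744177664))
/-- Re ζ < ν -/
def tst (nu : ℕ) (s : St) : Bool := and s.ok (ltZ (Int.add s.cr (Int.ofNat s.r)) (Int.ofNat nu))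

/-- the one-sided test at the levels 0,…,3 on the box `[s₁,s₂] × [t₁,t₂]` -/
def oneD (m n : ℕ) (s₁ s₂ t₁ t₂ _z₁ _z₂ : ℤ) : Bool :=
  let P := mkP (iv s₁ s₂) (iv t₁ t₂) (n2B m) rhoB
  let a₃ := iter P (Nat.add n 3) n
  let a₂ := step P 2 a₃
  let a₁ := step P 1 a₂
  let a₀ := step P 0 a₁
  and (tst (nuI m) a₃) (and (tst (nuI m) a₂) (and (tst (nuI m) a₁) (tst (nuI m) a₀)))

/-! ## subdivision trees -/

/-- a subdivision of a box in three variables -/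
inductive T where
  /-- leaf with a hint -/
  | l (n : ℕ) : T
  /-- halve the first variable -/
  | a (x y : T) : T
  /-- halve the second variable -/
  | b (x y : T) : T
  /-- halve the third variable -/
  | c (x y : T) : T

/-- midpoint -/
def mid (a b : ℤ) : ℤ := Int.shiftRight (Int.add a b) 1

/-- run the test on all leaves -/
noncomputable def T.chk (f : ℕ → ℤ → ℤ → ℤ → ℤ → ℤ → ℤ → Bool) (τ : T) : ℤ → ℤ → ℤ → ℤ → ℤ → ℤ → Bool :=
  T.rec (motive := fun _ => ℤ → ℤ → ℤ → ℤ → ℤ → ℤ → Bool) f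
    (fun _ _ p q x₁ x₂ y₁ y₂ z₁ z₂ => and (p x₁ (mid x₁ x₂) y₁ y₂ z₁ z₂) (q (mid x₁ x₂) x₂ y₁ y₂ z₁ z₂))
    (fun _ _ p q x₁ x₂ y₁ y₂ z₁ z₂ => and (p x₁ x₂ y₁ (mid y₁ y₂) z₁ z₂) (q x₁ x₂ (mid y₁ y₂) y₂ z₁ z₂))
    (fun _ _ p q x₁ x₂ y₁ y₂ z₁ z₂ => and (p x₁ x₂ y₁ y₂ z₁ (mid z₁ z₂)) (q x₁ x₂ y₁ y₂ (mid z₁ z₂) z₂)) τ

/-! ## the quadratic form recursion -/

/-- state -/
structure Sq where
  /-- validity -/
  ok : Bool
  /-- τ -/
  τ : ℤ
  /-- x -/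
  x : ℤ
  /-- y -/
  y : ℤ

/-- parameters -/
structure Pq where
  /-- Re α -/
  sg : RB
  /-- ε -/
  e : RB
  /-- u -/
  u : RB
  /-- V -/
  V : RB
  /-- ε² -/
  e2 : RB
  /-- u₁ = u - ερ -/
  u1 : RB
  /-- uρ -/
  ur : RB
  /-- u² + V -/
  pV : RB
  /-- u² - V -/
  mV : RB
  /-- u u₁ -/
  uu : RB
  /-- V u₁ -/
  Vu : RB
  /-- ερ V -/
  eV : RB
  /-- ερ(ερ - 2u) -/
  w : RB
  /-- ε²u² -/
  eu : RB
  /-- hint -/
  l0 : ℕ
  /-- hint -/
  lm : ℕ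

/-- parameters from balls for σ, ε, u, V -/
def mkQ (sg e u V : RB) (l0 lm : ℕ) : Pq :=
  let er := mul e rhoB
  let u1 := sub u er
  ⟨sg, e, u, V, sq e, u1, mul u rhoB, add (sq u) V, sub (sq u) V, mul u u1, mul V u1, mul er V,
    mul er (sub er (two u)), mul (sq e) (sq u), l0, lm⟩

/-- a number `x` with `x D ≤ a` (approximately) -/
def solve (a : ℤ) (D : RB) : ℤ :=
  Int.ediv (Int.mul (Int.sub a (Int.ofNat 8)) (Int.ofNat one))
    (Int.casesOn (Int.sub a (Int.ofNat 8)) (fun _ => D.hi) (fun _ => D.lo))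

/-- from level `j+1` to level `j` -/
def qstep (P : Pq) (j : ℕ) (s : Sq) : Sq :=
  let g := gB P.sg j
  let η := sub (two g) (pt (Int.ofNat one))
  let g2 := sq g
  let dl := mul P.e (sub P.ur (mul P.e g2))
  let l := add P.V dl
  let eη := mul P.e2 (sq η)
  let h := mul P.e2 (sub (add (cmul s.τ (two (sub P.uu (mul l η)))) (cmul s.y (two (mul g P.u)))) g2)
  let D := add P.pV h
  let Z := sub (add (add (cmul s.τ (sub (add eη P.w) h)) (pt s.x)) (cmul s.y P.u1)) g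
  let X := sub (sub (add (cmul s.τ (add (add (mul P.V (sub (neg P.w) eη)) (mul dl (add l P.V))) P.eu))
    (cmul s.x P.mV)) (cmul s.y (add (mul P.u l) P.Vu))) (mul g h)
  let Y := add (add (cmul s.τ (two (sub (sub P.eV (mul dl P.u1)) (mul P.e2 (mul P.u η))))) (cmul s.x (two P.u)))
    (cmul s.y (sub P.uu l))
  let y := Int.ediv (Int.mul Y.m (Int.ofNat one)) D.m
  let p₃ := (sub Y (cmul y D)).mag
  let p₁ := Nat.succ (Nat.shiftRight (Nat.mul p₃ (Nat.min (Nat.mul P.l0 (Nat.succ j)) P.lm)) 49)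
  let p₂ := cdiv (Nat.mul p₃ p₃) (Nat.mul 4 p₁)
  let pv := (cmul (Int.ofNat p₁) P.V).lo
  let δ := solve (Int.sub Z.lo (Int.ofNat p₁)) D
  let x := solve (Int.sub (Int.add X.lo pv) (Int.ofNat p₂)) D
  ⟨and s.ok (and (ltZ (Int.ofNat 0) D.lo) (and (ltZ (Int.ofNat p₁) (sub Z (cmul δ D)).lo)
    (ltZ (Int.ofNat p₂) (Int.add pv (sub X (cmul x D)).lo)))), Int.add s.τ δ, x, y⟩

/-- start at level `N`, `k` steps -/
def qiter (P : Pq) (N k : ℕ) : Sq :=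
  Nat.rec (motive := fun _ => Sq) ⟨true, Int.ofNat 0, Int.ofNat 0, Int.ofNat 0⟩
    (fun i s => qstep P (Nat.sub N (Nat.succ i)) s) k

/-- positive definiteness, with ν ≥ 5/2 -/
def qtst (P : Pq) (s : Sq) : Bool :=
  and s.ok (and (ltZ (Int.ofNat 0) s.τ) (ltZ (Int.mul s.y s.y) (Int.mul (Int.ofNat 4) (Int.mul s.τ
    (Int.add (Int.add (cmul s.τ P.V).lo s.x) (Int.ofNat 703687441776640))))))

/-- the test at the levels 0,…,3 -/
def qrun (n : ℕ) (P : Pq) : Bool :=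
  let a₃ := qiter P (Nat.add n 3) n
  let a₂ := qstep P 2 a₃
  let a₁ := qstep P 1 a₂
  let a₀ := qstep P 0 a₁
  and (qtst P a₃) (and (qtst P a₂) (and (qtst P a₁) (qtst P a₀)))

/-- chart A: ε = 1/ν, u ∈ [z₁,z₂] -/
def oneA (n : ℕ) (s₁ s₂ e₁ e₂ z₁ z₂ : ℤ) : Bool :=
  qrun n (mkQ (iv s₁ s₂) (iv e₁ e₂) (iv z₁ z₂) (pt (Int.ofNat one)) one one)

/-- chart B: ε = 1/|t|, u = ±1, v = εν ∈ [z₁,z₂]; the hint 0 means that the box is empty (v ≥ 5ε/2) -/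
def oneB (u : ℤ) (n : ℕ) (s₁ s₂ e₁ e₂ z₁ z₂ : ℤ) : Bool :=
  Nat.casesOn n (ltZ (Int.mul (Int.ofNat 2) z₂) (Int.mul (Int.ofNat 5) e₁)) fun k =>
    qrun (Nat.shiftRight k 2) (mkQ (iv s₁ s₂) (iv e₁ e₂) (pt u) (sq (iv z₁ z₂))
      (Nat.shiftLeft 70368744177664 (Nat.mod k 4)) (Nat.div (Nat.mul one one) (Nat.succ z₁.natAbs)))

/-! ## complex rectangles, the two-sided tests -/

/-- a rectangle -/
structure CB where
  /-- real part -/
  re : RB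
  /-- imaginary part -/
  im : RB

namespace CB
/-- difference -/
def sub (a b : CB) : CB := ⟨a.re.sub b.re, a.im.sub b.im⟩
/-- product -/
def mul (a b : CB) : CB := ⟨(a.re.mul b.re).sub (a.im.mul b.im), (a.re.mul b.im).add (a.im.mul b.re)⟩
/-- product with a point -/
def cmul (x y : ℤ) (b : CB) : CB := ⟨(RB.cmul x b.re).sub (RB.cmul y b.im), (RB.cmul x b.im).add (RB.cmul y b.re)⟩
/-- upper bound of the norm -/
def up (a : CB) : ℕ := hyp a.re.mag a.im.mag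
/-- lower bound of the norm -/
def dn (a : CB) : ℕ :=
  Nat.div (Nat.add (Nat.mul a.re.mig a.re.mig) (Nat.mul a.im.mig a.im.mig)) (hyp a.re.mig a.im.mig)
end CB

/-- the hypothesis of `hom3` -/
def homT (X X' A A' K : CB) (r r' : ℕ) : Bool :=
  Nat.blt (Nat.add (Nat.add (Nat.mul r ((X'.mul K).sub A').up) (Nat.mul r' ((X.mul K).sub A).up))
      (Nat.mul (Nat.succ (Nat.shiftRight (Nat.mul r r') 48)) K.up))
    (Nat.mul ((((X.mul X').mul K).sub (A.mul X')).sub (A'.mul X)).dn one)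

/-- A at level 0 -/
def AB (P : Pm) : CB := ⟨sub P.S (sq (gB P.sg 0)), two (mul (gB P.sg 0) P.t)⟩
/-- conjugate -/
def CB.cj (a : CB) : CB := ⟨a.re, neg a.im⟩

/-- the box lies within 1/4 of the point `c` -/
def nrT (c s₁ s₂ t₁ t₂ : ℤ) : Bool :=
  and (ltZ (Int.sub c (Int.ofNat 70368744177665)) s₁) (and (ltZ s₂ (Int.add c (Int.ofNat 70368744177665)))
    (and (ltZ (Int.negSucc 70368744177664) t₁) (ltZ t₂ (Int.ofNat 70368744177665))))

/-- the two-sided test on the box `λ ∈ [s₁,s₂] + i[t₁,t₂]`.  Hints: 0, 1, 2 excluded regions (λ* = 0, 1, 1/2), 2k+3 discs at level 0, 2k+4 `hom3` -/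
def twoT (m n : ℕ) (s₁ s₂ t₁ t₂ _z₁ _z₂ : ℤ) : Bool :=
  Nat.casesOn n (and (Nat.beq m 0) (nrT (Int.ofNat 0) s₁ s₂ t₁ t₂)) fun n =>
  Nat.casesOn n (and (Nat.beq m 0) (nrT (Int.ofNat one) s₁ s₂ t₁ t₂)) fun n =>
  Nat.casesOn n (and (Nat.beq m 1) (nrT (Int.ofNat 140737488355328) s₁ s₂ t₁ t₂)) fun n =>
    let k := Nat.shiftRight n 1
    let P := mkP (iv s₁ s₂) (sub (iv t₁ t₂) bB) (n2B m) rhoB
    let Q := mkP (iv s₁ s₂) (sub (neg (iv t₁ t₂)) bB) (n2B m) rhoB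
    Nat.casesOn (Nat.mod n 2)
      (let a := iter P k k
       let b := iter Q k k
       and a.ok (and b.ok (Nat.blt (Nat.add a.r b.r)
        (CB.dn ⟨pt (Int.sub (Int.add a.cr b.cr) (Int.ofNat (Nat.mul 2 (nuI m)))), pt (Int.sub a.ci b.ci)⟩))))
      (fun _ =>
       let a := iter P (Nat.succ k) k
       let b := iter Q (Nat.succ k) k
       and a.ok (and b.ok (homT ⟨add (pt a.cr) (gB P.sg 0), add (pt a.ci) P.ki⟩
        (CB.cj ⟨add (pt b.cr) (gB Q.sg 0), add (pt b.ci) Q.ki⟩) (AB P) (AB Q).cj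
        ⟨add (two (iv s₁ s₂)) (pt (Int.ofNat (Nat.mul m one))), two (iv t₁ t₂)⟩ a.r b.r)))

/-! ## the divided difference -/

/-- the discs for ζ (at α), ζ (at α₀) and χ -/
structure S3 where
  /-- ζ at α -/
  z : St
  /-- ζ at α₀ -/
  s : St
  /-- χ -/
  c : St

/-- level `j + 3` -/
def cstart (P Q : Pm) (j : ℕ) : S3 :=
  let z := start P (Nat.add j 3)
  let s := start Q (Nat.add j 3)
  ⟨z, s, ⟨and z.ok (and s.ok (Nat.ble 2 j)), Int.ofNat 0, Int.ofNat 0,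
    cdiv (Nat.max (Nat.add z.ci.natAbs z.r) (Nat.add s.ci.natAbs s.r)) j⟩⟩

/-- from level `j+1` to level `j` -/
def cstep (P Q : Pm) (j : ℕ) (a : S3) : S3 :=
  let z := step P j a.z
  let x : CB := ⟨sub (pt z.cr) (gB P.sg j), sub (pt z.ci) P.ki⟩
  let X : CB := ⟨add (pt a.s.cr) (gB Q.sg j), add (pt a.s.ci) Q.ki⟩
  let num : CB := CB.sub ⟨pt (Int.sub z.cr a.s.cr), sub (pt (Int.sub z.ci a.s.ci)) P.rho⟩ (CB.cmul a.c.cr a.c.ci x)
  let q := Int.shiftRight (Int.add (Int.mul X.re.m X.re.m) (Int.mul X.im.m X.im.m)) 48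
  let cr := Int.ediv (Int.add (Int.mul num.re.m X.re.m) (Int.mul num.im.m X.im.m)) q
  let ci := Int.ediv (Int.sub (Int.mul num.im.m X.re.m) (Int.mul num.re.m X.im.m)) q
  let d := Nat.sub X.dn a.s.r
  let h₁ := (num.sub (CB.cmul cr ci X)).up
  let h₂ := hyp (Int.sub (Int.ofNat one) a.c.cr).natAbs a.c.ci.natAbs
  let h₃ := hyp (Int.add (Int.ofNat one) cr).natAbs ci.natAbs
  ⟨z, step Q j a.s, ⟨and a.c.ok (and z.ok (and a.s.ok (Nat.blt 0 d))), cr, ci,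
    cdiv (Nat.add (Nat.add (Nat.add (Nat.mul h₁ one) (Nat.mul h₂ z.r)) (Nat.mul h₃ a.s.r))
      (Nat.mul a.c.r (Nat.add x.up z.r))) d⟩⟩

/-- start at level `n + 3`, `k` steps -/
def citer (P Q : Pm) (n k : ℕ) : S3 :=
  Nat.rec (motive := fun _ => S3) (cstart P Q n) (fun i s => cstep P Q (Nat.sub (Nat.add n 3) (Nat.succ i)) s) k

/-- m = 0, near λ* = `c` -/
def near0T (c : ℤ) (n : ℕ) (s₁ s₂ t₁ t₂ _z₁ _z₂ : ℤ) : Bool :=
  let O := mkP (pt c) (neg bB) (n2B 0) rhoB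
  let a := citer (mkP (iv s₁ s₂) (sub (iv t₁ t₂) bB) (n2B 0) rhoB) O n (Nat.add n 3)
  let b := citer (mkP (iv s₁ s₂) (sub (neg (iv t₁ t₂)) bB) (n2B 0) rhoB) O n (Nat.add n 3)
  and a.c.ok (and b.c.ok (Nat.blt (Nat.add a.c.r b.c.r)
    (CB.dn ⟨pt (Int.add a.c.cr b.c.cr), pt (Int.sub a.c.ci b.c.ci)⟩)))

/-- m = 1, near λ* = 1/2 -/
def near1T (n : ℕ) (s₁ s₂ t₁ t₂ _z₁ _z₂ : ℤ) : Bool :=
  let O := mkP (pt (Int.ofNat 140737488355328)) (neg bB) (n2B 1) rhoB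
  let P := mkP (iv s₁ s₂) (sub (iv t₁ t₂) bB) (n2B 1) rhoB
  let Q := mkP (iv s₁ s₂) (sub (neg (iv t₁ t₂)) bB) (n2B 1) rhoB
  let a := citer P O n (Nat.add n 2)
  let b := citer Q O n (Nat.add n 2)
  and a.c.ok (and b.c.ok (homT ⟨pt (Int.sub a.c.cr (Int.ofNat one)), pt a.c.ci⟩
    ⟨pt (Int.sub b.c.cr (Int.ofNat one)), pt (Int.neg b.c.ci)⟩ (AB P) (AB Q).cj
    (CB.mul ⟨add (two (iv s₁ s₂)) (pt (Int.ofNat one)), two (iv t₁ t₂)⟩
      ⟨sub (iv s₁ s₂) (pt (Int.ofNat 140737488355328)), iv t₁ t₂⟩) a.c.r b.c.r))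

/-! ## the matching conditions -/

/-- the enclosure of ℓ on the box `b ∈ [b₁,b₂]`, `r ∈ [r₁,r₂]` satisfies the test `f` -/
def matT (f : CB → Bool) (n : ℕ) (b₁ b₂ r₁ r₂ _z₁ _z₂ : ℤ) : Bool :=
  let P := mkP (pt (Int.ofNat 0)) (neg (iv b₁ b₂)) (n2B 0) (half (half (sq (iv r₁ r₂))))
  let a := iter P n n
  and a.ok (f ⟨⟨Int.sub a.cr (Int.ofNat 703687441776640), a.r⟩, sub ⟨a.ci, a.r⟩ P.hr⟩)

/-- |ℓ| ≤ 1/1000 -/
def f0 (l : CB) : Bool := Nat.blt l.up 281474976710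
/-- Re ℓ ≥ 2e-6 -/
def f1 (l : CB) : Bool := ltZ (Int.ofNat 562949954) l.re.lo
/-- Re ℓ ≤ -2e-6 -/
def f2 (l : CB) : Bool := ltZ l.re.hi (Int.negSucc 562949954)
/-- Im ℓ ≥ 2e-7 -/
def f3 (l : CB) : Bool := ltZ (Int.ofNat 56294996) l.im.lo
/-- Im ℓ ≤ -2e-7 -/
def f4 (l : CB) : Bool := ltZ l.im.hi (Int.negSucc 56294996)

end Crest.Agent.R086.NB
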