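import Crest.Agent.R086.NB.Neg

/-! # Row 86, part N: the Wronskian bound (task) -/

open MeasureTheory Set Filter Topology
open scoped ComplexConjugate

namespace Crest.Agent.R086.NB

noncomputable section

/-- flux: (r¹⁰ fl)' = -(Re α + j - 3)(r/2) r¹⁰|w_j|² -/
theorem HL.flux {R M : ℝ} (hR : 0 < R) {α : ℂ} {w : ℕ → ℝ → ℂ} (h : HL R M α w) (j : ℕ) {r : ℝ} (hr : R < r) :
    HasDerivAt (fun s : ℝ => s ^ 10 * fl (s ^ 2 / 4) α (fun i => w i s) j)
      (-(α.re + j - 3) * (r / 2) * (r ^ 10 * ‖w j r‖ ^ 2)) r := by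
  have hr0 : r ≠ 0 := (hR.trans hr).ne'
  have ha := h.d j r hr
  have hb := h.d (j + 1) r hr
  have e : w (j + 1 + 1) r = _ := h.recu j r hr
  rw [e] at hb
  have h2 : (2 / (r : ℂ)) = ((2 / r : ℝ) : ℂ) := by push_cast; rfl
  rw [h2] at ha hb
  have a1 : HasDerivAt (fun s => (w j s).re) _ r := Complex.reCLM.hasFDerivAt.comp_hasDerivAt r ha
  have a2 : HasDerivAt (fun s => (w j s).im) _ r := Complex.imCLM.hasFDerivAt.comp_hasDerivAt r ha
  have b1 : HasDerivAt (fun s => (w (j + 1) s).re) _ r := Complex.reCLM.hasFDerivAt.comp_hasDerivAt r hb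
  have b2 : HasDerivAt (fun s => (w (j + 1) s).im) _ r := Complex.imCLM.hasFDerivAt.comp_hasDerivAt r hb
  have e1 : (fun s : ℝ => s ^ 10 * fl (s ^ 2 / 4) α (fun i => w i s) j) = fun s : ℝ => s ^ 10 *
      (((w j s).re * (w (j + 1) s).im - (w j s).im * (w (j + 1) s).re) +
        (s ^ 2 / 4 / 2 - α.im) * ((w j s).re * (w j s).re + (w j s).im * (w j s).im)) := by
    funext s
    rw [fl, Complex.sq_norm, Complex.normSq_apply]
    simp only [Complex.mul_im, Complex.conj_re, Complex.conj_im]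
    ring
  rw [e1]
  have key := (hasDerivAt_pow 10 r).mul (((a1.mul b2).sub (a2.mul b1)).add
    (((((hasDerivAt_pow 2 r).div_const 4).div_const 2).sub_const α.im).mul ((a1.mul a1).add (a2.mul a2))))
  refine HasDerivAt.congr_deriv key ?_
  rw [Complex.sq_norm, Complex.normSq_apply]
  simp only [Complex.reCLM_apply, Complex.imCLM_apply, AA, ss,
    Pi.mul_apply, Pi.add_apply, Pi.sub_apply, pow_two (α + (j : ℂ)),
    Complex.add_re, Complex.add_im, Complex.sub_re, Complex.sub_im, Complex.mul_re, Complex.mul_im,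
    Complex.neg_re, Complex.neg_im, Complex.natCast_re, Complex.natCast_im, Complex.ofReal_re,
    Complex.ofReal_im, Complex.I_re, Complex.I_im, Complex.div_ofNat_re, Complex.div_ofNat_im,
    Complex.re_ofNat, Complex.im_ofNat]
  push_cast
  field_simp
  ring

theorem om_dec {u : ℝ → ℂ} (h : Dec u) : Tendsto (fun r : ℝ => (r : ℂ) ^ 6 * u r) atTop (𝓝 0) := by
  rw [tendsto_zero_iff_norm_tendsto_zero]
  have := h.sqrt
  rw [Real.sqrt_zero] at this
  refine this.congr fun r => ?_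
  rw [norm_mul, norm_pow, Complex.norm_real, Real.norm_eq_abs, ← Real.sqrt_sq
    (show 0 ≤ |r| ^ 6 * ‖u r‖ by positivity), mul_pow, ← pow_mul, Even.pow_abs (by decide)]

theorem om_inv : Tendsto (fun r : ℝ => ((r : ℂ) ^ 2)⁻¹) atTop (𝓝 0) := by
  have h : Tendsto (fun r : ℝ => (r ^ 2)⁻¹) atTop (𝓝 0) :=
    (tendsto_pow_atTop two_ne_zero).inv_tendsto_atTop
  have := (Complex.continuous_ofReal.tendsto 0).comp h
  simpa [Function.comp_def] using this

theorem om_mul {u v : ℝ → ℂ} (hu : Dec u) (hv : Dec v) :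
    Tendsto (fun r : ℝ => (r : ℂ) ^ 10 * (u r * v r)) atTop (𝓝 0) := by
  have := ((om_dec hu).mul (om_dec hv)).mul om_inv
  rw [mul_zero] at this
  refine this.congr' ?_
  filter_upwards [eventually_gt_atTop 0] with r hr
  have : (r : ℂ) ≠ 0 := by exact_mod_cast hr.ne'
  field_simp

theorem om_fl {α : ℂ} {w : ℕ → ℝ → ℂ} {j : ℕ} (h0 : Dec (w j)) (h1 : Dec (w (j + 1))) :
    Tendsto (fun s : ℝ => s ^ 10 * fl (s ^ 2 / 4) α (fun i => w i s) j) atTop (𝓝 0) := by
  have hc : Dec (fun s => conj (w j s)) := by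
    simpa only [Dec, Complex.norm_conj] using h0
  have t1 := (Complex.continuous_im.tendsto 0).comp (om_mul hc h1)
  have t2 : Tendsto (fun r : ℝ => (r ^ 2)⁻¹) atTop (𝓝 0) :=
    (tendsto_pow_atTop two_ne_zero).inv_tendsto_atTop
  have t3 := t1.add (((t2.const_mul α.im).const_sub (1 / 8)).mul h0)
  rw [mul_zero, add_zero, Complex.zero_im] at t3
  refine t3.congr' ?_
  filter_upwards [eventually_gt_atTop 0] with r hr
  have e : ((r : ℂ) ^ 10) = ((r ^ 10 : ℝ) : ℂ) := by push_cast; rfl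
  simp only [Function.comp_def, fl, e, Complex.im_ofReal_mul]
  field_simp
  ring

theorem om_der {R M : ℝ} (hR : 0 < R) {α α₀ c : ℂ} {w φ : ℕ → ℝ → ℂ} (h : FL R M α α₀ c w φ)
    (j : ℕ) {r : ℝ} (hr : R < r) :
    HasDerivAt (fun s : ℝ => Complex.exp (Complex.I * ((s : ℂ) ^ 2 / 4)) * ((s : ℂ) ^ 10 *
      (φ j s * w (j + 1) s - w j s * φ (j + 1) s - φ j s * ((α - α₀) * w j s + c * φ j s))))
      (Complex.exp (Complex.I * ((r : ℂ) ^ 2 / 4)) * (-Complex.I * ((r / 2 * r ^ 10 : ℝ) : ℂ) *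
        (φ j r * ((α - α₀) * w j r + c * φ j r)))) r := by
  have hr0 : (r : ℂ) ≠ 0 := by exact_mod_cast (hR.trans hr).ne'
  have hs : HasDerivAt (fun s : ℝ => (s : ℂ)) 1 r := by
    simpa using (hasDerivAt_id r).ofReal_comp
  have a0 := h.d j r hr
  have a1 := h.d (j + 1) r hr
  have p0 := h.hφ.d j r hr
  have p1 := h.hφ.d (j + 1) r hr
  have e : w (j + 1 + 1) r = _ := h.recu j r hr
  have e' : φ (j + 1 + 1) r = _ := h.hφ.recu j r hr
  rw [e] at a1
  rw [e'] at p1
  have key := ((((hs.pow 2).div_const 4).const_mul Complex.I).cexp).mul ((hs.pow 10).mul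
    (((p0.mul a1).sub (a0.mul p1)).sub (p0.mul ((a0.const_mul (α - α₀)).add (p0.const_mul c)))))
  refine HasDerivAt.congr_deriv key ?_
  simp only [AA, ss, Pi.mul_apply, Pi.add_apply, Pi.sub_apply, Pi.pow_apply]
  push_cast
  field_simp
  ring

/-- u = (α-α₀)w + cφ (`FL.hom`, `L2.comb`, `HL.seq`).  `recu` is `linear_combination` of the recurrences.
`bd`: Ω = r¹⁰e^{iρ}(φ_j w_{j+1} - w_j φ_{j+1} - φ_j u_j) has Ω' = -i (r/2) r¹⁰ e^{iρ} φ_j u_j.  For |ε| = 1,
G = Re(εΩ) - r¹⁰(a fl_φ/γ₀ + fl_u/(aγ))/2 has G' ≥ (r/2)r¹⁰(-|φ_j||u_j| + (a|φ_j|² + |u_j|²/a)/2) ≥ 0 and G → 0 at ∞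
(`Dec` for the levels j, j+1 ≥ 5 of w, φ, u), so G(r) ≤ 0; choose ε with Re(εΩ(r)) = |Ω(r)|. -/
theorem FL.pair {R M : ℝ} (hR : 0 < R) (hM : 0 ≤ M) {α α₀ c : ℂ} {w φ : ℕ → ℝ → ℂ} (h : FL R M α α₀ c w φ)
    (hα : 0 ≤ α.re) (hα₀ : 0 ≤ α₀.re) (hw : L2 R (w 4)) (hφ : L2 R (φ 4)) {r : ℝ} (hr : R < r) :
    Pair M (r ^ 2 / 4) α α₀ (fun j => (α - α₀) * w j r + c * φ j r) (fun j => φ j r)
      (fun j => φ j r * w (j + 1) r - w j r * φ (j + 1) r) := by
  have hu := h.hom
  have hu4 : L2 R (fun r => (α - α₀) * w 4 r + c * φ 4 r) :=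
    L2.comb hR hw hφ (h.cont 4) (h.hφ.cont 4) (α - α₀) c
  refine ⟨hu.seq hR hM hα hu4 hr, h.hφ.seq hR hM hα₀ hφ hr, fun j => ?_, fun j hj a ha => ?_⟩
  · have e : w (j + 1 + 1) r = _ := h.recu j r hr
    have e' : φ (j + 1 + 1) r = _ := h.hφ.recu j r hr
    simp only [e, e', AA, ss]
    ring
  · obtain ⟨i, rfl⟩ : ∃ i, j = i + 1 := ⟨j - 1, by omega⟩
    have dw0 := (h.l2 hR hα hα₀ hw hφ i (by omega)).2
    have dw1 := (h.l2 hR hα hα₀ hw hφ (i + 1) (by omega)).2
    have dp0 := (h.hφ.l2 hR hα₀ hφ i (by omega)).2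
    have dp1 := (h.hφ.l2 hR hα₀ hφ (i + 1) (by omega)).2
    have du0 := (hu.l2 hR hα hu4 i (by omega)).2
    have du1 := (hu.l2 hR hα hu4 (i + 1) (by omega)).2
    generalize i + 1 = j at *
    have hj' : (5 : ℝ) ≤ j := by exact_mod_cast hj
    have g0 : 0 < α₀.re + j - 3 := by linarith
    have g1 : 0 < α.re + j - 3 := by linarith
    have hr0 : 0 < r := hR.trans hr
    set D : ℝ → ℂ := fun s => (s : ℂ) ^ 10 *
      (φ j s * w (j + 1) s - w j s * φ (j + 1) s - φ j s * ((α - α₀) * w j s + c * φ j s)) with hD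
    set E : ℝ → ℂ := fun s => Complex.exp (Complex.I * ((s : ℂ) ^ 2 / 4)) with hE
    have nE : ∀ s, ‖E s‖ = 1 := fun s => by
      have : Complex.I * ((s : ℂ) ^ 2 / 4) = ((s ^ 2 / 4 : ℝ) : ℂ) * Complex.I := by push_cast; ring
      simp only [hE, this, Complex.norm_exp_ofReal_mul_I]
    obtain ⟨ε, hε, hεr⟩ := Complex.exists_norm_eq_mul_self (E r * D r)
    set G : ℝ → ℝ := fun s => (ε * (E s * D s)).re -
      (a * (s ^ 10 * fl (s ^ 2 / 4) α₀ (fun i => φ i s) j) / (α₀.re + j - 3) +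
        s ^ 10 * fl (s ^ 2 / 4) α (fun i => (α - α₀) * w i s + c * φ i s) j / (a * (α.re + j - 3))) / 2
      with hG
    have hd : ∀ s, R < s → ∃ g, HasDerivAt G g s ∧ 0 ≤ g := by
      intro s hs
      have hs0 : 0 < s := hR.trans hs
      have k1 : HasDerivAt (fun s => (ε * (E s * D s)).re) _ s :=
        Complex.reCLM.hasFDerivAt.comp_hasDerivAt s ((om_der hR h j hs).const_mul ε)
      refine ⟨_, k1.sub ((((h.hφ.flux hR j hs).const_mul a).div_const _).add
        ((hu.flux hR j hs).div_const _) |>.div_const 2), ?_⟩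
      rw [Complex.reCLM_apply]
      set x := ‖φ j s‖
      set y := ‖(α - α₀) * w j s + c * φ j s‖
      have k2 : ‖ε * (E s * (-Complex.I * ((s / 2 * s ^ 10 : ℝ) : ℂ) *
          (φ j s * ((α - α₀) * w j s + c * φ j s))))‖ = s / 2 * s ^ 10 * (x * y) := by
        rw [norm_mul, norm_mul, norm_mul, norm_mul, norm_mul, hε, nE, norm_neg, Complex.norm_I,
          Complex.norm_real, Real.norm_of_nonneg (by positivity)]
        ring
      have k3 := (abs_le.1 (Complex.abs_re_le_norm (ε * (E s * (-Complex.I *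
        ((s / 2 * s ^ 10 : ℝ) : ℂ) * (φ j s * ((α - α₀) * w j s + c * φ j s))))))).1
      rw [k2] at k3
      have k4 : (a * (-(α₀.re + j - 3) * (s / 2) * (s ^ 10 * x ^ 2)) / (α₀.re + j - 3) +
          -(α.re + j - 3) * (s / 2) * (s ^ 10 * y ^ 2) / (a * (α.re + j - 3))) / 2 =
          -(s / 2 * s ^ 10 * (x * y)) - s / 2 * s ^ 10 * ((a * x - y) ^ 2 / (2 * a)) := by
        field_simp
        ring
      have k5 : 0 ≤ s / 2 * s ^ 10 * ((a * x - y) ^ 2 / (2 * a)) := by positivity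
      rw [k4]
      linarith
    have mono : MonotoneOn G (Ici r) := by
      refine monotoneOn_of_deriv_nonneg (convex_Ici r) (fun s hs => ?_) (fun s hs => ?_) fun s hs => ?_
      · obtain ⟨g, hg, -⟩ := hd s (hr.trans_le hs)
        exact hg.continuousAt.continuousWithinAt
      · obtain ⟨g, hg, -⟩ := hd s (hr.trans_le (interior_subset hs))
        exact hg.differentiableAt.differentiableWithinAt
      · obtain ⟨g, hg, hg0⟩ := hd s (hr.trans_le (interior_subset hs))
        rw [hg.deriv]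
        exact hg0
    have tD : Tendsto D atTop (𝓝 0) := by
      have := ((om_mul dp0 dw1).sub (om_mul dw0 dp1)).sub (om_mul dp0 du0)
      rw [sub_zero, sub_zero] at this
      exact this.congr fun s => by simp only [hD]; ring
    have tO : Tendsto (fun s => ε * (E s * D s)) atTop (𝓝 0) := by
      rw [tendsto_zero_iff_norm_tendsto_zero] at tD ⊢
      exact tD.congr fun s => by rw [norm_mul ε, norm_mul (E s), hε, nE, one_mul, one_mul]
    have tG : Tendsto G atTop (𝓝 0) := by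
      have := ((Complex.continuous_re.tendsto 0).comp tO).sub
        (((((om_fl (α := α₀) dp0 dp1).const_mul a).div_const (α₀.re + j - 3)).add
          ((om_fl (α := α) (w := fun i s => (α - α₀) * w i s + c * φ i s) du0 du1).div_const
            (a * (α.re + j - 3)))).div_const 2)
      simp only [Complex.zero_re, mul_zero, zero_div, add_zero, sub_zero] at this
      exact this
    have hG0 : G r ≤ 0 := ge_of_tendsto tG (by
      filter_upwards [eventually_ge_atTop r] with s hs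
      exact mono (mem_Ici.2 le_rfl) hs hs)
    have hn : (ε * (E r * D r)).re = r ^ 10 * ‖φ j r * w (j + 1) r - w j r * φ (j + 1) r -
        φ j r * ((α - α₀) * w j r + c * φ j r)‖ := by
      rw [← hεr, Complex.ofReal_re, norm_mul, nE, one_mul, norm_mul, norm_pow, Complex.norm_real,
        Real.norm_of_nonneg hr0.le]
    simp only [hG, hn] at hG0
    refine le_of_mul_le_mul_left ?_ (pow_pos hr0 10)
    refine (sub_nonpos.1 hG0).trans (le_of_eq ?_)
    ring

end

end Crest.Agent.R086.NB
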