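import Crest.Agent.R086.NB.Lad
import Crest.Agent.R086.NB.Om
import Crest.Agent.R086.NB.Lim

/-! # Row 86, part N: reduction of LimitStmt to the algebraic statements (task) -/

open MeasureTheory Set Filter Topology
open scoped ComplexConjugate

namespace Crest.Agent.R086.NB

noncomputable section

/-- a symmetry mode with eigenvalue `ls` and its limits at `R` -/
structure red_Mode (R b : ℝ) (m : ℕ) (ls : ℝ) (φ : ℕ → ℝ → ℂ) (Φ : ℕ → ℂ) : Prop where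
  pos : 0 ≤ ls
  hl : HL R (MM m) (ls - Complex.I * b) φ
  l2 : L2 R (φ 4)
  lim : ∀ j, Tendsto (φ j) (𝓝[>] R) (𝓝 (Φ j))
  b0 : conj (Φ 0) = -Φ 0
  b1 : conj (Φ 1) = Φ 1 - (2 * ls + m) * Φ 0

theorem red_zero (R b : ℝ) (m : ℕ) : red_Mode R b m 5 (fun _ _ => 0) (fun _ => 0) :=
  ⟨by norm_num, HL.zero _ _ _, L2.zero _, fun _ => tendsto_const_nhds, by simp, by simp⟩

theorem red_conj {R : ℝ} {u : ℝ → ℂ} {U : ℂ} (h : Tendsto u (𝓝[>] R) (𝓝 U)) :
    Tendsto (fun r => conj (u r)) (𝓝[>] R) (𝓝 (conj U)) :=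
  (Complex.continuous_conj.tendsto U).comp h

theorem red_id (R : ℝ) : Tendsto (fun r : ℝ => (r : ℂ)) (𝓝[>] R) (𝓝 (R : ℂ)) :=
  (Complex.continuous_ofReal.tendsto R).mono_left nhdsWithin_le_nhds

theorem red_deriv {R M : ℝ} {α α₀ α₁ c k : ℂ} {w φ ψ : ℕ → ℝ → ℂ} {f : ℝ → ℂ}
    (hF : FL R M α α₀ c w φ) (hψ : HL R M α₁ ψ) (h : ∀ r, R < r → w 0 r = f r + k * ψ 0 r)
    {r : ℝ} (hr : R < r) : deriv f r = 2 / (r : ℂ) * (-α * w 0 r + w 1 r - c * φ 0 r) -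
      k * (2 / (r : ℂ) * (-α₁ * ψ 0 r + ψ 1 r)) := by
  have h1 := (hF.d 0 r hr).sub ((hψ.d 0 r hr).const_mul k)
  have e : f =ᶠ[𝓝 r] (w 0 - fun s => k * ψ 0 s) := by
    filter_upwards [Ioi_mem_nhds hr] with s hs
    rw [Pi.sub_apply, h s hs, add_sub_cancel_right]
  rw [(h1.congr_of_eventuallyEq e).deriv]
  simp

theorem red_setup {R b ls ls₁ : ℝ} (hR : 0 < R) {m : ℕ} {φ ψ : ℕ → ℝ → ℂ} {Φ Ψ : ℕ → ℂ}
    (hφ : red_Mode R b m ls φ Φ) (hψ : red_Mode R b m ls₁ ψ Ψ) {lam c c₁ : ℂ} (hne : lam ≠ ls₁)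
    {f G e e' : ℝ → ℂ} (hf : Free R m (lam - Complex.I * b) f e)
    (hG : Free R m (conj lam - Complex.I * b) G e')
    (he : ∀ r, R < r → e r = c * φ 0 r + c₁ * ψ 0 r)
    (he' : ∀ r, R < r → e' r = conj c * φ 0 r + conj c₁ * ψ 0 r)
    (bc0 : Tendsto (fun r => f r + conj (G r)) (𝓝[>] R) (𝓝 0))
    (bc1 : Tendsto (fun r => (deriv f r - conj (deriv G r)) - (m : ℂ) / r * (f r - conj (G r)))
      (𝓝[>] R) (𝓝 0)) :
    ∃ (w w' : ℕ → ℝ → ℂ) (W W' : ℕ → ℂ) (k : ℂ),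
      FL R (MM m) (lam - Complex.I * b) (ls - Complex.I * b) c w φ ∧
      FL R (MM m) (conj lam - Complex.I * b) (ls - Complex.I * b) (conj c) w' φ ∧
      L2 R (w 4) ∧ L2 R (w' 4) ∧ (∀ j, Tendsto (w j) (𝓝[>] R) (𝓝 (W j))) ∧
      (∀ j, Tendsto (w' j) (𝓝[>] R) (𝓝 (W' j))) ∧
      (∀ r, R < r → w 0 r = f r + k * ψ 0 r) ∧ (∀ r, R < r → w' 0 r = G r + conj k * ψ 0 r) ∧
      conj (W' 0) = -W 0 ∧ conj (W' 1) = W 1 - ((2 * lam + m) * W 0 + 2 * c * Φ 0) := by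
  have hne1 : lam - Complex.I * b ≠ ls₁ - Complex.I * b := fun h => hne (sub_left_inj.1 h)
  have hne2 : conj lam - Complex.I * b ≠ ls₁ - Complex.I * b := fun h => hne (by
    have := congrArg conj (sub_left_inj.1 h)
    rwa [Complex.conj_conj, Complex.conj_ofReal] at this)
  obtain ⟨w, hF, hw4, hw0⟩ := lad_of_free hR hφ.hl hψ.hl hψ.l2 hne1 hf he
  obtain ⟨w', hF', hw4', hw0'⟩ := lad_of_free hR hφ.hl hψ.hl hψ.l2 hne2 hG he'
  obtain ⟨W, _, hW⟩ := hF.lim hR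
  obtain ⟨W', _, hW'⟩ := hF'.lim hR
  have ek : conj c₁ / (conj lam - Complex.I * b - (ls₁ - Complex.I * b)) =
      conj (c₁ / (lam - Complex.I * b - (ls₁ - Complex.I * b))) := by
    rw [sub_sub_sub_cancel_right, sub_sub_sub_cancel_right, map_div₀, map_sub, Complex.conj_ofReal]
  rw [ek] at hw0'
  generalize c₁ / (lam - Complex.I * b - (ls₁ - Complex.I * b)) = k at hw0 hw0'
  have tf : Tendsto f (𝓝[>] R) (𝓝 (W 0 - k * Ψ 0)) := by
    refine ((hW 0).1.sub ((hψ.lim 0).const_mul k)).congr' ?_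
    filter_upwards [self_mem_nhdsWithin] with r hr
    rw [hw0 r hr, add_sub_cancel_right]
  have tG : Tendsto G (𝓝[>] R) (𝓝 (W' 0 - conj k * Ψ 0)) := by
    refine ((hW' 0).1.sub ((hψ.lim 0).const_mul (conj k))).congr' ?_
    filter_upwards [self_mem_nhdsWithin] with r hr
    rw [hw0' r hr, add_sub_cancel_right]
  have hR' : (R : ℂ) ≠ 0 := by exact_mod_cast hR.ne'
  have t2 : ∀ a : ℂ, Tendsto (fun r : ℝ => a / (r : ℂ)) (𝓝[>] R) (𝓝 (a / R)) := fun a =>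
    tendsto_const_nhds.div (red_id R) hR'
  have tf' : Tendsto (deriv f) (𝓝[>] R) (𝓝 (2 / (R : ℂ) * (-(lam - Complex.I * b) * W 0 + W 1 -
      c * Φ 0) - k * (2 / (R : ℂ) * (-(ls₁ - Complex.I * b) * Ψ 0 + Ψ 1)))) := by
    refine (((t2 2).mul ((((hW 0).1.const_mul _).add (hW 1).1).sub ((hφ.lim 0).const_mul c))).sub
      (((t2 2).mul (((hψ.lim 0).const_mul _).add (hψ.lim 1))).const_mul k)).congr' ?_
    filter_upwards [self_mem_nhdsWithin] with r hr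
    rw [red_deriv hF hψ.hl hw0 hr]
  have tG' : Tendsto (deriv G) (𝓝[>] R) (𝓝 (2 / (R : ℂ) * (-(conj lam - Complex.I * b) * W' 0 +
      W' 1 - conj c * Φ 0) - conj k * (2 / (R : ℂ) * (-(ls₁ - Complex.I * b) * Ψ 0 + Ψ 1)))) := by
    refine (((t2 2).mul ((((hW' 0).1.const_mul _).add (hW' 1).1).sub ((hφ.lim 0).const_mul _))).sub
      (((t2 2).mul (((hψ.lim 0).const_mul _).add (hψ.lim 1))).const_mul _)).congr' ?_
    filter_upwards [self_mem_nhdsWithin] with r hr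
    rw [red_deriv hF' hψ.hl hw0' hr]
  have e0 := tendsto_nhds_unique (tf.add (red_conj tG)) bc0
  have e1 := tendsto_nhds_unique ((tf'.sub (red_conj tG')).sub
    ((t2 m).mul (tf.sub (red_conj tG)))) bc1
  simp only [map_sub, map_mul, map_add, map_neg, map_div₀, Complex.conj_conj, Complex.conj_ofReal,
    Complex.conj_I, map_ofNat, hφ.b0, hψ.b0, hψ.b1] at e0 e1
  have e0' : conj (W' 0) = -W 0 := by linear_combination e0
  rw [e0'] at e1
  refine ⟨w, w', W, W', k, hF, hF', hw4, hw4', fun j => (hW j).1, fun j => (hW' j).1, hw0, hw0',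
    e0', ?_⟩
  field_simp at e1
  linear_combination (-1 / 2 : ℂ) * e1

theorem red_MM (m : ℕ) : 0 ≤ MM m := by unfold MM; positivity

theorem red_main (hF : AlgFar) (h0 : AlgNear0) (h1 : AlgNear1) {R b ls ls₁ : ℝ} (hb : InBox b R)
    {m : ℕ} {φ ψ : ℕ → ℝ → ℂ} {Φ Ψ : ℕ → ℂ}
    (hφ : red_Mode R b m ls φ Φ) (hψ : red_Mode R b m ls₁ ψ Ψ) {lam c c₁ : ℂ} (hne : lam ≠ ls₁)
    (hl0 : 0 ≤ lam.re) (hl1 : lam.re ≤ 33 / 10)
    (hc : (lam ≠ ls ∧ (m = 0 → ¬ Nr 0 lam ∧ ¬ Nr 1 lam) ∧ (m = 1 → ¬ Nr (1 / 2) lam)) ∨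
      (m = 0 ∧ (ls = 0 ∨ ls = 1) ∧ Nr ls lam ∧ Φ 0 ≠ 0) ∨
      (m = 1 ∧ ls = 1 / 2 ∧ Nr (1 / 2) lam ∧ Φ 0 = 0 ∧ Φ 1 ≠ 0))
    {f G e e' : ℝ → ℂ} (hf : Free R m (lam - Complex.I * b) f e)
    (hG : Free R m (conj lam - Complex.I * b) G e')
    (he : ∀ r, R < r → e r = c * φ 0 r + c₁ * ψ 0 r)
    (he' : ∀ r, R < r → e' r = conj c * φ 0 r + conj c₁ * ψ 0 r)
    (bc0 : Tendsto (fun r => f r + conj (G r)) (𝓝[>] R) (𝓝 0))
    (bc1 : Tendsto (fun r => (deriv f r - conj (deriv G r)) - (m : ℂ) / r * (f r - conj (G r)))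
      (𝓝[>] R) (𝓝 0)) :
    ∃ d k : ℂ, ∀ r, R < r → f r = d * φ 0 r + k * ψ 0 r ∧
      G r = conj d * φ 0 r + conj k * ψ 0 r := by
  have hR1 := hb.2.1
  have hR2 := hb.2.2
  have hR : 0 < R := by linarith
  have hB : Bx b (R ^ 2 / 4) := ⟨hb.1, by nlinarith, by nlinarith⟩
  obtain ⟨w, w', W, W', k, hw, hw', l4, l4', hW, hW', e0, e0', b0, b1⟩ :=
    red_setup hR hφ hψ hne hf hG he he' bc0 bc1
  have hα : 0 ≤ (lam - Complex.I * b).re := by simpa using hl0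
  have hα' : 0 ≤ (conj lam - Complex.I * b).re := by simpa using hl0
  have hα₀ : 0 ≤ ((ls : ℂ) - Complex.I * b).re := by simpa using hφ.pos
  have eδ : lam - Complex.I * b - (ls - Complex.I * b) = lam - ls := sub_sub_sub_cancel_right _ _ _
  have eδ' : conj lam - Complex.I * b - (ls - Complex.I * b) = conj (lam - ls) := by
    rw [sub_sub_sub_cancel_right, map_sub, Complex.conj_ofReal]
  have P := Pair.closed (fun r hr => hw.pair hR (red_MM m) hα hα₀ l4 hφ.l2 hr)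
    (fun j => ((hW j).const_mul _).add ((hφ.lim j).const_mul _)) hφ.lim
    (fun j => ((hφ.lim j).mul (hW (j + 1))).sub ((hW j).mul (hφ.lim (j + 1))))
  have P' := Pair.closed (fun r hr => hw'.pair hR (red_MM m) hα' hα₀ l4' hφ.l2 hr)
    (fun j => ((hW' j).const_mul _).add ((hφ.lim j).const_mul _)) hφ.lim
    (fun j => ((hφ.lim j).mul (hW' (j + 1))).sub ((hW' j).mul (hφ.lim (j + 1))))
  rw [eδ] at P
  rw [eδ'] at P'
  have u0 : (lam - ls) * W 0 + c * Φ 0 + conj (conj (lam - ls) * W' 0 + conj c * Φ 0) = 0 := by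
    simp only [map_add, map_mul, Complex.conj_conj, b0, hφ.b0]
    ring
  have u1 : (lam - ls) * W 1 + c * Φ 1 - conj (conj (lam - ls) * W' 1 + conj c * Φ 1) =
      (2 * lam + m) * ((lam - ls) * W 0 + c * Φ 0) := by
    simp only [map_add, map_mul, Complex.conj_conj, b1, hφ.b1]
    ring
  have o0 : Φ 0 * W 1 - W 0 * Φ 1 + conj (Φ 0 * W' 1 - W' 0 * Φ 1) =
      2 * Φ 0 * ((lam - ls) * W 0 + c * Φ 0) := by
    simp only [map_sub, map_mul, b0, b1, hφ.b0, hφ.b1]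
    ring
  have cz : ∀ z : ℂ, conj z = 0 → z = 0 := fun z h => by simpa using h
  have b0' : W' 0 = -conj (W 0) := by rw [← map_neg, ← b0, Complex.conj_conj]
  have fin : (lam - ls) * W 0 + c * Φ 0 = 0 → (lam - ls) * W 1 + c * Φ 1 = 0 →
      (lam - ls = 0 → c = 0 ∧ ∃ d : ℂ, W 0 = d * Φ 0 ∧ W 1 = d * Φ 1 ∧ W' 0 = conj d * Φ 0 ∧
        W' 1 = conj d * Φ 1) →
      ∃ d k : ℂ, ∀ r, R < r → f r = d * φ 0 r + k * ψ 0 r ∧
        G r = conj d * φ 0 r + conj k * ψ 0 r := by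
    intro z0 z1 hδ
    obtain ⟨d, hd⟩ := core hR hw hw' eδ eδ' hW hW' hφ.lim z0 z1
      (cz _ (by linear_combination u0 - z0))
      (cz _ (by linear_combination z1 - u1 - (2 * lam + m) * z0)) hδ
    refine ⟨d, -k, fun r hr => ⟨?_, ?_⟩⟩
    · linear_combination (hd r hr).1 - e0 r hr
    · rw [map_neg]
      linear_combination (hd r hr).2 - e0' r hr
  rcases hc with ⟨c1, c2, c3⟩ | ⟨rfl, c2, c3, c4⟩ | ⟨rfl, rfl, c3, c4, c5⟩
  · obtain ⟨z0, z1⟩ := hF m b _ lam _ _ hB hl0 hl1 c2 c3 P.hw P'.hw u0 u1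
    exact fin z0 z1 fun h => absurd (sub_eq_zero.1 h) c1
  · have eM : MM 0 = 0 := by simp [MM]
    rw [eM] at P P'
    obtain ⟨z0, z1, -, z2, z3⟩ := h0 ls b _ lam _ _ _ _ _ c2 hB hl0 c3 P P' c4 hφ.b0 u0 o0
    refine fin z0 z1 fun h => ⟨?_, W 0 / Φ 0, ?_, ?_, ?_, ?_⟩
    · rw [h, zero_mul, zero_add] at z0
      exact (mul_eq_zero.1 z0).resolve_right c4
    · field_simp
    · field_simp
      linear_combination z2
    · rw [map_div₀, hφ.b0, b0']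
      field_simp
    · rw [map_div₀, hφ.b0]
      rw [b0'] at z3
      field_simp
      linear_combination z3
  · have eM : MM 1 = 11 := by norm_num [MM]
    have eh : (((1 / 2 : ℝ) : ℝ) : ℂ) = 1 / 2 := by push_cast; ring
    have p1 : conj (Φ 1) = Φ 1 := by rw [hφ.b1, c4, mul_zero, sub_zero]
    rw [eM] at P P'
    rw [eh] at P P' u0 u1 fin
    obtain ⟨z0, z1, z2⟩ := h1 b _ lam (W 0) _ _ _ _ _ hB c3 P P' c4 c5
      (by simp only [c4, mul_zero, add_zero])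
      (by
        have := congrArg conj u0
        rw [map_add, Complex.conj_conj, map_zero] at this
        linear_combination this)
      (by simp only [c4, zero_mul, zero_sub, neg_mul, zero_add])
      (by simp only [c4, zero_mul, zero_sub, b0', neg_mul, neg_neg, zero_add])
      (by simpa using u1)
    refine fin (by rw [z0, c4]; ring) z1 fun h => ⟨?_, W 1 / Φ 1, ?_, ?_, ?_, ?_⟩
    · rw [h, zero_mul, zero_add] at z1
      exact (mul_eq_zero.1 z1).resolve_right c5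
    · rw [z0, c4, mul_zero]
    · field_simp
    · rw [b0', z0, c4, map_zero, neg_zero, mul_zero]
    · have := congrArg conj b1
      rw [z0, c4, Complex.conj_conj, mul_zero, mul_zero, add_zero, sub_zero] at this
      rw [map_div₀, p1, this]
      field_simp

theorem red_modes {b R : ℝ} {Q : ℝ → ℂ} (h : LimProf b R Q) :
    ∃ (φ₀ φ₁ φ₂ : ℕ → ℝ → ℂ) (Φ₀ Φ₁ Φ₂ : ℕ → ℂ), red_Mode R b 0 0 φ₀ Φ₀ ∧ red_Mode R b 0 1 φ₁ Φ₁ ∧
      red_Mode R b 1 (1 / 2) φ₂ Φ₂ ∧ Φ₀ 0 ≠ 0 ∧ Φ₁ 0 ≠ 0 ∧ Φ₂ 0 = 0 ∧ Φ₂ 1 ≠ 0 ∧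
      ∀ r, R < r → φ₀ 0 r = ph0 Q r ∧ φ₁ 0 r = ph1 0 b Q r ∧ φ₂ 0 r = ph2 Q r := by
  have hR : 0 < R := by have := h.box.2.1; linarith
  have hb : 0 < b := by have := h.box.1.1; linarith
  have hR' : (R : ℂ) ≠ 0 := by exact_mod_cast hR.ne'
  have hb' : (b : ℂ) ≠ 0 := by exact_mod_cast hb.ne'
  obtain ⟨u, hu, l4, hu0⟩ := lad_of_free0 hR h.free
  obtain ⟨U, _, hU'⟩ := hu.toFL.lim hR
  have hU : ∀ j, Tendsto (u j) (𝓝[>] R) (𝓝 (U j)) := fun j => (hU' j).1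
  have eM : MM 0 = 0 := by simp [MM]
  have eM1 : MM 1 = 11 := by norm_num [MM]
  have hα : 0 ≤ (-Complex.I * b).re := by simp
  have l5 : L2 R (u 5) := (hu.l2 hR hα l4 5 (by norm_num)).1
  have U0 : U 0 = 1 := by
    refine tendsto_nhds_unique (hU 0) (h.val.congr' ?_)
    filter_upwards [self_mem_nhdsWithin] with r hr
    exact (hu0 r hr).1.symm
  have U1 : U 1 = -Complex.I * b := by
    have t := (h.val.const_mul (-Complex.I * b)).add (((red_id R).div_const 2).mul h.der)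
    rw [mul_one, mul_zero, add_zero] at t
    refine tendsto_nhds_unique (hU 1) (t.congr' ?_)
    filter_upwards [self_mem_nhdsWithin] with r hr
    exact (hu0 r hr).2.symm
  have U2 : U 2 = -Complex.I * b - b ^ 2 - (R : ℂ) ^ 2 / 4 * b := by
    have t1 : Tendsto (fun r : ℝ => ss (r ^ 2 / 4) (-Complex.I * b + (0 : ℕ))) (𝓝[>] R)
        (𝓝 (ss (R ^ 2 / 4) (-Complex.I * b + (0 : ℕ)))) := by
      refine Tendsto.mono_left (Continuous.tendsto ?_ R) nhdsWithin_le_nhds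
      unfold ss
      fun_prop
    have t := ((hU 0).const_mul (AA (MM 0) (-Complex.I * b + (0 : ℕ)))).sub (t1.mul (hU 1))
    have e := tendsto_nhds_unique (hU 2) (t.congr' (by
      filter_upwards [self_mem_nhdsWithin] with r hr
      exact (hu.recu 0 r hr).symm))
    rw [e, U0, U1, eM]
    simp only [AA, ss]
    push_cast
    linear_combination (b ^ 2 + (R : ℂ) ^ 2 / 4 * b) * Complex.I_sq
  have t2 : Tendsto (fun r : ℝ => 2 / (r : ℂ)) (𝓝[>] R) (𝓝 (2 / (R : ℂ))) :=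
    tendsto_const_nhds.div (red_id R) hR'
  have V0 : 2 / (R : ℂ) * (-(-Complex.I * b + (0 : ℕ)) * U 0 + U (0 + 1)) = 0 := by
    rw [zero_add, U0, U1]
    simp
  have V1 : 2 / (R : ℂ) * (-(-Complex.I * b + (1 : ℕ)) * U 1 + U (1 + 1)) = -(b * R / 2) := by
    rw [U1, show 1 + 1 = 2 from rfl, U2]
    field_simp
    push_cast
    linear_combination (-16 * (b : ℂ)) * Complex.I_sq
  refine ⟨fun j r => Complex.I * u j r, fun j r => -1 * u (j + 1) r,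
    fun j r => 2 / (r : ℂ) * (-(-Complex.I * b + j) * u j r + u (j + 1) r),
    fun j => Complex.I * U j, fun j => -1 * U (j + 1),
    fun j => 2 / (R : ℂ) * (-(-Complex.I * b + j) * U j + U (j + 1)),
    ⟨le_rfl, ?_, ?_, fun j => (hU j).const_mul _, ?_, ?_⟩,
    ⟨zero_le_one, ?_, ?_, fun j => (hU (j + 1)).const_mul _, ?_, ?_⟩,
    ⟨by norm_num, ?_, ?_, fun j => t2.mul (((hU j).const_mul _).add (hU (j + 1))), ?_, ?_⟩,
    ?_, ?_, V0, ?_, fun r hr => ⟨?_, ?_, ?_⟩⟩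
  · convert hu.smul Complex.I using 1
    simp
  · refine (l4.comb hR l4 (hu.cont 4) (hu.cont 4) Complex.I 0).congr fun r _ => ?_
    simp
  · simp [U0]
  · simp only [U1, U0, map_mul, map_neg, Complex.conj_I, Complex.conj_ofReal]
    push_cast
    ring
  · convert hu.shift.smul (-1) using 1
    push_cast
    ring
  · refine (l5.comb hR l5 (hu.cont 5) (hu.cont 5) (-1) 0).congr fun r _ => ?_
    simp
  · simp [U1]
  · simp only [zero_add, show 1 + 1 = 2 from rfl, U1, U2, map_mul, map_neg, map_sub, map_div₀,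
      map_pow, map_one, map_ofNat, Complex.conj_I, Complex.conj_ofReal]
    push_cast
    ring
  · rw [eM] at hu
    rw [eM1]
    convert hu.der hR using 1
    push_cast
    ring
  · have hc : ContinuousOn (fun r => -(-Complex.I * b + (4 : ℕ)) * u 4 r + 1 * u 5 r) (Ioi R) :=
      (continuousOn_const.mul (hu.cont 4)).add (continuousOn_const.mul (hu.cont 5))
    refine ((l4.comb hR l5 (hu.cont 4) (hu.cont 5) _ 1).div hR hc).congr fun r _ => ?_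
    simp
  · simp only [V0, map_zero, neg_zero]
  · simp only [V0, V1, map_neg, map_div₀, map_mul, Complex.conj_ofReal, map_ofNat, mul_zero,
      sub_zero]
  · simp [U0]
  · simp [U1, hb']
  · simp only [V1]
    simp [hb', hR']
  · simp only [ph0, (hu0 r hr).1]
  · simp only [ph1, zero_add, (hu0 r hr).2]
    push_cast
    ring
  · have hr' : (r : ℂ) ≠ 0 := by exact_mod_cast (hR.trans hr).ne'
    simp only [ph2, zero_add, (hu0 r hr).1, (hu0 r hr).2]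
    field_simp
    push_cast
    ring

/-- Let u = levels of Φ (`lad_of_free0`, M = 0, α = -ib), limits u₀ = 1, u₁ = -ib, u₂ = AA·1 - ss·(-ib) at R.  Modes: φ⁰_j = i u_j (α₀ = -ib; φ⁰_0 = ph0 Φ),
φ¹_j = -u_{j+1} (α₀ = 1-ib; φ¹_0 = ph1 0 b Φ), φ²_j = (2/r)θu_j (`HL.der`, M = 11, α₀ = 1/2-ib; φ²_0 = ph2 Φ); L2 at level 4 by `HL.l2`.
Each mode φ (eigenvalue λ*) satisfies at R:  conj Φ₀ = -Φ₀,  Φ₁ - conj Φ₁ = (2λ*+m)Φ₀  (φ⁰: (i, b); φ¹: (ib, -u₂); φ²: (0, -bR/2)).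
Choose (c,φ,α₀; c₁,ψ,α₁): m = 0: if Nr 1 λ then (c₁,φ¹; c₀,φ⁰) else (c₀,φ⁰; c₁,φ¹); m = 1: (c₂,φ²; 0, zero, α₁ = 5-ib); m ≥ 2: both zero (α₀ = α₁ = 5-ib, c = c₁ = 0).
`lad_of_free` on both sides (G side: conj c, conj c₁, α' = conj λ - ib, α' - α₁ = conj(α - α₁)), `FL.lim`, `FL.pair`, `Pair.closed`.
BC at R: W₀ + conj W'₀ = 0 and W₁ - conj W'₁ = (2λ+m) W₀ + 2cΦ₀ (W₁ = αW₀ + θw₀ + cΦ₀ from `FL.d`; the ψ-part satisfies the BC), hence
for U = δW + cΦ, V = conj δ W' + conj c Φ: U₀ + conj V₀ = 0, U₁ - conj V₁ = (2λ+m)U₀, Ω₀ + conj Ω'₀ = 2Φ₀U₀.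
Far (then δ ≠ 0): AlgFar; near: AlgNear0 / AlgNear1; finish with `core`:  f = dφ₀ - (c₁/δ₁)ψ₀, G = conj d φ₀ - conj(c₁/δ₁)ψ₀. -/
theorem limit_of (hF : AlgFar) (h0 : AlgNear0) (h1 : AlgNear1) : LimitStmt := by
  intro b R Q hQ m lam c₀ c₁ c₂ f G hl0 hl1 hA hf hG bc0 bc1
  obtain ⟨φ₀, φ₁, φ₂, Φ₀, Φ₁, Φ₂, m0, m1, m2, n0, n1, n2, n3, hφ⟩ := red_modes hQ
  have nr : ∀ ls : ℝ, ¬ Nr ls lam → lam ≠ ls := by
    rintro ls h rfl
    exact h ⟨by simp, by simp⟩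
  have h5 : lam ≠ ((5 : ℝ) : ℂ) := by
    rintro rfl
    rw [Complex.ofReal_re] at hl1
    norm_num at hl1
  by_cases hm0 : m = 0
  · subst hm0
    have hc₂ : c₂ = 0 := hA.2 (by norm_num)
    subst hc₂
    have key : ∃ d k : ℂ, ∀ r, R < r → f r = d * φ₀ 0 r + k * φ₁ 0 r ∧
        G r = conj d * φ₀ 0 r + conj k * φ₁ 0 r := by
      have he : ∀ a a' : ℂ, ∀ r, R < r → phc 0 b Q a a' 0 r = a * φ₀ 0 r + a' * φ₁ 0 r := by
        intro a a' r hr
        rw [phc, (hφ r hr).1, (hφ r hr).2.1, zero_mul, add_zero]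
      rw [map_zero] at hG
      by_cases hn : Nr 1 lam
      · have hne : lam ≠ ((0 : ℝ) : ℂ) := by
          rintro rfl
          have := hn.1
          norm_num at this
        obtain ⟨d, k, h⟩ := red_main hF h0 h1 hQ.box m1 m0 (c := c₁) (c₁ := c₀) hne hl0 hl1
          (Or.inr (Or.inl ⟨rfl, Or.inr rfl, hn, n1⟩)) hf hG
          (fun r hr => by rw [he _ _ r hr, add_comm]) (fun r hr => by rw [he _ _ r hr, add_comm])
          bc0 bc1
        exact ⟨k, d, fun r hr => ⟨by rw [(h r hr).1, add_comm], by rw [(h r hr).2, add_comm]⟩⟩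
      · refine red_main hF h0 h1 hQ.box m0 m1 (c := c₀) (c₁ := c₁) (nr 1 hn) hl0 hl1 ?_ hf hG
          (he _ _) (he _ _) bc0 bc1
        by_cases hn0 : Nr 0 lam
        · exact Or.inr (Or.inl ⟨rfl, Or.inl rfl, hn0, n0⟩)
        · exact Or.inl ⟨nr 0 hn0, fun _ => ⟨hn0, hn⟩, fun h => absurd h (by norm_num)⟩
    obtain ⟨d, k, h⟩ := key
    refine ⟨d, k, 0, ⟨fun h => absurd rfl h, fun _ => rfl⟩, fun r hr => ⟨?_, ?_⟩⟩
    · rw [(h r hr).1, phc, (hφ r hr).1, (hφ r hr).2.1, zero_mul, add_zero]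
    · simp only [(h r hr).2, phc, (hφ r hr).1, (hφ r hr).2.1, map_zero, zero_mul, add_zero]
  obtain ⟨rfl, rfl⟩ := hA.1 hm0
  by_cases hm1 : m = 1
  · subst hm1
    have he : ∀ a : ℂ, ∀ r, R < r → phc 0 b Q 0 0 a r = a * φ₂ 0 r := by
      intro a r hr
      rw [phc, (hφ r hr).2.2, zero_mul, zero_mul, add_zero, zero_add]
    rw [map_zero] at hG
    obtain ⟨d, k, h⟩ := red_main hF h0 h1 hQ.box m2 (red_zero R b 1) (c := c₂) (c₁ := 0) h5 hl0 hl1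
      (by
        by_cases hn : Nr (1 / 2) lam
        · exact Or.inr (Or.inr ⟨rfl, rfl, hn, n2, n3⟩)
        · exact Or.inl ⟨nr _ hn, fun h => absurd h (by norm_num), fun _ => hn⟩) hf hG
      (fun r hr => by rw [he _ r hr, mul_zero, add_zero])
      (fun r hr => by rw [he _ r hr, mul_zero, add_zero]) bc0 bc1
    refine ⟨0, 0, d, ⟨fun _ => ⟨rfl, rfl⟩, fun h => absurd rfl h⟩, fun r hr => ⟨?_, ?_⟩⟩
    · rw [(h r hr).1, he _ r hr, mul_zero, add_zero]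
    · simp only [(h r hr).2, map_zero, he _ r hr, mul_zero, add_zero]
  · have hc₂ : c₂ = 0 := hA.2 hm1
    subst hc₂
    obtain ⟨d, k, h⟩ := red_main hF h0 h1 hQ.box (red_zero R b m) (red_zero R b m) (c := 0)
      (c₁ := 0) h5 hl0 hl1 (Or.inl ⟨h5, fun h => absurd h hm0, fun h => absurd h hm1⟩) hf hG
      (fun r _ => by simp [phc]) (fun r _ => by simp [phc]) bc0 bc1
    refine ⟨0, 0, 0, ⟨fun _ => ⟨rfl, rfl⟩, fun _ => rfl⟩, fun r hr => ⟨?_, ?_⟩⟩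
    · simp [(h r hr).1, phc]
    · simp [(h r hr).2, phc]

end

end Crest.Agent.R086.NB
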