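import Crest.Agent.R086.NB.RDisc

/-! # Row 86, part N: the recursion for the divided difference χ (task) -/

open scoped ComplexConjugate

namespace Crest.Agent.R086.NB

noncomputable section

variable {M ρ : ℝ} {α α₀ : ℂ}

private theorem chi_theta {a b : ℂ} {r : ℝ} (hr : 0 ≤ r) (h : ‖a‖ ≤ r * ‖b‖) :
    ∃ θ : ℂ, ‖θ‖ ≤ r ∧ a = θ * b := by
  rcases eq_or_ne b 0 with rfl | hb
  · exact ⟨0, by simpa using hr, by simpa using h⟩
  · exact ⟨a / b, by rwa [norm_div, div_le_iff₀ (norm_pos_iff.2 hb)], (div_mul_cancel₀ a hb).symm⟩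

private theorem chi_fl {j : ℕ} (hj : 5 ≤ j) (hα : 0 ≤ α.re) {zr zi rz K : ℝ}
    (hz : Dsc M ρ (α + j) (zr + zi * Complex.I) rz) (hK : 0 ≤ K) (h₁ : zi + rz ≤ K * (j - 3))
    {w : ℕ → ℂ} (hw : Seq M ρ α w) : fl ρ α w j / (α.re + j - 3) ≤ K * ‖w j‖ ^ 2 := by
  have hj' : (5 : ℝ) ≤ j := by exact_mod_cast hj
  have h1 := hz.idx hw
  have h2 := (le_abs_self _).trans (Complex.abs_im_le_norm
    (conj (w j) * (w (j + 1) + (kp ρ (α + j) - (zr + zi * Complex.I)) * w j)))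
  rw [norm_mul, Complex.norm_conj] at h2
  have h3 : (conj (w j) * (w (j + 1) + (kp ρ (α + j) - (zr + zi * Complex.I)) * w j)).im =
      fl ρ α w j - zi * ‖w j‖ ^ 2 := by
    rw [fl, Complex.sq_norm, Complex.normSq_apply]
    simp [kp]
    ring
  have h4 := mul_le_mul_of_nonneg_left h1 (norm_nonneg (w j))
  have h5 := mul_le_mul_of_nonneg_right (show zi + rz ≤ K * (α.re + j - 3) by nlinarith)
    (sq_nonneg ‖w j‖)
  rw [div_le_iff₀ (by linarith)]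
  nlinarith

private theorem chi_am {x P Q K : ℝ} (hP : 0 ≤ P) (hQ : 0 ≤ Q) (hK : 0 ≤ K)
    (h : ∀ a : ℝ, 0 < a → x ≤ (a * (K * P ^ 2) + K * Q ^ 2 / a) / 2) : x ≤ K * (P * Q) := by
  refine le_of_forall_pos_le_add fun δ hδ => ?_
  obtain ⟨ε, hε, he⟩ : ∃ ε : ℝ, 0 < ε ∧ ε * (K * (P + Q)) ≤ δ := by
    refine ⟨δ / (K * (P + Q) + 1), by positivity, ?_⟩
    rw [div_mul_eq_mul_div, div_le_iff₀ (by positivity)]
    nlinarith
  have h1 : (Q + ε) / (P + ε) * (K * P ^ 2) ≤ (Q + ε) * (K * P) := by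
    rw [div_mul_eq_mul_div, div_le_iff₀ (by positivity)]
    have : 0 ≤ (Q + ε) * (K * P) * ε := by positivity
    nlinarith
  have h2 : K * Q ^ 2 / ((Q + ε) / (P + ε)) ≤ (P + ε) * (K * Q) := by
    rw [div_div_eq_mul_div, div_le_iff₀ (by positivity)]
    have : 0 ≤ (P + ε) * (K * Q) * ε := by positivity
    nlinarith
  have h3 := h ((Q + ε) / (P + ε)) (by positivity)
  nlinarith

/-- fl ρ α w j = Im ζ_j |w_j|² ≤ (zi + rz)|w_j|² ≤ K (Re α + j - 3)|w_j|² (`Dsc.idx`), so `bd` gives ≤ K(a|φ|² + |w|²/a)/2 for all a > 0 -/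
theorem chi_start {j : ℕ} (hj : 5 ≤ j) (hα : 0 ≤ α.re) (hα₀ : 0 ≤ α₀.re) {zr zi rz sr si rs K : ℝ}
    (hz : Dsc M ρ (α + j) (zr + zi * Complex.I) rz) (hs : Dsc M ρ (α₀ + j) (sr + si * Complex.I) rs)
    (hK : 0 ≤ K) (h₁ : zi + rz ≤ K * (j - 3)) (h₂ : si + rs ≤ K * (j - 3)) : Chi M ρ α α₀ j 0 K := by
  intro w φ ω hp
  rw [add_zero, one_mul]
  refine chi_am (norm_nonneg _) (norm_nonneg _) hK fun a ha => (hp.bd j hj a ha).trans ?_
  have e1 := mul_le_mul_of_nonneg_left (chi_fl hj hα₀ hs hK h₂ hp.hφ) ha.le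
  have e2 := div_le_div_of_nonneg_right (chi_fl hj hα hz hK h₁ hp.hw) ha.le
  rw [div_div, mul_comm _ a] at e2
  rw [mul_div_assoc]
  linarith

/-- w_{j+1} = (x+θ₁)w_j, A*φ_j = (X+θ₂)φ_{j+1}, ω_{j+1} = (1+c'+θ₃)φ_{j+1}w_{j+1} (|a| ≤ r|b| ⇒ a = θb, |θ| ≤ r); from `recu j` (A* ≠ 0)
(X+θ₂)(ω_j - (1+c)φ_jw_j) = φ_jw_j[(5-(α+j)-(α₀+j)) + (1-c'-θ₃)(x+θ₁) - (1+c)(X+θ₂)],  5-(α+j)-(α₀+j) + x - X = z - s - iρ. -/
theorem chi_step {j : ℕ} {z s c c' x X : ℂ} {rz rs r r' d h₁ h₂ h₃ h₄ : ℝ}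
    (H : Chi M ρ α α₀ (j + 1) c' r') (hz : Dsc M ρ (α + j) z rz) (hs : Dsc M ρ (α₀ + j + 1) s rs)
    (hA : AA M (α₀ + j) ≠ 0) (hrz : 0 ≤ rz) (hrs : 0 ≤ rs) (hr' : 0 ≤ r') (hr : 0 ≤ r)
    (hx : x = z - kp ρ (α + j)) (hX : X = s + kp ρ (α₀ + j))
    (hd : 0 < d) (hd' : d + rs ≤ ‖X‖)
    (e₁ : ‖z - s - Complex.I * ρ - c' * x - c * X‖ ≤ h₁) (e₂ : ‖1 - c'‖ ≤ h₂) (e₃ : ‖1 + c‖ ≤ h₃) (e₄ : ‖x‖ ≤ h₄)
    (e : h₁ + h₂ * rz + h₃ * rs + r' * (h₄ + rz) ≤ r * d) : Chi M ρ α α₀ j c r := by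
  intro w φ ω hp
  obtain ⟨θ₁, t1, f1⟩ := chi_theta hrz (hz.idx hp.hw)
  have hb := hs.back (hp.hφ.shiftN j)
  simp only [zero_add, add_comm 1 j] at hb
  obtain ⟨θ₂, t2, f2⟩ := chi_theta hrs hb
  obtain ⟨θ₃, t3, f3⟩ := chi_theta hr' ((H w φ ω hp).trans_eq (by rw [← norm_mul]))
  have f4 := hp.recu j
  have g1 : w (j + 1) = (x + θ₁) * w j := by rw [hx]; linear_combination f1
  have g2 : AA M (α₀ + j) * φ j = (X + θ₂) * φ (j + 1) := by rw [hX]; linear_combination f2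
  have g3 : 5 - (α + j) - (α₀ + j) = z - s - Complex.I * ρ - x + X := by
    rw [hx, hX, kp, kp]; ring
  rw [g3, g1] at f4
  rw [g1] at f3
  have key : (X + θ₂) * (ω j - (1 + c) * (φ j * w j)) = ((z - s - Complex.I * ρ - c' * x - c * X)
      + (1 - c') * θ₁ - (1 + c) * θ₂ - θ₃ * (x + θ₁)) * (φ j * w j) := by
    refine mul_left_cancel₀ hA ?_
    linear_combination (X + θ₂) * f4 - (X + θ₂) * f3 -
      ((z - s - Complex.I * ρ - x + X) + (1 - c' - θ₃) * (x + θ₁)) * w j * g2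
  have n1 : d ≤ ‖X + θ₂‖ := by
    have := norm_sub_le (X + θ₂) θ₂
    rw [add_sub_cancel_right] at this
    linarith
  have n2 : ‖(z - s - Complex.I * ρ - c' * x - c * X) + (1 - c') * θ₁ - (1 + c) * θ₂ - θ₃ * (x + θ₁)‖
      ≤ r * d := by
    refine le_trans ?_ e
    refine (norm_sub_le _ _).trans (add_le_add ((norm_sub_le _ _).trans (add_le_add
      ((norm_add_le _ _).trans (add_le_add e₁ ?_)) ?_)) ?_)
    · rw [norm_mul]
      exact mul_le_mul e₂ t1 (norm_nonneg _) ((norm_nonneg _).trans e₂)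
    · rw [norm_mul]
      exact mul_le_mul e₃ t2 (norm_nonneg _) ((norm_nonneg _).trans e₃)
    · rw [norm_mul]
      exact mul_le_mul t3 ((norm_add_le _ _).trans (add_le_add e₄ t1)) (norm_nonneg _) hr'
  have n3 := congrArg norm key
  rw [norm_mul, norm_mul, norm_mul] at n3
  refine le_of_mul_le_mul_left ?_ hd
  calc d * ‖ω j - (1 + c) * (φ j * w j)‖ ≤ _ := mul_le_mul_of_nonneg_right n1 (norm_nonneg _)
    _ = _ := n3
    _ ≤ r * d * (‖φ j‖ * ‖w j‖) := mul_le_mul_of_nonneg_right n2 (by positivity)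
    _ = _ := by ring

/-- A = (m/2 + α)(m/2 + 5 - α) -/
theorem AA_ne (m : ℕ) (h : α.im ≠ 0) : AA (MM m) α ≠ 0 := by
  have e : AA (MM m) α = (m / 2 + α) * (m / 2 + 5 - α) := by
    simp only [AA, MM]
    push_cast
    ring
  rw [e]
  refine mul_ne_zero (fun h0 => h ?_) fun h0 => h ?_
  · simpa using congrArg Complex.im h0
  · simpa using congrArg Complex.im h0

/-- m = 0: (χ_F + conj χ_G) φ₀ u₀ = 0 -/
theorem near0 {α' c c' z z' : ℂ} {r r' rz rz' : ℝ} {u v φ ω ω' : ℕ → ℂ}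
    (hc : Chi M ρ α α₀ 0 c r) (hc' : Chi M ρ α' α₀ 0 c' r') (hz : Dsc M ρ α z rz) (hz' : Dsc M ρ α' z' rz')
    (h : r + r' < ‖c + conj c'‖) (hu : Pair M ρ α α₀ u φ ω) (hv : Pair M ρ α' α₀ v φ ω')
    (h0 : φ 0 ≠ 0) (h1 : conj (φ 0) = -φ 0) (h2 : u 0 + conj (v 0) = 0) (h3 : ω 0 + conj (ω' 0) = 2 * φ 0 * u 0) :
    u 0 = 0 ∧ u 1 = 0 ∧ v 1 = 0 ∧ ω 0 = 0 ∧ ω' 0 = 0 := by
  have e1 := hc u φ ω hu
  have e2 := hc' v φ ω' hv
  have e3 : conj (v 0) = -u 0 := by linear_combination h2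
  have e4 : ‖v 0‖ = ‖u 0‖ := by rw [← Complex.norm_conj, e3, norm_neg]
  have e5 : (c + conj c') * (φ 0 * u 0) =
      -((ω 0 - (1 + c) * (φ 0 * u 0)) + conj (ω' 0 - (1 + c') * (φ 0 * v 0))) := by
    simp only [map_sub, map_mul, map_add, map_one, h1, e3]
    linear_combination h3
  have e6 := congrArg norm e5
  rw [norm_neg, norm_mul, norm_mul] at e6
  have e7 := norm_add_le (ω 0 - (1 + c) * (φ 0 * u 0)) (conj (ω' 0 - (1 + c') * (φ 0 * v 0)))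
  rw [Complex.norm_conj, ← e6] at e7
  rw [e4] at e2
  have hu0 : u 0 = 0 := by
    by_contra hne
    have := mul_pos (norm_pos_iff.2 h0) (norm_pos_iff.2 hne)
    nlinarith
  have hv0 : v 0 = 0 := by rwa [hu0, norm_zero, norm_eq_zero] at e4
  refine ⟨hu0, ?_, ?_, ?_, ?_⟩
  · simpa [hu0] using hz u hu.hw
  · simpa [hv0] using hz' v hv.hw
  · simpa [hu0] using e1
  · simpa [hu0, hv0] using e2

/-- m = 1: `recu 0` gives A(α) f₀ = (χ₁ - 1) u₁ (A(α₀) + (5-α-α₀)(α-α₀) = A(α)), the same on the other side; `hom3` -/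
theorem near1 {b : ℝ} {lam f₀ c c' : ℂ} {r r' : ℝ} {u v φ ω ω' : ℕ → ℂ} (hr : 0 ≤ r) (hr' : 0 ≤ r')
    (hc : Chi 11 ρ (lam - Complex.I * b) (1 / 2 - Complex.I * b) 1 c r)
    (hc' : Chi 11 ρ (conj lam - Complex.I * b) (1 / 2 - Complex.I * b) 1 c' r')
    {X X' A A' K : ℂ} (hX : X = c - 1) (hX' : X' = conj c' - 1) (hA : A = AA 11 (lam - Complex.I * b))
    (hA' : A' = conj (AA 11 (conj lam - Complex.I * b))) (hK : K = (2 * lam + 1) * (lam - 1 / 2))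
    (h : r * ‖X' * K - A'‖ + r' * ‖X * K - A‖ + r * r' * ‖K‖ < ‖X * X' * K - A * X' - A' * X‖)
    (hu : Pair 11 ρ (lam - Complex.I * b) (1 / 2 - Complex.I * b) u φ ω)
    (hv : Pair 11 ρ (conj lam - Complex.I * b) (1 / 2 - Complex.I * b) v φ ω')
    (h1 : φ 1 ≠ 0) (h2 : u 0 = (lam - 1 / 2) * f₀) (h3 : v 0 = -conj (u 0))
    (h4 : ω 0 = -f₀ * φ 1) (h5 : ω' 0 = conj f₀ * φ 1) (h6 : u 1 - conj (v 1) = (2 * lam + 1) * u 0) :
    f₀ = 0 ∧ u 1 = 0 ∧ v 1 = 0 := by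
  have e1 := hc u φ ω hu
  have e2 := hc' v φ ω' hv
  have r1 := hu.recu 0
  have r2 := hv.recu 0
  have hp := norm_pos_iff.2 h1
  have g1 : ω 1 - (1 + c) * (φ 1 * u 1) = φ 1 * (A * f₀ - X * u 1) := by
    rw [zero_add] at r1
    rw [r1, h4, h2, hA, hX]
    simp only [AA]
    push_cast
    ring
  have g2 : ω' 1 - (1 + c') * (φ 1 * v 1) = -(φ 1 * conj (A' * f₀ + X' * conj (v 1))) := by
    rw [zero_add] at r2
    rw [r2, h5, h3, h2, hA', hX']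
    simp only [map_add, map_mul, map_sub, map_one, map_div₀, map_ofNat, Complex.conj_conj]
    simp only [AA]
    push_cast
    ring
  rw [g1, norm_mul, mul_left_comm] at e1
  rw [g2, norm_neg, norm_mul, mul_left_comm, Complex.norm_conj, ← Complex.norm_conj (v 1)] at e2
  obtain ⟨a1, a2, a3⟩ := hom3 (K := K) hr hr' (le_of_mul_le_mul_left e1 hp) (le_of_mul_le_mul_left e2 hp)
    (by rw [h6, h2, hK, mul_assoc]) h
  exact ⟨a1, a2, by simpa using a3⟩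

end

end Crest.Agent.R086.NB
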