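import Crest.Agent.R086.NB.STwo
import Crest.Agent.R086.NB.RChi

/-! # Row 86, part N: soundness of the recursion for χ (task) -/

open scoped ComplexConjugate

namespace Crest.Agent.R086.NB

open RB

variable {M ρ : ℝ} {α α₀ : ℂ} {P Q : Pm}

/-- meaning of the state at level j -/
def S3.V (a : S3) (M ρ : ℝ) (α α₀ : ℂ) (j : ℕ) : Prop :=
  a.z.V M ρ (α + j) ∧ a.s.V M ρ (α₀ + j) ∧
    (a.c.ok = true → a.z.ok = true ∧ Chi M ρ α α₀ j (val a.c.cr + val a.c.ci * Complex.I) (valN a.c.r))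

private theorem mk_mem {a b : RB} {x y : ℝ} {z : ℂ} (ha : a.mem x) (hb : b.mem y) (e1 : z.re = x)
    (e2 : z.im = y) : CB.mem ⟨a, b⟩ z := ⟨e1 ▸ ha, e2 ▸ hb⟩

private theorem cstart_aux (hα : 0 ≤ α.re) (hα₀ : 0 ≤ α₀.re) (j : ℕ) {z s : St}
    (hz : z.V M ρ (α + (j + 3 : ℕ))) (hs : s.V M ρ (α₀ + (j + 3 : ℕ))) :
    S3.V ⟨z, s, ⟨and z.ok (and s.ok (Nat.ble 2 j)), Int.ofNat 0, Int.ofNat 0,
      cdiv (Nat.max (Nat.add z.ci.natAbs z.r) (Nat.add s.ci.natAbs s.r)) j⟩⟩ M ρ α α₀ (j + 3) := by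
  refine ⟨hz, hs, fun hok => ?_⟩
  simp only [Bool.and_eq_true, Nat.ble_eq] at hok
  obtain ⟨h1, h2, h3⟩ := hok
  refine ⟨h1, ?_⟩
  have key : ∀ x y : ℕ, y ≤ x → valN y ≤ valN (cdiv x j) * (((j + 3 : ℕ) : ℝ) - 3) := by
    intro x y hxy
    have h := cdiv_ge x (b := j) (by omega)
    have hxy' : (y : ℝ) ≤ x := by exact_mod_cast hxy
    generalize valN (cdiv x j) = K at h ⊢
    unfold valN at h ⊢
    push_cast
    rw [div_le_iff₀ (by positivity)] at h ⊢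
    linarith
  have k2 : ∀ (a : ℤ) (r : ℕ), val a + valN r ≤ valN (Nat.add a.natAbs r) := fun a r => by
    rw [valN_add, valN_natAbs]
    linarith [le_abs_self (val a)]
  dsimp only
  rw [val_zero, Complex.ofReal_zero, zero_mul, add_zero]
  exact chi_start (by omega) hα hα₀ (hz h1) (hs h2) (valN_nonneg _)
    ((k2 _ _).trans (key _ _ (Nat.le_max_left _ _))) ((k2 _ _).trans (key _ _ (Nat.le_max_right _ _)))

private theorem cstep_ok (hP : P.Ok M ρ α) (hQ : Q.Ok M ρ α₀) {j : ℕ} (hA : AA M (α₀ + j) ≠ 0) {a : S3}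
    (ha : a.V M ρ α α₀ (j + 1)) : (cstep P Q j a).V M ρ α α₀ j := by
  obtain ⟨h1, h2, h3⟩ := ha
  rw [Nat.cast_succ, ← add_assoc] at h1 h2
  have hz := step_ok hP j h1
  have hs := step_ok hQ j h2
  unfold S3.V cstep
  dsimp only
  generalize step P j a.z = z at hz ⊢
  generalize step Q j a.s = s' at hs ⊢
  generalize Int.ediv _ _ = cr
  generalize Int.ediv _ _ = ci
  refine ⟨hz, hs, fun hok => ?_⟩
  simp only [Bool.and_eq_true, Nat.blt_eq] at hok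
  obtain ⟨o1, o2, o3, o4⟩ := hok
  refine ⟨o2, ?_⟩
  have hx : CB.mem ⟨sub (pt z.cr) (gB P.sg j), sub (pt z.ci) P.ki⟩
      (val z.cr + val z.ci * Complex.I - kp ρ (α + j)) :=
    mk_mem ((mem_pt _).sub (gB_mem hP.sg j)) ((mem_pt _).sub hP.ki) (by simp [kp]) (by simp [kp])
  have hX : CB.mem ⟨add (pt a.s.cr) (gB Q.sg j), add (pt a.s.ci) Q.ki⟩
      (val a.s.cr + val a.s.ci * Complex.I + kp ρ (α₀ + j)) :=
    mk_mem ((mem_pt _).add (gB_mem hQ.sg j)) ((mem_pt _).add hQ.ki) (by simp [kp]) (by simp [kp])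
  have hn : CB.mem ⟨pt (Int.sub z.cr a.s.cr), sub (pt (Int.sub z.ci a.s.ci)) P.rho⟩
      (val z.cr + val z.ci * Complex.I - (val a.s.cr + val a.s.ci * Complex.I) - Complex.I * ρ) :=
    mk_mem (mem_pt _) ((mem_pt _).sub hP.rho) (by rw [val_sub]; simp) (by rw [val_sub]; simp)
  have e1 := ((hn.sub (hx.cmul a.c.cr a.c.ci)).sub (hX.cmul cr ci)).up
  have e2 : ‖1 - ((val a.c.cr : ℂ) + val a.c.ci * Complex.I)‖ ≤
      valN (hyp (Int.sub (Int.ofNat one) a.c.cr).natAbs a.c.ci.natAbs) := by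
    have := hyp_ge (x := (Int.sub (Int.ofNat one) a.c.cr).natAbs) (y := a.c.ci.natAbs)
      (a := 1 - val a.c.cr) (b := -val a.c.ci) (by rw [valN_natAbs, val_sub, val_one])
      (by rw [valN_natAbs, abs_neg])
    convert this using 2
    push_cast; ring
  have e3 : ‖1 + ((val cr : ℂ) + val ci * Complex.I)‖ ≤
      valN (hyp (Int.add (Int.ofNat one) cr).natAbs ci.natAbs) := by
    have := hyp_ge (x := (Int.add (Int.ofNat one) cr).natAbs) (y := ci.natAbs)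
      (a := 1 + val cr) (b := val ci) (by rw [valN_natAbs, val_add, val_one])
      (by rw [valN_natAbs])
    convert this using 2
    push_cast; ring
  have e4 := hx.up
  have e5 := hX.dn
  generalize CB.dn _ = D at o4 e5 ⊢
  have e6 : valN (Nat.sub D a.s.r) + valN a.s.r = valN D := by
    rw [← valN_add]
    congr 1
    simp only [Nat.add_eq, Nat.sub_eq] at o4 ⊢
    omega
  have e7 : 0 < valN (Nat.sub D a.s.r) := by
    unfold valN
    have : (0 : ℝ) < (Nat.sub D a.s.r : ℕ) := by exact_mod_cast o4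
    positivity
  refine chi_step (h3 o1).2 (hz o2) (h2 o3) hA (valN_nonneg _) (valN_nonneg _) (valN_nonneg _)
    (valN_nonneg _) rfl rfl e7 (e6.trans_le e5) e1 e2 e3 e4 (le_of_eq_of_le ?_ (cdiv_ge _ o4))
  rw [cast_add96, cast_add96, cast_add96, valN_mul, valN_mul, valN_mul, valN_mul, valN_one, mul_one,
    valN_add]

private theorem par_ok (m : ℕ) {b σ τ : ℝ} (hb : Bx b ρ) {s₁ s₂ t₁ t₂ : ℤ} (h1 : val s₁ ≤ σ) (h2 : σ ≤ val s₂)
    (h3 : val t₁ ≤ τ) (h4 : τ ≤ val t₂) :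
    (mkP (iv s₁ s₂) (sub (iv t₁ t₂) bB) (n2B m) rhoB).Ok (MM m) ρ (σ + τ * Complex.I - Complex.I * b) ∧
    (mkP (iv s₁ s₂) (sub (neg (iv t₁ t₂)) bB) (n2B m) rhoB).Ok (MM m) ρ
      (conj (σ + τ * Complex.I) - Complex.I * b) :=
  ⟨mkP_ok (by simpa using mem_iv h1 h2) (by simpa using (mem_iv h3 h4).sub (bB_mem hb.1)) (n2B_mem m)
    (rhoB_mem hb.2), mkP_ok (by simpa using mem_iv h1 h2)
    (by simpa using (mem_iv h3 h4).neg.sub (bB_mem hb.1)) (n2B_mem m) (rhoB_mem hb.2)⟩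

private theorem par0_ok (m : ℕ) {b : ℝ} (hb : Bx b ρ) (c : ℤ) :
    (mkP (pt c) (neg bB) (n2B m) rhoB).Ok (MM m) ρ (val c - Complex.I * b) ∧
      ∀ j : ℕ, AA (MM m) (val c - Complex.I * b + j) ≠ 0 := by
  refine ⟨mkP_ok (by simpa using mem_pt c) (by simpa using (bB_mem hb.1).neg) (n2B_mem m)
    (rhoB_mem hb.2), fun j => AA_ne m ?_⟩
  have := hb.1.1
  simp
  linarith

/-- `cstart` by `start_ok`, `chi_start` (K j ≥ max, `cdiv`: note the scale, valN (cdiv x j) * j ≥ valN x); `cstep` by `step_ok`, `chi_step`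
(pattern: `step_ok` in SDisc: `unfold cstep; dsimp only; generalize` the hints cr, ci); induction as `iter_ok` -/
theorem citer_ok (hP : P.Ok M ρ α) (hQ : Q.Ok M ρ α₀) (hα : 0 ≤ α.re) (hα₀ : 0 ≤ α₀.re)
    (hA : ∀ j : ℕ, AA M (α₀ + j) ≠ 0) (n k : ℕ) (hk : k ≤ n + 3) : (citer P Q n k).V M ρ α α₀ (n + 3 - k) := by
  induction k with
  | zero => exact cstart_aux hα hα₀ n (start_ok hP (n + 3)) (start_ok hQ (n + 3))
  | succ k ih =>
    have h1 := ih (by omega)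
    rw [show n + 3 - k = n + 3 - (k + 1) + 1 by omega] at h1
    have e2 : citer P Q n (k + 1) = cstep P Q (n + 3 - (k + 1)) (citer P Q n k) := rfl
    rw [e2]
    exact cstep_ok hP hQ (hA _) h1

/-- `near0` -/
theorem near0T_ok (c : ℤ) (hc : 0 ≤ val c) {b : ℝ} (hb : Bx b ρ) (n : ℕ) (s₁ s₂ t₁ t₂ z₁ z₂ : ℤ)
    (h : near0T c n s₁ s₂ t₁ t₂ z₁ z₂ = true) :
    Box (fun σ τ _ => 0 ≤ σ → ∀ u v φ ω ω' : ℕ → ℂ,
      Pair 0 ρ (σ + τ * Complex.I - Complex.I * b) (val c - Complex.I * b) u φ ω →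
      Pair 0 ρ (conj (σ + τ * Complex.I) - Complex.I * b) (val c - Complex.I * b) v φ ω' →
      φ 0 ≠ 0 → conj (φ 0) = -φ 0 → u 0 + conj (v 0) = 0 → ω 0 + conj (ω' 0) = 2 * φ 0 * u 0 →
      u 0 = 0 ∧ u 1 = 0 ∧ v 1 = 0 ∧ ω 0 = 0 ∧ ω' 0 = 0) s₁ s₂ t₁ t₂ z₁ z₂ := by
  intro σ τ _ h1 h2 h3 h4 _ _ hσ u v φ ω ω' hu hv
  obtain ⟨hP, hQ⟩ := par_ok 0 hb h1 h2 h3 h4
  obtain ⟨hO, hA⟩ := par0_ok 0 hb c
  have ha := citer_ok hP hO (by simpa using hσ) (by simpa using hc) hA n (n + 3) le_rfl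
  have hb' := citer_ok hQ hO (by simpa using hσ) (by simpa using hc) hA n (n + 3) le_rfl
  unfold near0T at h
  dsimp only at h
  rw [Nat.add_eq] at h
  generalize citer _ _ n (n + 3) = a at ha h
  generalize citer _ _ n (n + 3) = a' at hb' h
  rw [Nat.sub_self, show MM 0 = 0 by simp [MM]] at ha hb'
  simp only [Bool.and_eq_true, Nat.blt_eq] at h
  obtain ⟨o1, o2, o3⟩ := h
  obtain ⟨z1, -, c1⟩ := ha
  obtain ⟨z2, -, c2⟩ := hb'
  rw [Nat.cast_zero, add_zero] at z1 z2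
  have hm : CB.mem ⟨pt (Int.add a.c.cr a'.c.cr), pt (Int.sub a.c.ci a'.c.ci)⟩
      (val a.c.cr + val a.c.ci * Complex.I + conj (val a'.c.cr + val a'.c.ci * Complex.I)) :=
    mk_mem (mem_pt _) (mem_pt _) (by rw [val_add]; simp) (by rw [val_sub]; simp [sub_eq_add_neg])
  refine near0 (c1 o1).2 (c2 o2).2 (z1 (c1 o1).1) (z2 (c2 o2).1) (lt_of_lt_of_le ?_ hm.dn) hu hv
  rw [← valN_add]
  unfold valN
  have : ((Nat.add a.c.r a'.c.r : ℕ) : ℝ) < _ := Nat.cast_lt.2 o3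
  exact div_lt_div_of_pos_right this (by positivity)

/-- `near1`, `homT_ok` -/
theorem near1T_ok {b : ℝ} (hb : Bx b ρ) (n : ℕ) (s₁ s₂ t₁ t₂ z₁ z₂ : ℤ)
    (h : near1T n s₁ s₂ t₁ t₂ z₁ z₂ = true) :
    Box (fun σ τ _ => 0 ≤ σ → ∀ (f₀ : ℂ) (u v φ ω ω' : ℕ → ℂ),
      Pair 11 ρ (σ + τ * Complex.I - Complex.I * b) (1 / 2 - Complex.I * b) u φ ω →
      Pair 11 ρ (conj (σ + τ * Complex.I) - Complex.I * b) (1 / 2 - Complex.I * b) v φ ω' →
      φ 1 ≠ 0 → u 0 = (σ + τ * Complex.I - 1 / 2) * f₀ → v 0 = -conj (u 0) →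
      ω 0 = -f₀ * φ 1 → ω' 0 = conj f₀ * φ 1 → u 1 - conj (v 1) = (2 * (σ + τ * Complex.I) + 1) * u 0 →
      f₀ = 0 ∧ u 1 = 0 ∧ v 1 = 0) s₁ s₂ t₁ t₂ z₁ z₂ := by
  intro σ τ _ h1 h2 h3 h4 _ _ hσ f₀ u v φ ω ω' hu hv
  obtain ⟨hP, hQ⟩ := par_ok 1 hb h1 h2 h3 h4
  obtain ⟨hO, hA⟩ := par0_ok 1 hb (Int.ofNat 140737488355328)
  have e : val (Int.ofNat 140737488355328) = 1 / 2 := by rw [val_ofNat]; unfold valN; norm_num
  have e' : ((val (Int.ofNat 140737488355328) : ℝ) : ℂ) = 1 / 2 := by rw [e]; push_cast; rfl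
  rw [e'] at hO hA
  have ha := citer_ok hP hO (by simpa using hσ) (by simp) hA n (n + 2) (by omega)
  have hb' := citer_ok hQ hO (by simpa using hσ) (by simp) hA n (n + 2) (by omega)
  have hA1 := AB_mem hP
  have hA2 := (AB_mem hQ).cj
  unfold near1T at h
  dsimp only at h
  rw [Nat.add_eq] at h
  generalize citer _ _ n (n + 2) = a at ha h
  generalize citer _ _ n (n + 2) = a' at hb' h
  rw [show n + 3 - (n + 2) = 1 by omega] at ha hb'
  rw [show MM 1 = 11 by norm_num [MM]] at ha hb' hA1 hA2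
  simp only [Bool.and_eq_true] at h
  obtain ⟨o1, o2, o3⟩ := h
  have hX : CB.mem ⟨pt (Int.sub a.c.cr (Int.ofNat one)), pt a.c.ci⟩
      (val a.c.cr + val a.c.ci * Complex.I - 1) :=
    mk_mem (mem_pt _) (mem_pt _) (by rw [val_sub, val_one]; simp) (by simp)
  have hX' : CB.mem ⟨pt (Int.sub a'.c.cr (Int.ofNat one)), pt (Int.neg a'.c.ci)⟩
      (conj (val a'.c.cr + val a'.c.ci * Complex.I) - 1) :=
    mk_mem (mem_pt _) (mem_pt _) (by rw [val_sub, val_one]; simp) (by rw [val_neg]; simp)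
  have hK1 : CB.mem ⟨add (two (iv s₁ s₂)) (pt (Int.ofNat one)), two (iv t₁ t₂)⟩
      (2 * (σ + τ * Complex.I) + 1) :=
    mk_mem ((mem_iv h1 h2).two.add (mem_pt _)) (mem_iv h3 h4).two (by rw [val_one]; simp) (by simp)
  have hK2 : CB.mem ⟨sub (iv s₁ s₂) (pt (Int.ofNat 140737488355328)), iv t₁ t₂⟩
      (σ + τ * Complex.I - 1 / 2) :=
    mk_mem ((mem_iv h1 h2).sub (mem_pt _)) (mem_iv h3 h4) (by rw [e]; simp) (by simp)
  exact near1 (valN_nonneg _) (valN_nonneg _) (ha.2.2 o1).2 (hb'.2.2 o2).2 rfl rfl rfl rfl rfl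
    (homT_ok hX hX' hA1 hA2 (hK1.mul hK2) o3) hu hv

end Crest.Agent.R086.NB
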