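import Crest.Agent.R086.NB.RDefs

/-! # Row 86, part N: the quadratic form recursion for large parameters (task) -/

open scoped ComplexConjugate

namespace Crest.Agent.R086.NB

noncomputable section

variable {M ρ ε : ℝ} {α : ℂ}

theorem q_start (h : 5 / 2 ≤ α.re) : Qf M ρ ε α 0 0 0 := by
  intro w hw
  have := hw.neg 0 (by simpa using h)
  simp only [Nat.cast_zero, add_zero, zero_add] at this
  simp only [BB]
  linarith

private theorem q_im (a b : ℂ) : |(conj a * b).im| ≤ ‖a‖ * ‖b‖ := by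
  have := Complex.abs_im_le_norm (conj a * b)
  rwa [norm_mul, Complex.norm_conj] at this

private theorem q_nsq (a : ℂ) : ‖a‖ ^ 2 = a.re ^ 2 + a.im ^ 2 := by
  rw [Complex.sq_norm, Complex.normSq_apply]
  ring

private theorem q_id {τ' x' y' g u V er u₁ η dl l h D Z X Y : ℝ} {w : ℕ → ℂ} (hw : Seq M ρ α w)
    (hg : g = 5 / 2 - α.re) (hu : u = ε * α.im) (hV : V = ε ^ 2 * ((M + 25) / 4))
    (her : er = ε * ρ) (hu₁ : u₁ = u - er) (hη : η = 2 * g - 1) (hdl : dl = ε * (u * ρ - ε * g ^ 2))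
    (hl : l = V + dl)
    (hh : h = ε ^ 2 * (τ' * (2 * (u * u₁ - l * η)) + y' * (2 * (g * u)) - g ^ 2))
    (hD : D = u ^ 2 + V + h)
    (hZ : Z = τ' * (ε ^ 2 * η ^ 2 + er * (er - 2 * u) - h) + x' + y' * u₁ - g)
    (hX : X = τ' * (V * (er * (2 * u - er) - ε ^ 2 * η ^ 2) + dl * (l + V) + ε ^ 2 * u ^ 2)
      + x' * (u ^ 2 - V) - y' * (u * l + V * u₁) - g * h)
    (hY : Y = τ' * (2 * (er * V - dl * u₁ - ε ^ 2 * (u * η))) + x' * (2 * u) + y' * (u * u₁ - l)) :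
    ε ^ 2 * (BB (α + 1) (fun j => w (j + 1)) + τ' * (ε ^ 2 * ((M + 25) / 4) * ‖w 1‖ ^ 2
        + ‖bh ε (α + 1) (fun j => w (j + 1))‖ ^ 2) + x' * ‖w 1‖ ^ 2
        + y' * (conj (w 1) * bh ε (α + 1) (fun j => w (j + 1))).im)
      = D * BB α w + (τ' * D + Z) * (V * ‖w 0‖ ^ 2 + ‖bh ε α w‖ ^ 2) + X * ‖w 0‖ ^ 2
        + Y * (conj (w 0) * bh ε α w).im := by
  have e := hw.recu 0
  simp only [Nat.cast_zero, add_zero, zero_add] at e
  have e1 : (w 2).re = (M / 4 + 5 * α.re - α.re ^ 2 + α.im ^ 2) * (w 0).re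
      - (5 * α.im - 2 * α.re * α.im) * (w 0).im - (4 - 2 * α.re) * (w 1).re
      + (ρ - 2 * α.im) * (w 1).im := by
    rw [e]
    simp [AA, ss, sq]
    ring
  have e2 : (w 2).im = (M / 4 + 5 * α.re - α.re ^ 2 + α.im ^ 2) * (w 0).im
      + (5 * α.im - 2 * α.re * α.im) * (w 0).re - (4 - 2 * α.re) * (w 1).im
      - (ρ - 2 * α.im) * (w 1).re := by
    rw [e]
    simp [AA, ss, sq]
    ring
  subst hX hY hZ hD hh hl hdl hη hu₁ her hV hu hg
  simp only [BB, bh, q_nsq, zero_add, Nat.reduceAdd, Complex.mul_re, Complex.mul_im, Complex.sub_re,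
    Complex.sub_im, Complex.add_re, Complex.add_im, Complex.conj_re, Complex.conj_im,
    Complex.ofReal_re, Complex.ofReal_im, Complex.I_re, Complex.I_im, Complex.one_re,
    Complex.one_im, e1, e2]
  ring

/-- With a = w₀, β = bh ε α w, I = Im(conj a β), B = BB α w, and primes for the shifted sequence (`Seq.shift`, w₂ from `recu 0`), the polynomial identity
ε²[B' + τ'(V|a'|² + |β'|²) + x'|a'|² + y' I'] = D B + (τ'D + Z)(V|a|² + |β|²) + X|a|² + Y I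
holds (expand in real and imaginary parts of w₀, w₁; `ring` after substituting all definitions).  Then
0 ≥ D[B + τ(…) + x|a|² + yI] + [(Z - (τ-τ')D)(V|a|²+|β|²) + (X - xD)|a|² + (Y - yD) I], and the last bracket is ≥ p₁|β|² + p₂|a|² - p₃|a||β| ≥ 0. -/
theorem q_step {τ' x' y' τ x y g u V er u₁ η dl l h D Z X Y p₁ p₂ p₃ : ℝ} (H : Qf M ρ ε (α + 1) τ' x' y')
    (hg : g = 5 / 2 - α.re) (hu : u = ε * α.im) (hV : V = ε ^ 2 * ((M + 25) / 4)) (hV0 : 0 ≤ V)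
    (her : er = ε * ρ) (hu₁ : u₁ = u - er) (hη : η = 2 * g - 1) (hdl : dl = ε * (u * ρ - ε * g ^ 2)) (hl : l = V + dl)
    (hh : h = ε ^ 2 * (τ' * (2 * (u * u₁ - l * η)) + y' * (2 * (g * u)) - g ^ 2))
    (hD : D = u ^ 2 + V + h)
    (hZ : Z = τ' * (ε ^ 2 * η ^ 2 + er * (er - 2 * u) - h) + x' + y' * u₁ - g)
    (hX : X = τ' * (V * (er * (2 * u - er) - ε ^ 2 * η ^ 2) + dl * (l + V) + ε ^ 2 * u ^ 2) + x' * (u ^ 2 - V)
      - y' * (u * l + V * u₁) - g * h)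
    (hY : Y = τ' * (2 * (er * V - dl * u₁ - ε ^ 2 * (u * η))) + x' * (2 * u) + y' * (u * u₁ - l))
    (hD0 : 0 < D) (h₁ : p₁ ≤ Z - (τ - τ') * D) (h₂ : p₂ ≤ p₁ * V + (X - x * D)) (h₃ : |Y - y * D| ≤ p₃)
    (hp₁ : 0 ≤ p₁) (hp₂ : 0 ≤ p₂) (hp : p₃ ^ 2 ≤ 4 * (p₁ * p₂)) : Qf M ρ ε α τ x y := by
  intro w hw
  have h1 := mul_nonpos_of_nonneg_of_nonpos (sq_nonneg ε) (H _ hw.shift)
  simp only [zero_add] at h1
  rw [q_id hw hg hu hV her hu₁ hη hdl hl hh hD hZ hX hY] at h1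
  rw [← hV]
  have hI := q_im (w 0) (bh ε α w)
  generalize (conj (w 0) * bh ε α w).im = J at *
  have hA := norm_nonneg (w 0)
  have hB := norm_nonneg (bh ε α w)
  generalize ‖w 0‖ = A at *
  generalize ‖bh ε α w‖ = B at *
  have h2 : |p₃ * (A * B)| ≤ p₁ * B ^ 2 + p₂ * A ^ 2 := by
    refine abs_le_of_sq_le_sq ?_ (by positivity)
    have := mul_le_mul_of_nonneg_right hp (sq_nonneg (A * B))
    nlinarith [sq_nonneg (p₁ * B ^ 2 - p₂ * A ^ 2)]
  have h3 : |(Y - y * D) * J| ≤ p₃ * (A * B) := by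
    rw [abs_mul]
    exact mul_le_mul h₃ hI (abs_nonneg _) ((abs_nonneg _).trans h₃)
  have h4 := mul_le_mul_of_nonneg_right h₁ (show 0 ≤ V * A ^ 2 + B ^ 2 by positivity)
  have h5 := mul_le_mul_of_nonneg_right h₂ (sq_nonneg A)
  refine le_of_mul_le_mul_left ?_ hD0
  have h6 := (abs_le.1 h3).1
  have h7 := (abs_le.1 h2).2
  linarith

/-- τ|β|² + (τV + x + ν)|a|² + yI is positive definite -/
theorem q_one {τ x y V ν p : ℝ} (H : Qf M ρ ε α τ x y) (hε : ε ≠ 0) (hV : V = ε ^ 2 * ((M + 25) / 4)) (hτ : 0 < τ)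
    (hp : p ≤ τ * V + x + ν) (h : y ^ 2 < 4 * (τ * p)) : One M ρ ν α := by
  intro w hw hne
  have h1 := H w hw
  rw [← hV] at h1
  have hI := q_im (w 0) (bh ε α w)
  have hp0 : 0 < p := by
    by_contra hc
    nlinarith [sq_nonneg y, mul_nonneg hτ.le (neg_nonneg.2 (not_lt.1 hc))]
  have hAB : 0 < ‖w 0‖ ∨ (‖w 0‖ = 0 ∧ 0 < ‖bh ε α w‖) := by
    by_cases h0 : w 0 = 0
    · refine Or.inr ⟨by simp [h0], norm_pos_iff.2 ?_⟩
      have h2 : w 1 ≠ 0 := hne.resolve_left (not_not.2 h0)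
      simp [bh, h0, hε, h2]
    · exact Or.inl (norm_pos_iff.2 h0)
  generalize (conj (w 0) * bh ε α w).im = J at *
  have hB := norm_nonneg (bh ε α w)
  generalize ‖w 0‖ = A at *
  generalize ‖bh ε α w‖ = B at *
  have h3 : |y * J| ≤ |y| * (A * B) := by
    rw [abs_mul]
    exact mul_le_mul_of_nonneg_left hI (abs_nonneg _)
  have h4 := (abs_le.1 h3).1
  have h5 := mul_le_mul_of_nonneg_right hp (sq_nonneg A)
  have h6 : |y| * (A * B) < τ * B ^ 2 + p * A ^ 2 := by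
    rcases hAB with hA | ⟨hA, hB'⟩
    · refine lt_of_mul_lt_mul_left ?_ (show 0 ≤ 4 * τ by positivity)
      have h7 := mul_lt_mul_of_pos_right h (pow_pos hA 2)
      rw [← sq_abs] at h7
      nlinarith [sq_nonneg (2 * τ * B - |y| * A)]
    · rw [hA]
      have := mul_pos hτ (pow_pos hB' 2)
      linarith
  linarith

end

end Crest.Agent.R086.NB
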