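import Crest.Agent.R086.NB.SDisc
import Crest.Agent.R086.NB.RQ

/-! # Row 86, part N: soundness of the quadratic form recursion (task) -/

open scoped ComplexConjugate

namespace Crest.Agent.R086.NB

open RB

variable {M ρ : ℝ}

/-- meaning of the parameters -/
private structure QOk (P : Pq) (ρ σ ε a b : ℝ) : Prop where
  sg : P.sg.mem σ
  e : P.e.mem ε
  u : P.u.mem a
  V : P.V.mem b
  e2 : P.e2.mem (ε ^ 2)
  u1 : P.u1.mem (a - ε * ρ)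
  ur : P.ur.mem (a * ρ)
  pV : P.pV.mem (a ^ 2 + b)
  mV : P.mV.mem (a ^ 2 - b)
  uu : P.uu.mem (a * (a - ε * ρ))
  Vu : P.Vu.mem (b * (a - ε * ρ))
  eV : P.eV.mem (ε * ρ * b)
  w : P.w.mem (ε * ρ * (ε * ρ - 2 * a))
  eu : P.eu.mem (ε ^ 2 * a ^ 2)

/-- meaning of a state -/
private def SV (s : Sq) (M ρ ε : ℝ) (α : ℂ) : Prop :=
  s.ok = true → Qf M ρ ε α (val s.τ) (val s.x) (val s.y)

private theorem mkQ_ok (hρ : rhoB.mem ρ) {sg e u V : RB} {σ ε a b : ℝ} (l0 lm : ℕ) (h1 : sg.mem σ)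
    (h2 : e.mem ε) (h3 : u.mem a) (h4 : V.mem b) : QOk (mkQ sg e u V l0 lm) ρ σ ε a b :=
  ⟨h1, h2, h3, h4, h2.sq, h3.sub (h2.mul hρ), h3.mul hρ, h3.sq.add h4, h3.sq.sub h4,
    h3.mul (h3.sub (h2.mul hρ)), h4.mul (h3.sub (h2.mul hρ)), (h2.mul hρ).mul h4,
    (h2.mul hρ).mul ((h2.mul hρ).sub h3.two), h2.sq.mul h3.sq⟩

private theorem qstep_ok {P : Pq} {α : ℂ} {ε a b : ℝ} (h : QOk P ρ α.re ε a b) (hu : a = ε * α.im)
    (hV : b = ε ^ 2 * ((M + 25) / 4)) (hV0 : 0 ≤ b) (j : ℕ) {s : Sq} (hs : SV s M ρ ε (α + j + 1)) :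
    SV (qstep P j s) M ρ ε (α + j) := by
  unfold qstep
  extract_lets g η g2 dl l eη hh D Z X Y y p₃ p₁ p₂ pv δ x
  intro hok
  simp only [Bool.and_eq_true] at hok
  obtain ⟨k0, k1, k2, k3⟩ := hok
  have mg : g.mem _ := gB_mem h.sg j
  have mη : η.mem _ := mg.two.sub (mem_pt _)
  rw [val_one] at mη
  have mg2 : g2.mem _ := mg.sq
  have mdl : dl.mem _ := h.e.mul (h.ur.sub (h.e.mul mg2))
  have ml : l.mem _ := h.V.add mdl
  have meη : eη.mem _ := h.e2.mul mη.sq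
  have mh : hh.mem _ := h.e2.mul
    (((mem.cmul s.τ (h.uu.sub (ml.mul mη)).two).add (mem.cmul s.y (mg.mul h.u).two)).sub mg2)
  have mD : D.mem _ := h.pV.add mh
  have mZ : Z.mem _ :=
    (((mem.cmul s.τ ((meη.add h.w).sub mh)).add (mem_pt s.x)).add (mem.cmul s.y h.u1)).sub mg
  have mX : X.mem _ := (((mem.cmul s.τ (((h.V.mul (h.w.neg.sub meη)).add (mdl.mul (ml.add h.V))).add
    h.eu)).add (mem.cmul s.x h.mV)).sub (mem.cmul s.y ((h.u.mul ml).add h.Vu))).sub (mg.mul mh)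
  have mY : Y.mem _ := ((mem.cmul s.τ ((h.eV.sub (mdl.mul h.u1)).sub (h.e2.mul (h.u.mul mη))).two).add
    (mem.cmul s.x h.u.two)).add (mem.cmul s.y (h.uu.sub ml))
  have f0 := (val_lt k1).trans_le mD.lo
  have f1 := (val_lt k2).trans_le (mZ.sub (mem.cmul δ mD)).lo
  have f2 := val_lt k3
  have f3 : val pv ≤ _ := (mem.cmul (Int.ofNat p₁) h.V).lo
  have f4 := (mX.sub (mem.cmul x mD)).lo
  have f5 : _ ≤ valN p₃ := (mY.sub (mem.cmul y mD)).mag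
  have f6 : _ ≤ valN p₂ * _ :=
    cdiv_ge (Nat.mul p₃ p₃) (b := Nat.mul 4 p₁) (Nat.mul_pos four_pos (Nat.succ_pos _))
  have f7 : valN (Nat.mul 4 p₁) = 4 * valN p₁ := by
    show valN (4 * p₁) = _
    unfold valN
    push_cast
    ring
  rw [val_zero] at f0
  rw [val_ofNat] at f1 f3
  rw [val_add, val_ofNat] at f2
  rw [valN_mul, f7] at f6
  clear_value x δ pv p₂ p₁ p₃ y Y X Z D
  refine q_step (g := 5 / 2 - (α.re + j)) (u := a) (V := b) (p₁ := valN p₁) (p₂ := valN p₂) (hs k0)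
    (by simp) (by simpa using hu) hV hV0 rfl rfl rfl rfl rfl rfl rfl rfl rfl rfl f0 ?_ ?_ f5
    (valN_nonneg _) (valN_nonneg _) (by linarith)
  · rw [val_add, add_sub_cancel_left]
    exact f1.le
  · linarith

private theorem qiter_ok {P : Pq} {α : ℂ} {ε a b : ℝ} (h : QOk P ρ α.re ε a b) (hu : a = ε * α.im)
    (hV : b = ε ^ 2 * ((M + 25) / 4)) (hV0 : 0 ≤ b) (N k : ℕ) (hN : 5 / 2 ≤ α.re + N) (hk : k ≤ N) :
    SV (qiter P N k) M ρ ε (α + (N - k : ℕ)) := by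
  induction k with
  | zero =>
    intro _
    show Qf M ρ ε _ (val (Int.ofNat 0)) (val (Int.ofNat 0)) (val (Int.ofNat 0))
    rw [val_zero]
    exact q_start (by simpa using hN)
  | succ k ih =>
    have h1 := ih (by omega)
    have e : (α + (N - k : ℕ) : ℂ) = α + (N - (k + 1) : ℕ) + 1 := by
      rw [show N - k = N - (k + 1) + 1 by omega]
      push_cast
      ring
    rw [e] at h1
    have e2 : qiter P N (k + 1) = qstep P (N - (k + 1)) (qiter P N k) := rfl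
    rw [e2]
    exact qstep_ok h hu hV hV0 _ h1

private theorem qtst_ok {P : Pq} {α : ℂ} {ε b ν : ℝ} (h : P.V.mem b) (hV : b = ε ^ 2 * ((M + 25) / 4))
    (hε : ε ≠ 0) (hν : 5 / 2 ≤ ν) {s : Sq} (hs : SV s M ρ ε α) (ht : qtst P s = true) : One M ρ ν α := by
  unfold qtst at ht
  simp only [Bool.and_eq_true] at ht
  obtain ⟨k0, k1, k2⟩ := ht
  have f0 := val_lt k1
  rw [val_zero] at f0
  have f1 := (mem.cmul s.τ h).lo
  generalize (cmul s.τ P.V).lo = c at f1 k2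
  have f2 : s.y * s.y < 4 * (s.τ * (c + s.x + 703687441776640)) := ltZ_iff k2
  have f3 : (s.y : ℝ) * s.y < 4 * (s.τ * (c + s.x + 703687441776640)) := by exact_mod_cast f2
  refine q_one (p := val c + val s.x + 5 / 2) (hs k0) hε hV f0 (by linarith) ?_
  unfold val
  nlinarith

/-- Define `Pq.Ok` (membership of every field, as `Pm.Ok` in SDisc), `Sq.V s := s.ok = true → Qf M ρ ε α (val s.τ) (val s.x) (val s.y)`,
prove `qstep_ok` with `q_step` (pattern: `step_ok` in SDisc: `unfold qstep; dsimp only; generalize` the hints y, δ, x, p₁;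
p₃² ≤ 4p₁p₂ from `cdiv_ge`; τ - τ' = val δ; p₂ ≤ pv + (X - xD).lo with pv ≤ p₁V), `qiter` (start: `q_start`, level ≥ 3), `qtst` with `q_one` (ν ≥ 5/2). -/
theorem qrun_ok (hρ : ρ ∈ Set.Icc (2.704972 : ℝ) 2.705170) {sg e u V : RB} {l0 lm n : ℕ} {σ t ε ν : ℝ}
    (h1 : sg.mem σ) (h2 : e.mem ε) (h3 : u.mem (ε * t)) (h4 : V.mem (ε ^ 2 * ((M + 25) / 4)))
    (hσ : 0 ≤ σ) (hε : ε ≠ 0) (hM : 0 ≤ M) (hν : 5 / 2 ≤ ν) (h : qrun n (mkQ sg e u V l0 lm) = true) :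
    One4 M ρ ν σ t := by
  have hP : QOk (mkQ sg e u V l0 lm) ρ ((σ : ℂ) + t * Complex.I).re ε _ _ :=
    mkQ_ok (rhoB_mem hρ) l0 lm (by simpa using h1) h2 h3 h4
  generalize mkQ sg e u V l0 lm = P at h hP
  have hu : ε * t = ε * ((σ : ℂ) + t * Complex.I).im := by simp
  have hV0 : 0 ≤ ε ^ 2 * ((M + 25) / 4) := by positivity
  unfold qrun at h
  simp only [Bool.and_eq_true] at h
  obtain ⟨t3, t2, t1, t0⟩ := h
  have a3 := qiter_ok hP hu rfl hV0 (Nat.add n 3) n (by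
    have : (0 : ℝ) ≤ n := n.cast_nonneg
    simp
    linarith) (Nat.le_add_right n 3)
  rw [show Nat.add n 3 - n = 3 from Nat.add_sub_cancel_left n 3] at a3
  have a2 := qstep_ok hP hu rfl hV0 2 (by convert a3 using 1; push_cast; ring)
  have a1 := qstep_ok hP hu rfl hV0 1 (by convert a2 using 1; push_cast; ring)
  have a0 := qstep_ok hP hu rfl hV0 0 (by convert a1 using 1; push_cast; ring)
  intro j hj
  interval_cases j
  · exact qtst_ok hP.V rfl hε hν a0 t0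
  · exact qtst_ok hP.V rfl hε hν a1 t1
  · exact qtst_ok hP.V rfl hε hν a2 t2
  · exact qtst_ok hP.V rfl hε hν a3 t3

/-- chart A: ε ν = 1, u = ε t -/
theorem oneA_ok (hρ : ρ ∈ Set.Icc (2.704972 : ℝ) 2.705170) (n : ℕ) (s₁ s₂ e₁ e₂ z₁ z₂ : ℤ)
    (h : oneA n s₁ s₂ e₁ e₂ z₁ z₂ = true) :
    Box (fun σ ε u => ∀ M ν t : ℝ, 0 ≤ σ → 0 ≤ M → (M + 25) / 4 = ν ^ 2 → 5 / 2 ≤ ν → ε * ν = 1 → u = ε * t →
      One4 M ρ ν σ t) s₁ s₂ e₁ e₂ z₁ z₂ := by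
  intro σ ε u h1 h2 h3 h4 h5 h6 M ν t hσ hM hn hν hε hu
  refine qrun_ok hρ (mem_iv h1 h2) (mem_iv h3 h4) (hu ▸ mem_iv h5 h6) ?_ hσ
    (left_ne_zero_of_mul_eq_one hε) hM hν h
  rw [hn, ← mul_pow, hε, one_pow, ← val_one]
  exact mem_pt _

/-- chart B: ε t = ±1, v = ε ν -/
theorem oneB_ok (hρ : ρ ∈ Set.Icc (2.704972 : ℝ) 2.705170) (u : ℤ) (n : ℕ) (s₁ s₂ e₁ e₂ z₁ z₂ : ℤ)
    (h : oneB u n s₁ s₂ e₁ e₂ z₁ z₂ = true) :
    Box (fun σ ε v => ∀ M ν t : ℝ, 0 ≤ σ → 0 ≤ M → (M + 25) / 4 = ν ^ 2 → 5 / 2 ≤ ν → 0 < ε → ε * t = val u →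
      v = ε * ν → One4 M ρ ν σ t) s₁ s₂ e₁ e₂ z₁ z₂ := by
  intro σ ε v h1 h2 h3 h4 h5 h6 M ν t hσ hM hn hν hε hu hv
  cases n with
  | zero =>
    have f1 : 2 * z₂ < 5 * e₁ := ltZ_iff h
    have f2 : (2 : ℝ) * z₂ < 5 * e₁ := by exact_mod_cast f1
    unfold val at h3 h6
    nlinarith
  | succ k =>
    refine qrun_ok hρ (mem_iv h1 h2) (mem_iv h3 h4) (hu ▸ mem_pt u) ?_ hσ hε.ne' hM hν h
    rw [hn, ← mul_pow, ← hv]
    exact (mem_iv h5 h6).sq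

end Crest.Agent.R086.NB
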