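import Crest.Agent.R086.NB.RunAll
import Crest.Agent.R086.NB.SQ
import Crest.Agent.R086.NB.SChi
import Crest.Agent.R086.NB.Red
import Crest.Agent.R086.NB.RedM

/-! # Row 86, part N: the algebraic statements, LimitStmt and MatchStmt -/

open scoped ComplexConjugate

namespace Crest.Agent.R086.NB

variable {ρ : ℝ}

theorem le_val {x : ℝ} {a : ℤ} (h : x * 2 ^ 48 ≤ (a : ℝ)) : x ≤ val a := by
  unfold val; rw [le_div_iff₀ (by positivity)]; exact h

theorem val_le {x : ℝ} {a : ℤ} (h : (a : ℝ) ≤ x * 2 ^ 48) : val a ≤ x := by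
  unfold val; rw [div_le_iff₀ (by positivity)]; exact h

theorem MM_nonneg (m : ℕ) : 0 ≤ MM m := by unfold MM; positivity

theorem MM_sq (m : ℕ) : (MM m + 25) / 4 = ((5 + (m : ℝ)) / 2) ^ 2 := by unfold MM; ring

/-- the one-sided criterion -/
theorem one4 (hρ : ρ ∈ Set.Icc (2.704972 : ℝ) 2.705170) (m : ℕ) {σ t : ℝ} (h0 : 0 ≤ σ) (h1 : σ ≤ 1)
    (h : 3 ≤ m ∨ 7 / 2 ≤ |t|) : One4 (MM m) ρ ((5 + m) / 2) σ t := by
  have hm0 : (0 : ℝ) ≤ m := Nat.cast_nonneg m
  have hν : (5 : ℝ) / 2 ≤ (5 + m) / 2 := by linarith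
  have s0 : val 0 ≤ σ := val_le (by push_cast; positivity)
  have s1 : σ ≤ val 281474976710656 := le_val (by push_cast; linarith)
  have z0 : val 0 ≤ (0 : ℝ) := val_le (by simp)
  have z1 : (0 : ℝ) ≤ val 0 := le_val (by simp)
  set ν : ℝ := (5 + m) / 2 with hνd
  have hνp : 0 < ν := by linarith
  by_cases hb : ν ≤ 32 ∧ |t| ≤ 32
  · have hm : m ≤ 59 := by
      have : (m : ℝ) ≤ 59 := by linarith [hb.1]
      exact_mod_cast this
    obtain ⟨t1, t2⟩ := abs_le.1 hb.2
    by_cases h3 : 3 ≤ m
    · exact Run.dAll m h3 hm _ (oneD_ok m hρ) σ t 0 s0 s1 (val_le (by push_cast; linarith))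
        (le_val (by push_cast; linarith)) z0 z1
    · have h4 := h.resolve_left h3
      rcases le_abs'.1 h4 with h5 | h5
      · exact Run.dMAll m (by omega) _ (oneD_ok m hρ) σ t 0 s0 s1 (val_le (by push_cast; linarith))
          (le_val (by push_cast; linarith)) z0 z1
      · exact Run.dPAll m (by omega) _ (oneD_ok m hρ) σ t 0 s0 s1 (val_le (by push_cast; linarith))
          (le_val (by push_cast; linarith)) z0 z1
  · rcases le_total |t| ν with hc | hc
    · have h32 : 32 ≤ ν := by
        by_contra hn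
        exact hb ⟨by linarith, by linarith⟩
      have e1 : 1 / ν ≤ 1 / 32 := one_div_le_one_div_of_le (by norm_num) h32
      have e0 : 0 < 1 / ν := by positivity
      have e2 : |1 / ν * t| ≤ 1 := by
        rw [abs_mul, abs_of_pos e0, one_div, inv_mul_le_iff₀ hνp]; linarith
      obtain ⟨u1, u2⟩ := abs_le.1 e2
      exact Run.qA _ (oneA_ok hρ) σ (1 / ν) (1 / ν * t) s0 s1 (val_le (by push_cast; positivity))
        (le_val (by push_cast; linarith)) (val_le (by push_cast; linarith)) (le_val (by push_cast; linarith))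
        (MM m) ν t h0 (MM_nonneg m) (MM_sq m) hν (by field_simp) rfl
    · have h32 : 32 ≤ |t| := by
        by_contra hn
        exact hb ⟨by linarith, by linarith⟩
      have htp : 0 < |t| := by linarith
      have e1 : 1 / |t| ≤ 1 / 32 := one_div_le_one_div_of_le (by norm_num) h32
      have e0 : 0 < 1 / |t| := by positivity
      have e2 : 1 / |t| * ν ≤ 1 := by
        rw [one_div, inv_mul_le_iff₀ htp]; linarith
      have e3 : 0 ≤ 1 / |t| * ν := by positivity
      rcases le_total 0 t with ht | ht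
      · refine Run.qP _ (oneB_ok hρ _) σ (1 / |t|) (1 / |t| * ν) s0 s1 (val_le (by push_cast; positivity))
          (le_val (by push_cast; linarith)) (val_le (by push_cast; positivity)) (le_val (by push_cast; linarith))
          (MM m) ν t h0 (MM_nonneg m) (MM_sq m) hν e0 ?_ rfl
        rw [abs_of_nonneg ht] at htp ⊢
        unfold val; push_cast; field_simp; norm_num
      · refine Run.qM _ (oneB_ok hρ _) σ (1 / |t|) (1 / |t| * ν) s0 s1 (val_le (by push_cast; positivity))
          (le_val (by push_cast; linarith)) (val_le (by push_cast; positivity)) (le_val (by push_cast; linarith))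
          (MM m) ν t h0 (MM_nonneg m) (MM_sq m) hν e0 ?_ rfl
        rw [abs_of_nonpos ht] at htp ⊢
        have : t ≠ 0 := by linarith
        unfold val; push_cast; field_simp; norm_num

theorem one1 (hρ : ρ ∈ Set.Icc (2.704972 : ℝ) 2.705170) (m : ℕ) {α : ℂ} (h0 : 0 ≤ α.re) (h1 : α.re ≤ 4)
    (h : 3 ≤ m ∨ 7 / 2 ≤ |α.im|) : One (MM m) ρ ((5 + m) / 2) α := by
  obtain ⟨j, hj, h2, h3⟩ : ∃ j : ℕ, j ≤ 3 ∧ (j : ℝ) ≤ α.re ∧ α.re ≤ j + 1 := by
    rcases le_total α.re 1 with a1 | a1
    · exact ⟨0, by norm_num, by simpa using h0, by simpa using a1⟩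
    rcases le_total α.re 2 with a2 | a2
    · exact ⟨1, by norm_num, by simpa using a1, by push_cast; linarith⟩
    rcases le_total α.re 3 with a3 | a3
    · exact ⟨2, by norm_num, by simpa using a2, by push_cast; linarith⟩
    · exact ⟨3, by norm_num, by simpa using a3, by push_cast; linarith⟩
  have := one4 hρ m (σ := α.re - j) (t := α.im) (by linarith) (by linarith) h j hj
  convert this using 1
  apply Complex.ext <;> simp

theorem nr_conj {ls : ℝ} {lam : ℂ} (h : Nr ls (conj lam)) : Nr ls lam := by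
  simpa [Nr] using h

theorem algFar_pos (m : ℕ) (b ρ : ℝ) (lam : ℂ) (u v : ℕ → ℂ) (hb : Bx b ρ) (h0 : 0 ≤ lam.re) (h1 : lam.re ≤ 33 / 10)
    (hi : 0 ≤ lam.im) (n0 : m = 0 → ¬ Nr 0 lam ∧ ¬ Nr 1 lam) (n1 : m = 1 → ¬ Nr (1 / 2) lam)
    (hu : Seq (MM m) ρ (lam - Complex.I * b) u) (hv : Seq (MM m) ρ (conj lam - Complex.I * b) v)
    (e0 : u 0 + conj (v 0) = 0) (e1 : u 1 - conj (v 1) = (2 * lam + m) * u 0) : u 0 = 0 ∧ u 1 = 0 := by
  by_cases hc : 3 ≤ m ∨ 4 ≤ lam.im
  · have b1 := hb.1.1
    have b2 := hb.1.2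
    refine one_one (one1 hb.2 m (by simpa using h0) (by simp; linarith) (hc.imp id fun h => ?_))
      (one1 hb.2 m (by simpa using h0) (by simp; linarith) (hc.imp id fun h => ?_)) hu hv e0 e1
    · refine le_abs.2 (Or.inl ?_)
      simp; linarith
    · refine le_abs.2 (Or.inr ?_)
      simp; linarith
  · push Not at hc
    have z0 : val 0 ≤ (0 : ℝ) := val_le (by simp)
    have z1 : (0 : ℝ) ≤ val 0 := le_val (by simp)
    have := Run.tAll m (by omega) _ (twoT_ok m hb) lam.re lam.im 0 (val_le (by push_cast; positivity))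
      (le_val (by push_cast; linarith)) (val_le (by push_cast; positivity)) (le_val (by push_cast; linarith [hc.2])) z0 z1
    unfold Far at this
    rw [Complex.re_add_im] at this
    exact this u v n0 n1 hu hv e0 e1

theorem algFar : AlgFar := by
  intro m b ρ lam u v hb h0 h1 n0 n1 hu hv e0 e1
  rcases le_total 0 lam.im with hi | hi
  · exact algFar_pos m b ρ lam u v hb h0 h1 hi n0 n1 hu hv e0 e1
  · have f0 : v 0 + conj (u 0) = 0 := by
      have := congrArg conj e0
      simpa [add_comm] using this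
    have f1 : v 1 - conj (u 1) = (2 * conj lam + m) * v 0 := by
      have := congrArg conj e1
      simp only [map_sub, map_mul, map_add, Complex.conj_conj, map_natCast, map_ofNat] at this
      linear_combination -this - (2 * conj lam + m) * f0
    obtain ⟨g0, g1⟩ := algFar_pos m b ρ (conj lam) v u hb (by simpa using h0) (by simpa using h1) (by simpa using hi)
      (fun hm => ⟨fun h => (n0 hm).1 (nr_conj h), fun h => (n0 hm).2 (nr_conj h)⟩) (fun hm h => n1 hm (nr_conj h))
      hv (by simpa using hu) f0 f1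
    rw [g0] at e0
    have u0 : u 0 = 0 := by simpa using e0
    rw [g1, u0] at e1
    exact ⟨u0, by simpa using e1⟩

theorem algNear0 : AlgNear0 := by
  intro ls b ρ lam u v φ ω ω' hls hb h0 hn hu hv
  obtain ⟨s1, s2⟩ := abs_le.1 hn.1
  obtain ⟨t1, t2⟩ := abs_le.1 hn.2
  have z0 : val 0 ≤ (0 : ℝ) := val_le (by simp)
  have z1 : (0 : ℝ) ≤ val 0 := le_val (by simp)
  rcases hls with rfl | rfl
  · have := Run.n0 _ (near0T_ok 0 z1 hb) lam.re lam.im 0 (val_le (by push_cast; positivity))
      (le_val (by push_cast; linarith)) (val_le (by push_cast; linarith)) (le_val (by push_cast; linarith)) z0 z1 h0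
    rw [Complex.re_add_im, show val 0 = 0 from le_antisymm z0 z1] at this
    exact this u v φ ω ω' hu hv
  · have e : val 281474976710656 = 1 := by unfold val; norm_num
    have := Run.n1 _ (near0T_ok 281474976710656 (by rw [e]; norm_num) hb) lam.re lam.im 0 (val_le (by push_cast; linarith))
      (le_val (by push_cast; linarith)) (val_le (by push_cast; linarith)) (le_val (by push_cast; linarith)) z0 z1 h0
    rw [Complex.re_add_im, e] at this
    exact this u v φ ω ω' hu hv

theorem algNear1 : AlgNear1 := by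
  intro b ρ lam f₀ u v φ ω ω' hb hn hu hv _
  obtain ⟨s1, s2⟩ := abs_le.1 hn.1
  obtain ⟨t1, t2⟩ := abs_le.1 hn.2
  have z0 : val 0 ≤ (0 : ℝ) := val_le (by simp)
  have z1 : (0 : ℝ) ≤ val 0 := le_val (by simp)
  have := Run.nh _ (near1T_ok hb) lam.re lam.im 0 (val_le (by push_cast; linarith))
    (le_val (by push_cast; linarith)) (val_le (by push_cast; linarith)) (le_val (by push_cast; linarith)) z0 z1
    (by linarith)
  rw [Complex.re_add_im] at this
  exact this f₀ u v φ ω ω' hu hv

theorem algMatch : AlgMatch := by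
  intro b r w hb hr hw hne
  have z0 : val 0 ≤ (0 : ℝ) := val_le (by simp)
  have z1 : (0 : ℝ) ≤ val 0 := le_val (by simp)
  obtain ⟨b1, b2⟩ := hb
  obtain ⟨r1, r2⟩ := hr
  have a0 := Run.m0 _ (matT_ok (F := fun z => ‖z‖ ≤ 1 / 1000) fun l z hl h => by
      have h1 : l.up < 281474976710 := Nat.blt_eq.mp h
      have h2 : (l.up : ℝ) < 281474976710 := by exact_mod_cast h1
      refine hl.up.trans ?_
      unfold valN; rw [div_le_iff₀ (by positivity)]; linarith) b r 0 (val_le (by push_cast; linarith))
    (le_val (by push_cast; linarith)) (val_le (by push_cast; linarith)) (le_val (by push_cast; linarith)) z0 z1 w hw hne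
  refine ⟨a0.1, a0.2, fun h => ?_, fun h => ?_, fun h => ?_, fun h => ?_⟩
  · have := (Run.m1 _ (matT_ok (F := fun z => 2 / 10 ^ 6 ≤ z.re) fun l z hl h => by
      refine le_trans ?_ ((val_lt h).le.trans hl.1.lo)
      rw [val_ofNat]; unfold valN; norm_num) b r 0 (val_le (by push_cast; linarith))
      (le_val (by push_cast; linarith)) (val_le (by push_cast; linarith)) (le_val (by push_cast; linarith)) z0 z1 w hw hne).2
    simpa using this
  · have := (Run.m2 _ (matT_ok (F := fun z => z.re ≤ -(2 / 10 ^ 6)) fun l z hl h => by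
      refine (hl.1.hi.trans (val_lt h).le).trans ?_
      unfold val; norm_num) b r 0 (val_le (by push_cast; linarith))
      (le_val (by push_cast; linarith)) (val_le (by push_cast; linarith)) (le_val (by push_cast; linarith)) z0 z1 w hw hne).2
    simpa using this
  · have := (Run.m3 _ (matT_ok (F := fun z => 2 / 10 ^ 7 ≤ z.im) fun l z hl h => by
      refine le_trans ?_ ((val_lt h).le.trans hl.2.lo)
      rw [val_ofNat]; unfold valN; norm_num) b r 0 (val_le (by push_cast; linarith))
      (le_val (by push_cast; linarith)) (val_le (by push_cast; linarith)) (le_val (by push_cast; linarith)) z0 z1 w hw hne).2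
    simpa using this
  · have := (Run.m4 _ (matT_ok (F := fun z => z.im ≤ -(2 / 10 ^ 7)) fun l z hl h => by
      refine (hl.2.hi.trans (val_lt h).le).trans ?_
      unfold val; norm_num) b r 0 (val_le (by push_cast; linarith))
      (le_val (by push_cast; linarith)) (val_le (by push_cast; linarith)) (le_val (by push_cast; linarith)) z0 z1 w hw hne).2
    simpa using this

theorem limit : LimitStmt := limit_of algFar algNear0 algNear1

theorem matchS : MatchStmt := match_of algMatch

end Crest.Agent.R086.NB
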