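import Crest.Agent.R086.NB.Alg

/-! # Row 86, part N: all deep levels are in L² (task) -/

open MeasureTheory Set Filter Topology
open scoped ComplexConjugate

namespace Crest.Agent.R086.NB

noncomputable section

/-- monotonicity up to an integrable error -/
theorem l2_key {R a S C : ℝ} {f f' h N : ℝ → ℝ} (hf : ∀ r, R < r → HasDerivAt f (f' r) r)
    (hh : ContinuousOn h (Ioi R)) (hN : ContinuousOn N (Ioi R)) (hNi : IntegrableOn N (Ioi a))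
    (hN0 : ∀ r, a < r → 0 ≤ N r) (hC : 0 ≤ C) (ha : R < a) (hS : a ≤ S)
    (hle : ∀ r, a < r → h r - C * N r ≤ f' r) :
    ∫ r in a..S, h r ≤ f S - f a + C * ∫ r in Ioi a, N r := by
  have hsub : Icc a S ⊆ Ioi R := fun r hr => ha.trans_le hr.1
  have h1 : IntervalIntegrable h volume a S := (hh.mono hsub).intervalIntegrable_of_Icc hS
  have h2 : IntervalIntegrable N volume a S := (hN.mono hsub).intervalIntegrable_of_Icc hS
  have h3 := intervalIntegral.integral_le_sub_of_hasDeriv_right_of_le (g := f) (g' := f')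
    (φ := fun r => h r - C * N r) hS
    (fun r hr => (hf r (hsub hr)).continuousAt.continuousWithinAt)
    (fun r hr => (hf r (ha.trans hr.1)).hasDerivWithinAt)
    (((hh.sub (continuousOn_const.mul hN)).mono hsub).integrableOn_Icc) fun r hr => hle r hr.1
  rw [intervalIntegral.integral_sub h1 (h2.const_mul C), intervalIntegral.integral_const_mul] at h3
  have h4 : ∫ r in a..S, N r ≤ ∫ r in Ioi a, N r := by
    rw [intervalIntegral.integral_of_le hS]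
    refine setIntegral_mono_set hNi ?_ (Eventually.of_forall Ioc_subset_Ioi_self)
    exact (ae_restrict_iff' measurableSet_Ioi).2 (Eventually.of_forall hN0)
  have := mul_le_mul_of_nonneg_left h4 hC
  linarith

theorem l2_lower {R a S δ : ℝ} {h : ℝ → ℝ} (hh : ContinuousOn h (Ioi R)) (ha : R < a) (hS : a ≤ S)
    (hδ : ∀ r, a ≤ r → δ ≤ h r) : δ * (S - a) ≤ ∫ r in a..S, h r := by
  have hsub : Icc a S ⊆ Ioi R := fun r hr => ha.trans_le hr.1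
  have := intervalIntegral.integral_mono_on (μ := volume) hS intervalIntegrable_const
    ((hh.mono hsub).intervalIntegrable_of_Icc hS) fun r hr => hδ r hr.1
  rwa [intervalIntegral.integral_const, smul_eq_mul, mul_comm] at this

theorem l2_grow {R a δ K : ℝ} {h : ℝ → ℝ} (hh : ContinuousOn h (Ioi R)) (ha : R < a) (h0 : 0 < δ)
    (hδ : ∀ r, a ≤ r → δ ≤ h r) (hK : ∀ S, a ≤ S → ∫ r in a..S, h r ≤ K) : False := by
  have h1 : 0 ≤ (|K| + 1) / δ := by positivity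
  have h2 := (l2_lower hh ha (le_add_of_nonneg_right h1) hδ).trans (hK _ (le_add_of_nonneg_right h1))
  rw [add_sub_cancel_left, mul_div_cancel₀ _ h0.ne'] at h2
  linarith [le_abs_self K]

theorem l2_in_div (r : ℝ) (p q : ℂ) : inner ℝ p (2 / (r : ℂ) * q) = 2 / r * inner ℝ p q := by
  rw [← real_inner_smul_right, Complex.real_smul]
  push_cast
  rfl

theorem l2_in_self (w p : ℂ) : inner ℝ p (w * p) = w.re * ‖p‖ ^ 2 := by
  simp only [Complex.inner, Complex.sq_norm, Complex.normSq_apply, Complex.mul_re, Complex.mul_im,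
    Complex.conj_re, Complex.conj_im]
  ring

theorem l2_in_ge (p q : ℂ) {x : ℝ} (h : ‖q‖ ≤ x) : -(‖p‖ * x) ≤ inner ℝ p q :=
  le_trans (neg_le_neg (mul_le_mul_of_nonneg_left h (norm_nonneg _)))
    (neg_le_of_abs_le (abs_real_inner_le_norm p q))

theorem l2_I3 {A α : ℂ} (hα : 4 ≤ α.re) (ρ : ℝ) (u U e₁ e₂ : ℂ) :
    -(5 * ‖U‖ ^ 2) - (8 * ‖A‖ ^ 2 + 8) * (‖u‖ ^ 2 + ‖e₁‖ ^ 2 + ‖e₂‖ ^ 2) ≤
      4 * inner ℝ U (A * u - (5 + Complex.I * (ρ : ℂ) - α) * U + e₂) := by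
  have h1 : A * u - (5 + Complex.I * (ρ : ℂ) - α) * U + e₂ =
      (A * u + e₂) + (-(5 + Complex.I * (ρ : ℂ) - α)) * U := by ring
  have h2 : (-(5 + Complex.I * (ρ : ℂ) - α)).re = α.re - 5 := by simp
  have h3 := l2_in_ge U (A * u + e₂) (x := ‖A‖ * ‖u‖ + ‖e₂‖)
    ((norm_add_le _ _).trans (by rw [norm_mul]))
  rw [h1, inner_add_right, l2_in_self, h2]
  have h4 : -‖U‖ ^ 2 ≤ (α.re - 5) * ‖U‖ ^ 2 := by nlinarith [sq_nonneg ‖U‖]
  nlinarith [sq_nonneg (‖U‖ - 2 * (‖A‖ * ‖u‖ + ‖e₂‖)), sq_nonneg (‖A‖ * ‖u‖ - ‖e₂‖),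
    sq_nonneg ‖u‖, sq_nonneg ‖e₁‖, mul_nonneg (sq_nonneg ‖A‖) (sq_nonneg ‖e₁‖),
    mul_nonneg (sq_nonneg ‖A‖) (sq_nonneg ‖e₂‖)]

theorem l2_I2 (α u U e₁ e₂ : ℂ) :
    4 * inner ℝ u U - (4 * ‖α‖ + 2) * (‖u‖ ^ 2 + ‖e₁‖ ^ 2 + ‖e₂‖ ^ 2) ≤
      4 * inner ℝ u (-α * u + U + e₁) := by
  have h1 := l2_in_ge u (-α * u) (x := ‖α‖ * ‖u‖) (by rw [norm_mul, norm_neg])
  have h2 := l2_in_ge u e₁ le_rfl
  rw [inner_add_right, inner_add_right]
  nlinarith [sq_nonneg (‖u‖ - ‖e₁‖), sq_nonneg ‖e₂‖, mul_nonneg (norm_nonneg α) (sq_nonneg ‖e₁‖),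
    mul_nonneg (norm_nonneg α) (sq_nonneg ‖e₂‖)]

theorem l2_I1 (A α : ℂ) {r : ℝ} (hr : 1 ≤ r) (u U e₁ e₂ : ℂ) :
    ‖U‖ ^ 2 - ((19 + 4 * ‖α‖) ^ 2 + 2 * ‖A‖ + 2) * (r ^ 4 * (‖u‖ ^ 2 + ‖e₁‖ ^ 2 + ‖e₂‖ ^ 2)) ≤
      8 * inner ℝ u U +
        2 * inner ℝ u (A * u - (5 + Complex.I * ((r ^ 2 / 4 : ℝ) : ℂ) - α) * U + e₂) +
        2 * inner ℝ U (-α * u + U + e₁) := by
  have hr2 : 1 ≤ r ^ 2 := one_le_pow₀ hr
  have hr4 : 1 ≤ r ^ 4 := one_le_pow₀ hr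
  have hα := norm_nonneg α
  have hA := norm_nonneg A
  have hx := norm_nonneg u
  have hX := norm_nonneg U
  have ha := norm_nonneg e₁
  have hb := norm_nonneg e₂
  have h0 : ‖5 + Complex.I * ((r ^ 2 / 4 : ℝ) : ℂ) - α‖ ≤ 5 + r ^ 2 / 4 + ‖α‖ := by
    refine (norm_sub_le _ _).trans (add_le_add ((norm_add_le _ _).trans (le_of_eq ?_)) le_rfl)
    rw [norm_mul, Complex.norm_I, one_mul, Complex.norm_real, Real.norm_eq_abs,
      abs_of_nonneg (by positivity)]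
    simp
  have h1 := l2_in_ge u U le_rfl
  have h2 := l2_in_ge u (A * u - (5 + Complex.I * ((r ^ 2 / 4 : ℝ) : ℂ) - α) * U + e₂)
    (x := ‖A‖ * ‖u‖ + (5 + r ^ 2 / 4 + ‖α‖) * ‖U‖ + ‖e₂‖) (by
      refine (norm_add_le _ _).trans (add_le_add ((norm_sub_le _ _).trans ?_) le_rfl)
      rw [norm_mul, norm_mul]
      gcongr)
  have h3 := l2_in_ge U (-α * u + e₁) (x := ‖α‖ * ‖u‖ + ‖e₁‖)
    ((norm_add_le _ _).trans (by rw [norm_mul, norm_neg]))
  rw [show -α * u + U + e₁ = U + (-α * u + e₁) by ring, inner_add_right U U,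
    real_inner_self_eq_norm_sq]
  set c := 19 + 4 * ‖α‖ with hc
  have hc1 : 19 ≤ c := by linarith
  set L := r ^ 2 * (c * ‖u‖ + 2 * ‖e₁‖) with hL
  have h4 : (18 + r ^ 2 / 2 + 4 * ‖α‖) * ‖u‖ + 2 * ‖e₁‖ ≤ L := by
    have : 18 + r ^ 2 / 2 + 4 * ‖α‖ ≤ r ^ 2 * c := by rw [hc]; nlinarith
    nlinarith [mul_le_mul_of_nonneg_right this hx]
  have h5 := mul_le_mul_of_nonneg_left h4 hX
  have h6 : L ^ 2 ≤ 4 * (c ^ 2 * (r ^ 4 * (‖u‖ ^ 2 + ‖e₁‖ ^ 2 + ‖e₂‖ ^ 2))) := by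
    have h7 : (c * ‖u‖ + 2 * ‖e₁‖) ^ 2 ≤ 4 * (c ^ 2 * (‖u‖ ^ 2 + ‖e₁‖ ^ 2 + ‖e₂‖ ^ 2)) := by
      have : 4 ≤ c ^ 2 := by nlinarith
      nlinarith [sq_nonneg (c * ‖u‖ - 2 * ‖e₁‖), mul_le_mul_of_nonneg_right this (sq_nonneg ‖e₁‖),
        mul_nonneg (sq_nonneg c) (sq_nonneg ‖u‖), mul_nonneg (sq_nonneg c) (sq_nonneg ‖e₂‖),
        sq_nonneg ‖e₁‖]
    calc L ^ 2 = r ^ 4 * (c * ‖u‖ + 2 * ‖e₁‖) ^ 2 := by rw [hL]; ring
      _ ≤ r ^ 4 * (4 * (c ^ 2 * (‖u‖ ^ 2 + ‖e₁‖ ^ 2 + ‖e₂‖ ^ 2))) := by gcongr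
      _ = _ := by ring
  have h8 : 2 * ‖A‖ * ‖u‖ ^ 2 + 2 * (‖u‖ * ‖e₂‖) ≤
      (2 * ‖A‖ + 2) * (r ^ 4 * (‖u‖ ^ 2 + ‖e₁‖ ^ 2 + ‖e₂‖ ^ 2)) := by
    have h9 : 2 * ‖A‖ * ‖u‖ ^ 2 + 2 * (‖u‖ * ‖e₂‖) ≤
        (2 * ‖A‖ + 2) * (‖u‖ ^ 2 + ‖e₁‖ ^ 2 + ‖e₂‖ ^ 2) := by
      nlinarith [sq_nonneg (‖u‖ - ‖e₂‖), sq_nonneg ‖u‖, sq_nonneg ‖e₁‖, sq_nonneg ‖e₂‖,
        mul_nonneg hA (sq_nonneg ‖e₁‖), mul_nonneg hA (sq_nonneg ‖e₂‖)]
    refine h9.trans (mul_le_mul_of_nonneg_left (le_mul_of_one_le_left (by positivity) hr4)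
      (by positivity))
  nlinarith [sq_nonneg (2 * ‖U‖ - L)]

/-- Put y² = r¹⁰|u|², Y² = r¹⁰|U|², ε_i² = r¹⁰|e_i|², r₁ = R+1, T(r) = ∫_r^∞ s(y²+ε₁²+ε₂²) ds (T' = -r(…), T ≥ 0, T → 0).
(1) θY² = (2 Re α - 5) Y² + 2r¹⁰ Re(conj U (A u + e₂)) ≥ (5/2) Y² - C(y²+ε₂²), so (Y²)' ≥ 5Y²/r - 2C(y²+ε₂²)/r.
For r₀ ≥ r₁: G(r) = Y² r⁻⁵ - 2C r₀⁻⁷ T(r) is nondecreasing on [r₀,∞).  If G(r₀) > 0 then Y² ≥ G(r₀) r⁵ on [r₀,∞);
p = k'u + U (k' = 5/2 + iρ/2 - α), B = r¹⁰ Re(conj u p): θB = r¹⁰(|p|² + Re(conj e₁ p) + Re W |u|² + Re(conj u (k'e₁+e₂))), W = A + k'² + iρ/2,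
so B' ≥ Y²/(2r) - C r³(y²+ε₁²+ε₂²) (r ≥ 1), B(S) ≥ c S⁵ - C S³ T(r₀) - C → ∞; (y²)' = (4/r)(B + r¹⁰Re(conj u e₁)) ≥ 4 - 2r(y²+ε₁²) for large r,
so y² → ∞, contradicting r y² ∈ L¹.  Hence G(r₀) ≤ 0 for all r₀ ≥ r₁: r²Y² ≤ 2C T(r) → 0 (Dec).
(2) (r²Y²)' ≥ 7 r Y² - 2C r(y²+ε₂²) ⇒ 7∫_{r₁}^S rY² ≤ S²Y²(S) + 2C T(r₁) bounded (`integrableOn_Ioi_of_intervalIntegral_norm_bounded`). -/
theorem l2_step {R : ℝ} (hR : 0 < R) {A α : ℂ} (hα : 4 ≤ α.re) {u U e₁ e₂ : ℝ → ℂ}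
    (hu : ∀ r : ℝ, R < r → HasDerivAt u (2 / (r : ℂ) * (-α * u r + U r + e₁ r)) r)
    (hU : ∀ r : ℝ, R < r → HasDerivAt U
      (2 / (r : ℂ) * (A * u r - (5 + Complex.I * ((r ^ 2 / 4 : ℝ) : ℂ) - α) * U r + e₂ r)) r)
    (c₁ : ContinuousOn e₁ (Ioi R)) (c₂ : ContinuousOn e₂ (Ioi R))
    (h : L2 R u) (h₁ : L2 R e₁) (h₂ : L2 R e₂) : L2 R U ∧ Dec U := by
  have cu : ContinuousOn u (Ioi R) := fun r hr => (hu r hr).continuousAt.continuousWithinAt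
  have cU : ContinuousOn U (Ioi R) := fun r hr => (hU r hr).continuousAt.continuousWithinAt
  set n : ℝ → ℝ := fun r => ‖u r‖ ^ 2 + ‖e₁ r‖ ^ 2 + ‖e₂ r‖ ^ 2 with hn
  have hn0 : ∀ r, 0 ≤ n r := fun r => by simp only [hn]; positivity
  set N : ℝ → ℝ := fun r => r ^ 11 * n r with hN
  have cN : ContinuousOn N (Ioi R) :=
    (continuousOn_id.pow 11).mul (((cu.norm.pow 2).add (c₁.norm.pow 2)).add (c₂.norm.pow 2))
  have iN : ∀ a, R + 1 ≤ a → IntegrableOn N (Ioi a) := fun a ha => by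
    have h0 : IntegrableOn N (Ioi (R + 1)) := by
      refine ((h.add h₁).add h₂).congr_fun (fun r _ => ?_) measurableSet_Ioi
      simp only [hN, hn, Pi.add_apply]
      ring
    exact h0.mono_set (Ioi_subset_Ioi ha)
  have hN0 : ∀ a, R + 1 ≤ a → ∀ r, a < r → 0 ≤ N r := fun a ha r hr =>
    mul_nonneg (pow_nonneg (by linarith) _) (hn0 r)
  set T : ℝ → ℝ := fun a => ∫ r in Ioi a, N r with hT
  have hTle : ∀ a, R + 1 ≤ a → T a ≤ T (R + 1) := fun a ha =>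
    setIntegral_mono_set (iN _ le_rfl)
      ((ae_restrict_iff' measurableSet_Ioi).2 (Eventually.of_forall (hN0 _ le_rfl)))
      (Eventually.of_forall (Ioi_subset_Ioi ha))
  have cp : ∀ k : ℕ, ContinuousOn (fun r => r ^ k * ‖U r‖ ^ 2) (Ioi R) := fun k =>
    (continuousOn_id.pow k).mul (cU.norm.pow 2)
  have cB : ContinuousOn (fun r => 4 * (r ^ 8 * inner ℝ (u r) (U r))) (Ioi R) :=
    continuousOn_const.mul ((continuousOn_id.pow 8).mul (cu.inner cU))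
  obtain ⟨C₁, hC₁, K1⟩ : ∃ C₁, 0 ≤ C₁ ∧ ∀ a S, R + 1 ≤ a → a ≤ S → ∫ r in a..S, r ^ 7 * ‖U r‖ ^ 2 ≤
      S ^ 8 * inner ℝ (u S) (U S) - a ^ 8 * inner ℝ (u a) (U a) + C₁ * T a := by
    refine ⟨(19 + 4 * ‖α‖) ^ 2 + 2 * ‖A‖ + 2, by positivity, fun a S ha hS => ?_⟩
    refine l2_key (f := fun r => r ^ 8 * inner ℝ (u r) (U r))
      (fun r hr => (hasDerivAt_pow 8 r).mul ((hu r hr).inner ℝ (hU r hr))) (cp 7) cN (iN a ha)
      (hN0 a ha) (by positivity) (by linarith) hS fun r hr => ?_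
    have hr0 : 0 < r := by linarith
    have h1 := mul_le_mul_of_nonneg_left (l2_I1 A α (by linarith : 1 ≤ r) (u r) (U r) (e₁ r) (e₂ r))
      (pow_pos hr0 7).le
    rw [real_inner_comm (U r) (2 / (r : ℂ) * _), l2_in_div, l2_in_div]
    refine le_of_eq_of_le ?_ (h1.trans_eq ?_)
    · simp only [hN, hn]; ring
    · field_simp
      push_cast
      ring
  obtain ⟨C₂, hC₂, K2⟩ : ∃ C₂, 0 ≤ C₂ ∧ ∀ a S, R + 1 ≤ a → a ≤ S →
      ∫ r in a..S, 4 * (r ^ 8 * inner ℝ (u r) (U r)) ≤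
        S ^ 9 * ‖u S‖ ^ 2 - a ^ 9 * ‖u a‖ ^ 2 + C₂ * T a := by
    refine ⟨4 * ‖α‖ + 2, by positivity, fun a S ha hS => ?_⟩
    refine l2_key (f := fun r => r ^ 9 * ‖u r‖ ^ 2)
      (fun r hr => (hasDerivAt_pow 9 r).mul (hu r hr).norm_sq) cB cN (iN a ha)
      (hN0 a ha) (by positivity) (by linarith) hS fun r hr => ?_
    have hr0 : 0 < r := by linarith
    have h1 := mul_le_mul_of_nonneg_left (l2_I2 α (u r) (U r) (e₁ r) (e₂ r)) (pow_pos hr0 8).le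
    have h2 : r ^ 8 * n r ≤ N r :=
      mul_le_mul_of_nonneg_right (pow_le_pow_right₀ (by linarith) (by norm_num)) (hn0 r)
    have h3 := mul_le_mul_of_nonneg_left h2 (by positivity : 0 ≤ 4 * ‖α‖ + 2)
    have h4 : r ^ 9 * (2 * (2 / r * inner ℝ (u r) (-α * u r + U r + e₁ r))) =
        r ^ 8 * (4 * inner ℝ (u r) (-α * u r + U r + e₁ r)) := by
      field_simp
      ring
    have h5 : (0 : ℝ) ≤ (9 : ℕ) * r ^ (9 - 1) * ‖u r‖ ^ 2 := by positivity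
    rw [l2_in_div, h4]
    simp only [hn] at h3
    nlinarith
  have hU' : ∀ (k : ℕ) (r : ℝ), R < r → ∃ d, HasDerivAt (fun r => r ^ (k + 1) * ‖U r‖ ^ 2) d r ∧
      r ^ k * (((k : ℝ) - 4) * ‖U r‖ ^ 2 - (8 * ‖A‖ ^ 2 + 8) * n r) ≤ d := by
    intro k r hr
    refine ⟨_, (hasDerivAt_pow (k + 1) r).mul (hU r hr).norm_sq, ?_⟩
    have hr0 : 0 < r := hR.trans hr
    have h1 := mul_le_mul_of_nonneg_left (l2_I3 (A := A) hα (r ^ 2 / 4) (u r) (U r) (e₁ r) (e₂ r))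
      (pow_pos hr0 k).le
    have h4 : ∀ z : ℝ, r ^ (k + 1) * (2 * (2 / r * z)) = r ^ k * (4 * z) := fun z => by
      field_simp
      ring
    rw [l2_in_div, h4, Nat.add_sub_cancel]
    simp only [hn]
    push_cast at h1 ⊢
    nlinarith
  choose! d hd hd' using hU'
  set C₃ := 8 * ‖A‖ ^ 2 + 8 with hC₃
  have hC₃0 : 0 ≤ C₃ := by positivity
  -- the flux is bounded above
  have S2 : ∀ a, R + 1 ≤ a → a ^ 8 * inner ℝ (u a) (U a) ≤ C₁ * T a := by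
    intro a ha
    by_contra hcon
    set δ := a ^ 8 * inner ℝ (u a) (U a) - C₁ * T a with hδ
    have hδ0 : 0 < δ := by linarith [not_le.1 hcon]
    have b1 : ∀ S, a ≤ S → 4 * δ ≤ 4 * (S ^ 8 * inner ℝ (u S) (U S)) := fun S hS => by
      have := (l2_lower (δ := 0) (cp 7) (by linarith) hS fun r hr =>
        mul_nonneg (pow_nonneg (by linarith) _) (sq_nonneg _)).trans (K1 a S ha hS)
      linarith
    have hq : 0 ≤ (|C₂ * T a| + 1) / (4 * δ) := by positivity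
    refine l2_grow (a := a + (|C₂ * T a| + 1) / (4 * δ)) (δ := 1)
      (K := T (a + (|C₂ * T a| + 1) / (4 * δ))) cN (by linarith) one_pos (fun S hS => ?_)
      fun S hS => ?_
    · have b2 := (l2_lower cB (by linarith) (by linarith : a ≤ S) b1).trans (K2 a S ha (by linarith))
      have b3 : 4 * δ * ((|C₂ * T a| + 1) / (4 * δ)) ≤ 4 * δ * (S - a) :=
        mul_le_mul_of_nonneg_left (by linarith) (by positivity)
      rw [mul_div_cancel₀ _ (by positivity)] at b3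
      have b4 : 0 ≤ a ^ 9 * ‖u a‖ ^ 2 := mul_nonneg (pow_nonneg (by linarith) _) (sq_nonneg _)
      have b5 : S ^ 9 * ‖u S‖ ^ 2 ≤ N S :=
        mul_le_mul (pow_le_pow_right₀ (by linarith) (by norm_num))
          (by simp only [hn]; nlinarith [sq_nonneg ‖e₁ S‖, sq_nonneg ‖e₂ S‖]) (sq_nonneg _)
          (pow_nonneg (by linarith) _)
      linarith [le_abs_self (C₂ * T a)]
    · have := l2_key (f := fun _ => 0) (f' := fun _ => 0) (C := 1)
        (fun r _ => hasDerivAt_const r 0) cN cN (iN _ (by linarith)) (hN0 _ (by linarith))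
        zero_le_one (by linarith) hS fun r _ => by simp
      simpa using this
  have S3 : ∀ a, R + 1 ≤ a → a ^ 12 * ‖U a‖ ^ 2 ≤ C₃ * T a := by
    intro a ha
    have ha0 : 0 < a := by linarith
    by_contra hcon
    set δ := a ^ 5 * ‖U a‖ ^ 2 - C₃ / a ^ 7 * T a with hδ
    have hδ0 : 0 < δ := by
      have : δ = (a ^ 12 * ‖U a‖ ^ 2 - C₃ * T a) / a ^ 7 := by rw [hδ]; field_simp
      rw [this]
      exact div_pos (by linarith [not_le.1 hcon]) (by positivity)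
    refine l2_grow (K := C₁ * T (R + 1) - a ^ 8 * inner ℝ (u a) (U a) + C₁ * T a) (cp 7)
      (by linarith : R < a) hδ0 (fun S hS => ?_) fun S hS => ?_
    · have b1 := l2_key (h := fun _ => 0) (C := C₃ / a ^ 7) (hd 4) continuousOn_const cN (iN a ha)
        (hN0 a ha) (by positivity) (by linarith) hS fun r hr => by
          refine le_trans ?_ (hd' 4 r (by linarith))
          have b2 : r ^ 4 * n r ≤ N r / a ^ 7 := by
            rw [le_div_iff₀ (by positivity)]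
            have : a ^ 7 ≤ r ^ 7 := pow_le_pow_left₀ ha0.le hr.le 7
            have b3 : 0 ≤ r ^ 4 * n r := mul_nonneg (by positivity) (hn0 r)
            calc r ^ 4 * n r * a ^ 7 ≤ r ^ 4 * n r * r ^ 7 := by gcongr
              _ = N r := by simp only [hN]; ring
          have b4 := mul_le_mul_of_nonneg_left b2 hC₃0
          have b5 : C₃ / a ^ 7 * N r = C₃ * (N r / a ^ 7) := by ring
          push_cast
          nlinarith
      have b6 : S ^ 5 * ‖U S‖ ^ 2 ≤ S ^ 7 * ‖U S‖ ^ 2 :=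
        mul_le_mul_of_nonneg_right (pow_le_pow_right₀ (by linarith) (by norm_num)) (sq_nonneg _)
      simp only [intervalIntegral.integral_zero] at b1
      norm_num at b1
      linarith
    · have b1 := K1 a S ha hS
      have b2 := S2 S (by linarith)
      have b3 := mul_le_mul_of_nonneg_left (hTle S (by linarith)) hC₁
      linarith
  constructor
  · refine integrableOn_Ioi_of_intervalIntegral_norm_bounded (l := atTop) (b := fun S : ℝ => S)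
      (2 * (C₃ * T (R + 1))) _ (fun S => ?_) tendsto_id ?_
    · exact (((cp 11).mono fun r hr => lt_of_lt_of_le (lt_add_one R) hr.1).integrableOn_Icc
        (a := R + 1) (b := S)).mono_set Ioc_subset_Icc_self
    · filter_upwards [eventually_ge_atTop (R + 1)] with S hS
      have b1 := l2_key (C := C₃) (hd 11) (cp 11) cN (iN _ le_rfl) (hN0 _ le_rfl) hC₃0
        (lt_add_one R) hS fun r hr => by
          refine le_trans ?_ (hd' 11 r (by linarith))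
          have b2 : 0 ≤ r ^ 11 * ‖U r‖ ^ 2 := mul_nonneg (pow_nonneg (by linarith) _) (sq_nonneg _)
          simp only [hN]
          push_cast
          nlinarith
      have b3 : ∫ r in (R + 1)..S, ‖r ^ 11 * ‖U r‖ ^ 2‖ = ∫ r in (R + 1)..S, r ^ 11 * ‖U r‖ ^ 2 := by
        refine intervalIntegral.integral_congr fun r hr => ?_
        rw [uIcc_of_le hS] at hr
        exact Real.norm_of_nonneg (mul_nonneg (pow_nonneg (by linarith [hr.1]) _) (sq_nonneg _))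
      have b4 := S3 S hS
      have b5 := mul_le_mul_of_nonneg_left (hTle S hS) hC₃0
      have b6 : 0 ≤ (R + 1) ^ 12 * ‖U (R + 1)‖ ^ 2 := by positivity
      norm_num at b1
      rw [b3]
      linarith
  · have b1 : Tendsto (fun a => C₃ * T a) atTop (𝓝 0) := by
      simpa using (tendsto_integral_Ioi_zero (f := N) (μ := volume) tendsto_id).const_mul C₃
    refine squeeze_zero' (Eventually.of_forall fun r => by positivity) ?_ b1
    filter_upwards [eventually_ge_atTop (R + 1)] with a ha using S3 a ha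

/-- induction with `l2_step`: θφ_{j+1} = A φ_j - (5+iρ-(α+j)) φ_{j+1} -/
theorem HL.l2 {R M : ℝ} (hR : 0 < R) {α : ℂ} {φ : ℕ → ℝ → ℂ} (h : HL R M α φ) (hα : 0 ≤ α.re)
    (h4 : L2 R (φ 4)) (j : ℕ) (hj : 4 ≤ j) : L2 R (φ j) ∧ Dec (φ (j + 1)) := by
  have step : ∀ j : ℕ, 4 ≤ j → L2 R (φ j) → L2 R (φ (j + 1)) ∧ Dec (φ (j + 1)) := by
    intro j hj hφ
    have hj' : (4 : ℝ) ≤ j := by exact_mod_cast hj
    refine l2_step hR (A := AA M (α + j)) (α := α + j) (e₁ := fun _ => 0) (e₂ := fun _ => 0)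
      (by simp; linarith) (fun r hr => ?_) (fun r hr => ?_) continuousOn_const continuousOn_const hφ
      (L2.zero R) (L2.zero R)
    · simpa using h.d j r hr
    · convert h.d (j + 1) r hr using 2
      rw [h.recu j r hr, ss]
      push_cast
      ring
  have all : ∀ j, 4 ≤ j → L2 R (φ j) := fun j hj => by
    induction j, hj using Nat.le_induction with
    | base => exact h4
    | succ j hj ih => exact (step j hj ih).1
  exact ⟨all j hj, (step j hj (all j hj)).2⟩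

/-- e₁ = -cφ_j, e₂ = c((5-(α+j)-(α₀+j))φ_j + φ_{j+1}) -/
theorem FL.l2 {R M : ℝ} (hR : 0 < R) {α α₀ c : ℂ} {w φ : ℕ → ℝ → ℂ} (h : FL R M α α₀ c w φ)
    (hα : 0 ≤ α.re) (hα₀ : 0 ≤ α₀.re) (hw : L2 R (w 4)) (hφ : L2 R (φ 4)) (j : ℕ) (hj : 4 ≤ j) :
    L2 R (w j) ∧ Dec (w (j + 1)) := by
  have hφ' : ∀ j, 4 ≤ j → L2 R (φ j) := fun j hj => (h.hφ.l2 hR hα₀ hφ j hj).1
  have step : ∀ j : ℕ, 4 ≤ j → L2 R (w j) → L2 R (w (j + 1)) ∧ Dec (w (j + 1)) := by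
    intro j hj hwj
    have hj' : (4 : ℝ) ≤ j := by exact_mod_cast hj
    have cc : ∀ a b : ℂ, ContinuousOn (fun r => a * φ j r + b * φ (j + 1) r) (Ioi R) := fun a b =>
      (continuousOn_const.mul (h.hφ.cont j)).add (continuousOn_const.mul (h.hφ.cont (j + 1)))
    have ll : ∀ a b : ℂ, L2 R (fun r => a * φ j r + b * φ (j + 1) r) := fun a b =>
      L2.comb hR (hφ' j hj) (hφ' (j + 1) (by omega)) (h.hφ.cont j) (h.hφ.cont (j + 1)) a b
    refine l2_step hR (A := AA M (α + j)) (α := α + j) (by simp; linarith) (fun r hr => ?_)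
      (fun r hr => ?_) (cc (-c) 0) (cc (c * (5 - (α + j) - (α₀ + j))) c) hwj (ll _ _) (ll _ _)
    · convert h.d j r hr using 2
      ring
    · convert h.d (j + 1) r hr using 2
      rw [h.recu j r hr, ss]
      push_cast
      ring
  have all : ∀ j, 4 ≤ j → L2 R (w j) := fun j hj => by
    induction j, hj using Nat.le_induction with
    | base => exact hw
    | succ j hj ih => exact (step j hj ih).1
  exact ⟨all j hj, (step j hj (all j hj)).2⟩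

end

end Crest.Agent.R086.NB
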