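import Crest.Agent.R086.NB.Alg
import Crest.Agent.R086.Mb.DAlg0

/-! # Row 86, part N: the levels of a free solution (task) -/

open MeasureTheory Set Filter Topology
open scoped ComplexConjugate

namespace Crest.Agent.R086.NB

noncomputable section

/-- the levels, defined by the recurrence -/
def lad_W (M : ℝ) (α α₀ α₁ c c₁ : ℂ) (f : ℝ → ℂ) (φ ψ : ℕ → ℝ → ℂ) : ℕ → ℝ → ℂ
  | 0 => f
  | 1 => fun r => α * f r + (r : ℂ) / 2 * deriv f r + (c * φ 0 r + c₁ * ψ 0 r)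
  | j + 2 => fun r => AA M (α + j) * lad_W M α α₀ α₁ c c₁ f φ ψ j r
      - ss (r ^ 2 / 4) (α + j) * lad_W M α α₀ α₁ c c₁ f φ ψ (j + 1) r
      + c * ((5 - (α + j) - (α₀ + j)) * φ j r + 2 * φ (j + 1) r)
      + c₁ * ((5 - (α + j) - (α₁ + j)) * ψ j r + 2 * ψ (j + 1) r)

theorem lad_ofReal (r : ℝ) : HasDerivAt (fun x : ℝ => (x : ℂ)) 1 r :=
  Complex.ofRealCLM.hasDerivAt

theorem lad_ss (a : ℂ) (r : ℝ) :
    HasDerivAt (fun x : ℝ => ss (x ^ 2 / 4) a) (Complex.I * r / 2) r := by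
  have h := ((((lad_ofReal r).fun_pow 2).div_const 4).const_mul Complex.I).const_add 4 |>.sub_const
    (2 * a)
  refine (h.congr_deriv (by push_cast; ring)).congr_of_eventuallyEq
    (Eventually.of_forall fun x => ?_)
  simp only [ss]
  push_cast
  rfl

theorem lad_core {R : ℝ} (hR : 0 < R) {m : ℕ} {α α₀ α₁ c c₁ : ℂ} {f e : ℝ → ℂ} {φ ψ : ℕ → ℝ → ℂ}
    (hφ : HL R (MM m) α₀ φ) (hψ : HL R (MM m) α₁ ψ)
    (hf : Free R m α f e) (he : ∀ r, R < r → e r = c * φ 0 r + c₁ * ψ 0 r) :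
    ∃ W : ℕ → ℝ → ℂ, W 0 = f ∧
      (∀ r, W 1 r = α * f r + (r : ℂ) / 2 * deriv f r + (c * φ 0 r + c₁ * ψ 0 r)) ∧
      (∀ (j : ℕ) (r : ℝ), R < r → HasDerivAt (W j)
        (2 / (r : ℂ) * (-(α + j) * W j r + W (j + 1) r - c * φ j r - c₁ * ψ j r)) r) ∧
      (∀ (j : ℕ) (r : ℝ), W (j + 2) r = AA (MM m) (α + j) * W j r
        - ss (r ^ 2 / 4) (α + j) * W (j + 1) r
        + c * ((5 - (α + j) - (α₀ + j)) * φ j r + 2 * φ (j + 1) r)
        + c₁ * ((5 - (α + j) - (α₁ + j)) * ψ j r + 2 * ψ (j + 1) r)) ∧ L2 R (W 4) := by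
  obtain ⟨W, h0, h1, h2⟩ : ∃ W : ℕ → ℝ → ℂ, W 0 = f ∧
      (W 1 = fun r => α * f r + (r : ℂ) / 2 * deriv f r + (c * φ 0 r + c₁ * ψ 0 r)) ∧
      ∀ j : ℕ, W (j + 2) = fun r => AA (MM m) (α + j) * W j r
        - ss (r ^ 2 / 4) (α + j) * W (j + 1) r
        + c * ((5 - (α + j) - (α₀ + j)) * φ j r + 2 * φ (j + 1) r)
        + c₁ * ((5 - (α + j) - (α₁ + j)) * ψ j r + 2 * ψ (j + 1) r) :=
    ⟨lad_W (MM m) α α₀ α₁ c c₁ f φ ψ, rfl, rfl, fun _ => rfl⟩
  have hne : ∀ r : ℝ, R < r → (r : ℂ) ≠ 0 := fun r hr => by exact_mod_cast (hR.trans hr).ne'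
  have hM : ((MM m : ℝ) : ℂ) = (m : ℂ) * (m + 10) := by simp [MM]
  have hd : ∀ (j : ℕ) (r : ℝ), R < r → HasDerivAt (W j)
      (2 / (r : ℂ) * (-(α + j) * W j r + W (j + 1) r - c * φ j r - c₁ * ψ j r)) r := by
    intro j r hr
    have hr0 := hne r hr
    have d1 : HasDerivAt f (deriv f r) r :=
      Mb.hasDerivAt_of_contDiffOn (N := 12) hf.smooth (by norm_num) hr
    have d2 : HasDerivAt (deriv f) (deriv (deriv f) r) r :=
      Mb.hasDerivAt_deriv_of_contDiffOn (N := 12) hf.smooth (by norm_num) hr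
    induction j using Nat.twoStepInduction with
    | zero =>
      rw [zero_add, h1, h0]
      refine d1.congr_deriv ?_
      field_simp
      push_cast
      ring
    | one =>
      have e2 := congrFun (h2 0) r
      have e1 := congrFun h1 r
      have hode := hf.ode r hr
      rw [he r hr, ← e1] at hode
      have e3 : deriv (deriv f) r = -Complex.I * W 1 r - 11 / (r : ℂ) * deriv f r
          + (MM m : ℂ) / (r : ℂ) ^ 2 * f r := by
        rw [← hode, hM, DD]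
        linear_combination (deriv (deriv f) r + 11 / (r : ℂ) * deriv f r
          - (m : ℂ) * (m + 10) / (r : ℂ) ^ 2 * f r) * Complex.I_mul_I
      have := (((d1.const_mul α).add (((lad_ofReal r).div_const 2).mul d2)).add
        (((hφ.d 0 r hr).const_mul c).add ((hψ.d 0 r hr).const_mul c₁)))
      refine HasDerivAt.congr_deriv (f := W 1) (by rw [h1]; exact this) ?_
      rw [show W (1 + 1) r = _ from e2, e3, h0, zero_add, e1]
      simp only [AA, ss]
      push_cast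
      field_simp
      ring
    | more j ih1 ih2 =>
      have e2 := congrFun (h2 j) r
      have e3 := congrFun (h2 (j + 1)) r
      have := ((((ih1.const_mul (AA (MM m) (α + j))).sub ((lad_ss (α + j) r).mul ih2)).add
        ((((hφ.d j r hr).const_mul (5 - (α + j) - (α₀ + j))).add
          ((hφ.d (j + 1) r hr).const_mul 2)).const_mul c)).add
        ((((hψ.d j r hr).const_mul (5 - (α + j) - (α₁ + j))).add
          ((hψ.d (j + 1) r hr).const_mul 2)).const_mul c₁))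
      refine HasDerivAt.congr_deriv (f := W (j + 2)) (by rw [h2 j]; exact this) ?_
      rw [show W (j + 2 + 1) r = _ from e3, show W (j + 1 + 1) r = _ from e2,
        show φ (j + 1 + 1) r = _ from hφ.recu j r hr, show ψ (j + 1 + 1) r = _ from hψ.recu j r hr]
      simp only [AA, ss]
      push_cast
      field_simp
      ring
  have hDD : ∀ (j : ℕ) (r : ℝ), R < r → DD m (W j) r = -Complex.I * W (j + 1) r := by
    intro j r hr
    have hr0 := hne r hr
    have a1 : HasDerivAt (fun x : ℝ => 2 / (x : ℂ)) (-2 / (r : ℂ) ^ 2) r := by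
      refine ((hasDerivAt_const r (2 : ℂ)).fun_div (lad_ofReal r) hr0).congr_deriv ?_
      ring
    have a2 := a1.mul (((((hd j r hr).const_mul (-(α + j))).add (hd (j + 1) r hr)).sub
      ((hφ.d j r hr).const_mul c)).sub ((hψ.d j r hr).const_mul c₁))
    have a3 : deriv (deriv (W j)) r = _ :=
      (Mb.deriv_congr_Ioi (fun x hx => (hd j x hx).deriv) hr).trans a2.deriv
    rw [DD, a3, (hd j r hr).deriv, show W (j + 1 + 1) r = _ from congrFun (h2 j) r, ← hM]
    simp only [AA, ss, Pi.sub_apply, Pi.add_apply]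
    push_cast
    field_simp
    ring
  have hlv : ∀ (j : ℕ) (r : ℝ), R < r → (DD m)^[j] f r = (-Complex.I) ^ j * W j r := by
    intro j
    induction j with
    | zero => intro r _; simp [h0]
    | succ j ih =>
      intro r hr
      rw [Function.iterate_succ_apply', Mb.DD_congr ih hr]
      have := congrFun (Mb.lv_const_mul m ((-Complex.I) ^ j) (W j) 1) r
      simp only [Mb.lv, Function.iterate_one] at this
      rw [this, hDD j r hr]
      ring
  refine ⟨W, h0, congrFun h1, hd, fun j => congrFun (h2 j), L2.congr hf.adm fun r hr => ?_⟩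
  rw [hlv 4 r hr, Even.neg_pow (by decide), Complex.I_pow_four, one_mul]

/-- Define W by W 0 = f, W 1 r = α f + (r/2) f' + e, W (j+2) = AA W j - ss W (j+1) + c((5-(α+j)-(α₀+j))φ_j + 2φ_{j+1}) + c₁(same with α₁, ψ).
(a) θW_j = -(α+j)W_j + W_{j+1} - cφ_j - c₁ψ_j for all j: induction on the pair (j, j+1); j = 0 by definition, j = 1 from `hf.ode`
(f'' from DD: `Mb.deriv2_eq`, ρ𝒟f = θ²f + 5θf - (M/4)f), the step by differentiating the recurrence (∂_r ss = i r/2).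
(b) DD m (W j) r = -i W (j+1) r for r > R (deriv (W j) is given by (a) on the open set, differentiate once more; field_simp, linear_combination),
so (DD m)^[j] f = (-i)^j W j on (R,∞) (`Mb.DD_congr`, `Mb.lv_const_mul`), L2 (W 4) from `hf.adm`.
(c) w j = W j + c₁/(α-α₁) ψ j. -/
theorem lad_of_free {R : ℝ} (hR : 0 < R) {m : ℕ} {α α₀ α₁ c c₁ : ℂ} {f e : ℝ → ℂ} {φ ψ : ℕ → ℝ → ℂ}
    (hφ : HL R (MM m) α₀ φ) (hψ : HL R (MM m) α₁ ψ) (hψ4 : L2 R (ψ 4)) (hne : α ≠ α₁)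
    (hf : Free R m α f e) (he : ∀ r, R < r → e r = c * φ 0 r + c₁ * ψ 0 r) :
    ∃ w : ℕ → ℝ → ℂ, FL R (MM m) α α₀ c w φ ∧ L2 R (w 4) ∧
      ∀ r, R < r → w 0 r = f r + c₁ / (α - α₁) * ψ 0 r := by
  obtain ⟨W, h0, -, hd, h2, hL⟩ := lad_core hR hφ hψ hf he
  obtain ⟨κ, hκ⟩ : ∃ κ, κ = c₁ / (α - α₁) := ⟨_, rfl⟩
  have hc : c₁ = κ * (α - α₁) := by rw [hκ, div_mul_cancel₀ _ (sub_ne_zero.2 hne)]
  rw [← hκ]
  refine ⟨fun j r => W j r + κ * ψ j r, ⟨hφ, fun j r hr => ?_, fun j r hr => ?_⟩, ?_,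
    fun r _ => by simp only [h0]⟩
  · refine ((hd j r hr).add ((hψ.d j r hr).const_mul κ)).congr_deriv ?_
    rw [hc]
    ring
  · rw [h2 j r, hψ.recu j r hr, hc]
    simp only [AA, ss]
    ring
  · refine L2.congr (L2.comb hR hL hψ4
      (fun r hr => (hd 4 r hr).continuousAt.continuousWithinAt) (hψ.cont 4) 1 κ) fun r _ => ?_
    rw [one_mul]

/-- the homogeneous case -/
theorem lad_of_free0 {R : ℝ} (hR : 0 < R) {m : ℕ} {α : ℂ} {f : ℝ → ℂ} (hf : Free R m α f 0) :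
    ∃ w : ℕ → ℝ → ℂ, HL R (MM m) α w ∧ L2 R (w 4) ∧ ∀ r, R < r → w 0 r = f r ∧
      w 1 r = α * f r + (r : ℂ) / 2 * deriv f r := by
  obtain ⟨W, h0, h1, hd, h2, hL⟩ := lad_core (c := 0) (c₁ := 0) hR (HL.zero R (MM m) α)
    (HL.zero R (MM m) α) hf (fun r _ => by simp)
  refine ⟨W, ⟨fun j r hr => ?_, fun j r _ => ?_⟩, hL, fun r _ => ⟨by rw [h0], ?_⟩⟩
  · simpa using hd j r hr
  · simpa using h2 j r
  · simpa using h1 r

end

end Crest.Agent.R086.NB
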