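import Crest.Agent.R086.NB.Alg

/-! # Row 86, part N: the predicates propagated by the kernel engine -/

open scoped ComplexConjugate

namespace Crest.Agent.R086.NB

noncomputable section

/-- k' = 5/2 + iρ/2 - α -/
def kp (ρ : ℝ) (α : ℂ) : ℂ := 5 / 2 + Complex.I * ρ / 2 - α

/-- ζ₀ = w₁/w₀ + k' lies in the disc with centre c and radius r -/
def Dsc (M ρ : ℝ) (α c : ℂ) (r : ℝ) : Prop :=
  ∀ w : ℕ → ℂ, Seq M ρ α w → ‖w 1 + (kp ρ α - c) * w 0‖ ≤ r * ‖w 0‖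

/-- B = Re ζ₀ |w₀|² -/
def BB (α : ℂ) (w : ℕ → ℂ) : ℝ := (conj (w 0) * w 1).re + (5 / 2 - α.re) * ‖w 0‖ ^ 2

/-- Re ζ₀ < ν -/
def One (M ρ ν : ℝ) (α : ℂ) : Prop :=
  ∀ w : ℕ → ℂ, Seq M ρ α w → (w 0 ≠ 0 ∨ w 1 ≠ 0) → BB α w < ν * ‖w 0‖ ^ 2

/-- β = ε (w₁ - i t w₀), t = Im α -/
def bh (ε : ℝ) (α : ℂ) (w : ℕ → ℂ) : ℂ := ε * (w 1 - Complex.I * α.im * w 0)

/-- the quadratic form inequality used for large parameters; V = ε²ν² -/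
def Qf (M ρ ε : ℝ) (α : ℂ) (τ x y : ℝ) : Prop :=
  ∀ w : ℕ → ℂ, Seq M ρ α w →
    BB α w + τ * (ε ^ 2 * ((M + 25) / 4) * ‖w 0‖ ^ 2 + ‖bh ε α w‖ ^ 2) + x * ‖w 0‖ ^ 2
      + y * (conj (w 0) * bh ε α w).im ≤ 0

/-- χ_j = ω_j/(φ_j w_j) - 1 lies in the disc with centre c and radius r -/
def Chi (M ρ : ℝ) (α α₀ : ℂ) (j : ℕ) (c : ℂ) (r : ℝ) : Prop :=
  ∀ w φ ω : ℕ → ℂ, Pair M ρ α α₀ w φ ω → ‖ω j - (1 + c) * (φ j * w j)‖ ≤ r * (‖φ j‖ * ‖w j‖)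

end

end Crest.Agent.R086.NB
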