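import Crest.Agent.R086.NB.RDefs

/-! # Row 86, part N: the disc recursion (task) -/

open scoped ComplexConjugate

namespace Crest.Agent.R086.NB

noncomputable section

variable {M ρ : ℝ} {α : ℂ}

theorem Seq.shiftN {w : ℕ → ℂ} (h : Seq M ρ α w) (j : ℕ) : Seq M ρ (α + j) (fun i => w (i + j)) := by
  induction j with
  | zero => simpa using h
  | succ j ih =>
    have h2 := ih.shift
    rw [Nat.cast_succ, ← add_assoc]
    simpa only [add_assoc, add_comm 1 j] using h2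

theorem Dsc.idx {c : ℂ} {r : ℝ} {j : ℕ} (h : Dsc M ρ (α + j) c r) {w : ℕ → ℂ} (hw : Seq M ρ α w) :
    ‖w (j + 1) + (kp ρ (α + j) - c) * w j‖ ≤ r * ‖w j‖ := by
  simpa only [zero_add, add_comm 1 j] using h _ (hw.shiftN j)

/-- A w₀ = w₂ + s w₁, s = k'(α) + k'(α+1) -/
theorem Dsc.back {c : ℂ} {r : ℝ} (h : Dsc M ρ (α + 1) c r) {w : ℕ → ℂ} (hw : Seq M ρ α w) :
    ‖AA M α * w 0 - (c + kp ρ α) * w 1‖ ≤ r * ‖w 1‖ := by
  have h2 := h _ hw.shift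
  have h3 := hw.recu 0
  simp only [zero_add, Nat.cast_zero, add_zero, Nat.reduceAdd] at h2 h3
  rw [h3] at h2
  convert h2 using 2
  simp only [kp, ss]
  ring

private theorem AA_eq {g t n2 : ℝ} (hg : g = 5 / 2 - α.re) (ht : t = α.im) (hn : n2 = (M + 25) / 4) :
    AA M α = ((n2 + t ^ 2 - g ^ 2 : ℝ) : ℂ) + ((2 * (g * t) : ℝ) : ℂ) * Complex.I := by
  subst hg ht hn
  apply Complex.ext <;> simp [AA, pow_two] <;> ring

private theorem kp_eq {g t : ℝ} (hg : g = 5 / 2 - α.re) (ht : t = α.im) :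
    kp ρ α = (g : ℂ) + ((ρ / 2 - t : ℝ) : ℂ) * Complex.I := by
  subst hg ht
  apply Complex.ext <;> simp [kp]

private theorem nsq (z : ℂ) : ‖z‖ ^ 2 = z.re ^ 2 + z.im ^ 2 := by
  rw [Complex.sq_norm, Complex.normSq_apply]
  ring

/-- G = -2g = 2 Re α - 5 > 0.  `neg 1` gives Re(conj w₁ A w₀) ≤ g|w₁|², so |G w₁ + A w₀| ≤ |A w₀|;
G(w₁ + (k'-c)w₀) = (G w₁ + A w₀) + (G(k'-c) - A) w₀, and G k' - A = -(g² + n2 + t²) + i Gρ/2,  A = (n2 + t² - g²) + 2gt i. -/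
theorem dsc_start {g t n2 cr ci r h₁ h₂ : ℝ} (hg : g = 5 / 2 - α.re) (ht : t = α.im) (hn : n2 = (M + 25) / 4)
    (h0 : g < 0)
    (e₁ : ‖((g ^ 2 + (n2 + t ^ 2) - 2 * g * cr : ℝ) : ℂ) + ((g * ρ - 2 * g * ci : ℝ) : ℂ) * Complex.I‖ ≤ h₁)
    (e₂ : ‖((n2 + t ^ 2 - g ^ 2 : ℝ) : ℂ) + ((2 * (g * t) : ℝ) : ℂ) * Complex.I‖ ≤ h₂)
    (e₃ : h₁ + h₂ ≤ r * (-(2 * g))) : Dsc M ρ α (cr + ci * Complex.I) r := by
  intro w hw
  have h1 := hw.neg 1 (by push_cast; linarith)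
  have h2 := hw.recu 0
  simp only [zero_add, Nat.cast_zero, add_zero, Nat.reduceAdd, Nat.cast_one] at h1 h2
  have h3 : ‖((-(2 * g) : ℝ) : ℂ) * w 1 + AA M α * w 0‖ ≤ ‖AA M α * w 0‖ := by
    rw [h2] at h1
    generalize AA M α * w 0 = u at h1 ⊢
    refine (pow_le_pow_iff_left₀ (norm_nonneg _) (norm_nonneg _) two_ne_zero).1 ?_
    have hα : α.re = 5 / 2 - g := by linarith
    simp only [nsq, ss] at h1 ⊢
    simp [hα] at h1 ⊢
    nlinarith [mul_le_mul_of_nonneg_left h1 (neg_pos.2 h0).le]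
  have h4 : ((-(2 * g) : ℝ) : ℂ) * (w 1 + (kp ρ α - (cr + ci * Complex.I)) * w 0) =
      (((-(2 * g) : ℝ) : ℂ) * w 1 + AA M α * w 0) - (((g ^ 2 + (n2 + t ^ 2) - 2 * g * cr : ℝ) : ℂ) +
        ((g * ρ - 2 * g * ci : ℝ) : ℂ) * Complex.I) * w 0 := by
    rw [AA_eq hg ht hn, kp_eq hg ht]
    push_cast
    ring
  have hG : 0 < -(2 * g) := by linarith
  refine le_of_mul_le_mul_left ?_ hG
  have h5 := (norm_sub_le _ _).trans (add_le_add h3 (le_refl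
    ‖(((g ^ 2 + (n2 + t ^ 2) - 2 * g * cr : ℝ) : ℂ) + ((g * ρ - 2 * g * ci : ℝ) : ℂ) * Complex.I) * w 0‖))
  rw [← h4, norm_mul, norm_mul, norm_mul, Complex.norm_real, Real.norm_of_nonneg hG.le,
    AA_eq hg ht hn] at h5
  nlinarith [mul_le_mul_of_nonneg_right e₁ (norm_nonneg (w 0)),
    mul_le_mul_of_nonneg_right e₂ (norm_nonneg (w 0)), mul_le_mul_of_nonneg_right e₃ (norm_nonneg (w 0))]

private theorem disc_inv {u a D : ℂ} {r : ℝ} (h : ‖u - D * a‖ ≤ r * ‖a‖) (hr : 0 ≤ r)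
    (hΔ : 0 ≤ D.re ^ 2 + D.im ^ 2 - r ^ 2) :
    ‖((D.re ^ 2 + D.im ^ 2 - r ^ 2 : ℝ) : ℂ) * a - conj D * u‖ ≤ r * ‖u‖ := by
  have h1 := pow_le_pow_left₀ (norm_nonneg _) h 2
  refine (pow_le_pow_iff_left₀ (norm_nonneg _) (by positivity) two_ne_zero).1 ?_
  obtain ⟨Δ, hΔ'⟩ : ∃ Δ, Δ = D.re ^ 2 + D.im ^ 2 - r ^ 2 := ⟨_, rfl⟩
  have e : r ^ 2 = D.re ^ 2 + D.im ^ 2 - Δ := by linarith
  rw [← hΔ'] at hΔ ⊢
  simp only [mul_pow, nsq, e] at h1 ⊢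
  simp at h1 ⊢
  nlinarith [mul_le_mul_of_nonneg_left h1 hΔ]

/-- D = c' + k' = Dr + i Di, Δ = |D|² - r'² > 0.  From |A a - D a'| ≤ r'|a'| (`Dsc.back`): |Δ a' - conj D A a|² ≤ r'²|A a|², and
Δ(a' + (k'-c)a) = (Δ a' - conj D A a) + N a,  N = (k'-c)Δ + A conj D = n₀ conj D - n₁ r'²,  n₁ = k'-c,  n₀ = A + n₁D = nr + i ni. -/
theorem dsc_step {g t n2 cr ci r cr' ci' r' Dr Di nr ni Δ h₁ h₂ : ℝ} (H : Dsc M ρ (α + 1) (cr' + ci' * Complex.I) r')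
    (hg : g = 5 / 2 - α.re) (ht : t = α.im) (hn : n2 = (M + 25) / 4) (hr' : 0 ≤ r') (hr : 0 ≤ r)
    (hDr : Dr = g + cr') (hDi : Di = ρ / 2 - t + ci')
    (hnr : nr = n2 - (ρ / 2) ^ 2 - (cr' * cr - ci' * ci) + (cr' - cr) * g + t * (ρ + (ci' - ci)) - (ci' - ci) * (ρ / 2))
    (hni : ni = g * (ρ + (ci' - ci)) - (cr' * ci + ci' * cr) + (cr' - cr) * (ρ / 2 - t))
    (h0 : 0 < Δ) (hΔ : Δ ≤ Dr ^ 2 + Di ^ 2 - r' ^ 2)
    (e₁ : ‖((nr * Dr + ni * Di - r' ^ 2 * (g - cr) : ℝ) : ℂ)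
      + ((ni * Dr - nr * Di - r' ^ 2 * (ρ / 2 - t - ci) : ℝ) : ℂ) * Complex.I‖ ≤ h₁)
    (e₂ : ‖((n2 + t ^ 2 - g ^ 2 : ℝ) : ℂ) + ((2 * (g * t) : ℝ) : ℂ) * Complex.I‖ ≤ h₂)
    (e₃ : h₁ + h₂ * r' ≤ r * Δ) : Dsc M ρ α (cr + ci * Complex.I) r := by
  intro w hw
  have hD : cr' + ci' * Complex.I + kp ρ α = (Dr : ℂ) + Di * Complex.I := by
    rw [kp_eq hg ht, hDr, hDi]
    push_cast
    ring
  have h1 := H.back hw
  rw [hD] at h1
  have h2 := disc_inv h1 hr' (by simpa using h0.le.trans hΔ)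
  obtain ⟨Δ₀, hΔ₀⟩ : ∃ Δ₀, Δ₀ = Dr ^ 2 + Di ^ 2 - r' ^ 2 := ⟨_, rfl⟩
  have e : (((Dr : ℂ) + Di * Complex.I).re ^ 2 + ((Dr : ℂ) + Di * Complex.I).im ^ 2 - r' ^ 2 : ℝ) = Δ₀ := by
    simp [hΔ₀]
  rw [e] at h2
  have h4 : (Δ₀ : ℂ) * (w 1 + (kp ρ α - (cr + ci * Complex.I)) * w 0) =
      ((Δ₀ : ℂ) * w 1 - conj ((Dr : ℂ) + Di * Complex.I) * (AA M α * w 0)) +
        (((nr * Dr + ni * Di - r' ^ 2 * (g - cr) : ℝ) : ℂ)
          + ((ni * Dr - nr * Di - r' ^ 2 * (ρ / 2 - t - ci) : ℝ) : ℂ) * Complex.I) * w 0 := by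
    rw [AA_eq hg ht hn, kp_eq hg ht, hΔ₀, hnr, hni, hDr, hDi]
    simp only [map_add, map_mul, Complex.conj_ofReal, Complex.conj_I]
    push_cast
    have hI := Complex.I_sq
    grind
  have hG : 0 < Δ₀ := by linarith
  refine le_of_mul_le_mul_left ?_ hG
  have h5 := (norm_add_le _ _).trans (add_le_add h2 (le_refl
    ‖(((nr * Dr + ni * Di - r' ^ 2 * (g - cr) : ℝ) : ℂ)
      + ((ni * Dr - nr * Di - r' ^ 2 * (ρ / 2 - t - ci) : ℝ) : ℂ) * Complex.I) * w 0‖))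
  rw [← h4, norm_mul, norm_mul, norm_mul, Complex.norm_real, Real.norm_of_nonneg hG.le,
    AA_eq hg ht hn] at h5
  have h6 : r * Δ ≤ r * Δ₀ := mul_le_mul_of_nonneg_left (by linarith) hr
  nlinarith [mul_le_mul_of_nonneg_right e₁ (norm_nonneg (w 0)),
    mul_le_mul_of_nonneg_left (mul_le_mul_of_nonneg_right e₂ (norm_nonneg (w 0))) hr',
    mul_le_mul_of_nonneg_right (e₃.trans h6) (norm_nonneg (w 0))]

theorem Dsc.one {cr ci r ν : ℝ} (h : Dsc M ρ α (cr + ci * Complex.I) r) (hν : cr + r < ν) : One M ρ ν α := by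
  intro w hw h0
  have h1 := h w hw
  have h2 : w 0 ≠ 0 := fun h2 => by
    rw [h2] at h1
    exact h0.elim (fun h3 => h3 h2) fun h3 => h3 (by simpa using h1)
  have h3 : BB α w = (conj (w 0) * (w 1 + (kp ρ α - (cr + ci * Complex.I)) * w 0)).re +
      cr * ‖w 0‖ ^ 2 := by
    simp [BB, kp, nsq]
    ring
  have h4 := (Complex.re_le_norm (conj (w 0) * (w 1 + (kp ρ α - (cr + ci * Complex.I)) * w 0)))
  rw [norm_mul, Complex.norm_conj] at h4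
  have h5 : 0 < ‖w 0‖ ^ 2 := by positivity
  nlinarith [mul_le_mul_of_nonneg_left h1 (norm_nonneg (w 0))]

/-- both sides one-sided: B_F + B_G = 2ν|u₀|² -/
theorem one_one {m : ℕ} {b : ℝ} {lam : ℂ} {u v : ℕ → ℂ}
    (hF : One (MM m) ρ ((5 + m) / 2) (lam - Complex.I * b))
    (hG : One (MM m) ρ ((5 + m) / 2) (conj lam - Complex.I * b))
    (hu : Seq (MM m) ρ (lam - Complex.I * b) u) (hv : Seq (MM m) ρ (conj lam - Complex.I * b) v)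
    (h0 : u 0 + conj (v 0) = 0) (h1 : u 1 - conj (v 1) = (2 * lam + m) * u 0) : u 0 = 0 ∧ u 1 = 0 := by
  have e0 : v 0 = -conj (u 0) := by
    rw [eq_neg_of_add_eq_zero_left h0]
    simp
  have e1 : v 1 = conj (u 1 - (2 * lam + m) * u 0) := by
    rw [← h1]
    simp
  have hu0 : u 0 = 0 := by
    by_contra hne
    have g1 := hF u hu (Or.inl hne)
    have g2 := hG v hv (Or.inl (by simpa [e0] using hne))
    simp only [BB, e0, e1, nsq] at g1 g2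
    simp at g1 g2
    nlinarith
  refine ⟨hu0, ?_⟩
  by_contra hne
  simpa [BB, hu0] using hF u hu (Or.inr hne)

/-- ζ_F + conj ζ_G = 5 + m -/
theorem two0 {m : ℕ} {b r r' : ℝ} {lam c c' : ℂ} {u v : ℕ → ℂ}
    (hF : Dsc (MM m) ρ (lam - Complex.I * b) c r) (hG : Dsc (MM m) ρ (conj lam - Complex.I * b) c' r')
    (h : r + r' < ‖c + conj c' - (5 + m)‖)
    (hu : Seq (MM m) ρ (lam - Complex.I * b) u) (hv : Seq (MM m) ρ (conj lam - Complex.I * b) v)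
    (h0 : u 0 + conj (v 0) = 0) (h1 : u 1 - conj (v 1) = (2 * lam + m) * u 0) : u 0 = 0 ∧ u 1 = 0 := by
  have e0 : conj (v 0) = -u 0 := eq_neg_of_add_eq_zero_right h0
  have g1 := hF u hu
  have g2 := hG v hv
  rw [← Complex.norm_conj (v 0), e0, norm_neg, ← Complex.norm_conj] at g2
  have g3 := (norm_sub_le _ _).trans (add_le_add g2 g1)
  have e : conj (v 1 + (kp ρ (conj lam - Complex.I * b) - c') * v 0) -
      (u 1 + (kp ρ (lam - Complex.I * b) - c) * u 0) = (c + conj c' - (5 + m)) * u 0 := by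
    simp only [kp, map_add, map_mul, map_sub, map_div₀, e0, Complex.conj_conj, Complex.conj_ofReal,
      Complex.conj_I, map_ofNat]
    linear_combination (-1 : ℂ) * h1
  rw [e, norm_mul] at g3
  have hu0 : u 0 = 0 := by
    by_contra hne
    have := norm_pos_iff.2 hne
    nlinarith
  refine ⟨hu0, ?_⟩
  simpa [hu0] using g1

private theorem ex_theta {z p : ℂ} {r : ℝ} (hr : 0 ≤ r) (h : ‖z‖ ≤ r * ‖p‖) :
    ∃ θ : ℂ, ‖θ‖ ≤ r ∧ z = θ * p := by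
  by_cases hp : p = 0
  · exact ⟨0, by simpa using hr, by simpa [hp] using h⟩
  · exact ⟨z / p, by rwa [norm_div, div_le_iff₀ (norm_pos_iff.2 hp)], by field_simp⟩

/-- A f = (X+θ)p, A' f = -(X'+θ')q, so ((X+θ)(X'+θ')K - A(X'+θ') - A'(X+θ)) f = 0, and the bracket is ≠ 0; then p = q and (X+θ)p = (X'+θ')p = 0 -/
theorem hom3 {f p q X X' A A' K : ℂ} {r r' : ℝ} (hr : 0 ≤ r) (hr' : 0 ≤ r')
    (h1 : ‖A * f - X * p‖ ≤ r * ‖p‖) (h2 : ‖A' * f + X' * q‖ ≤ r' * ‖q‖) (h3 : p - q = K * f)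
    (h : r * ‖X' * K - A'‖ + r' * ‖X * K - A‖ + r * r' * ‖K‖ < ‖X * X' * K - A * X' - A' * X‖) :
    f = 0 ∧ p = 0 ∧ q = 0 := by
  obtain ⟨θ, hθ, e1⟩ := ex_theta hr h1
  obtain ⟨η, hη, e2⟩ := ex_theta hr' ((norm_neg _).trans_le h2)
  have hB : X * X' * K - A * X' - A' * X + (θ * (X' * K - A') + η * (X * K - A) + θ * η * K) ≠ 0 := by
    intro h0
    rw [eq_neg_of_add_eq_zero_left h0, norm_neg] at h
    refine h.not_ge (norm_add₃_le.trans ?_)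
    simp only [norm_mul]
    gcongr
  have hf : f = 0 := by
    refine (mul_eq_zero.1 ?_).resolve_left hB
    linear_combination (-(X + θ) * (X' + η)) * h3 - (X' + η) * e1 + (X + θ) * e2
  have hpq : q = p := by
    rw [hf] at h3
    linear_combination -h3
  have hp : p = 0 := by
    refine (mul_eq_zero.1 ?_).resolve_left hB
    rw [hf] at e1
    rw [hf, hpq] at e2
    linear_combination (A' - (X' + η) * K) * e1 + A * e2
  exact ⟨hf, hp, hpq.trans hp⟩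

end

end Crest.Agent.R086.NB
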