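import Crest.Agent.R086.NB.Cov

/-! # Row 86, part N: kernel evaluation of the certificates -/

set_option Elab.async false

namespace Crest.Agent.R086.NB.Run

open T

theorem qP_7 : Cov (oneB 281474976710656) 140737488355328 281474976710656 0 4398046511104 0 35184372088832 :=
  .of (a (c (b (l 23) (a (c (b (a (c (l 0) (b (l 22) (a (l 51) (l 51)))) (c (l 0) (b (l 22) (l 51)))) (a (c (l 0) (b (l 50) (l 0))) (c (l 0) (b (l 50) (l 0))))) (b (a (c (b (l 22) (l 50)) (b (l 22) (l 50))) (c (b (l 22) (l 50)) (b (l 22) (l 50)))) (a (c (b (l 50) (l 50)) (b (l 50) (l 38))) (c (b (l 50) (l 39)) (b (l 50) (l 38)))))) (c (b (a (c (l 0) (b (l 22) (l 51))) (c (l 0) (b (l 22) (l 23)))) (a (c (l 0) (b (l 50) (l 0))) (c (l 0) (b (l 50) (l 0))))) (b (a (c (b (l 22) (l 50)) (b (l 22) (l 23))) (c (b (l 22) (l 23)) (b (l 22) (l 22)))) (a (c (b (l 50) (l 39)) (b (l 39) (l 38))) (c (b (l 50) (l 39)) (b (l 39) (l 38))))))))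 (b (l 23) (a (c (b (a (c (b (l 22) (l 23)) (l 51)) (c (b (l 22) (l 22)) (l 51))) (a (c (b (l 38) (l 38)) (l 40)) (c (b (l 38) (l 38)) (l 40)))) (b (l 50) (l 39))) (c (b (a (c (b (l 22) (l 22)) (l 23)) (c (b (l 22) (l 22)) (l 23))) (a (c (b (l 38) (l 38)) (l 39)) (c (b (l 38) (l 38)) (l 39)))) (b (l 23) (l 39)))))) (c (b (l 23) (a (c (b (a (c (l 0) (b (l 22) (l 23))) (c (l 0) (b (l 22) (l 22)))) (a (c (l 0) (b (l 50) (l 0))) (c (l 0) (b (l 50) (l 0))))) (b (a (c (b (l 22) (l 22)) (b (l 22) (l 22))) (c (b (l 22) (l 22)) (b (l 22) (l 22)))) (a (c (b (l 50) (l 39)) (b (l 39) (l 38))) (c (b (l 50) (l 39)) (b (l 23) (l 38)))))) (c (b (a (c (l 0) (b (l 22) (l 22))) (c (l 0) (b (l 22) (l 22)))) (a (c (l 0) (b (l 50) (l 0))) (c (l 0) (b (l 50) (l 0))))) (b (a (c (b (l 22) (l 22)) (l 23)) (l 23)) (a (c (b (l 50) (l 38)) (b (l 23) (l 38))) (c (b (l 23) (l 38)) (b (l 22) (l 38)))))))) (b (l 23) (a (c (b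 (a (l 23) (l 23)) (a (c (b (l 23) (l 31)) (l 39)) (c (b (l 22) (l 31)) (l 39)))) (b (l 22) (l 39))) (c (b (l 23) (a (c (b (l 22) (l 23)) (l 39)) (c (b (l 22) (l 23)) (l 39)))) (b (l 22) (l 38))))))) (by decide +kernel)

theorem d12_0 : Cov (oneD 12) 0 281474976710656 (-9007199254740992) 9007199254740992 0 0 :=
  .of (b (b (b (b (b (l 37) (l 37)) (b (l 37) (l 29))) (b (b (l 29) (l 29)) (b (l 29) (l 29)))) (b (b (b (b (l 17) (l 13)) (b (l 13) (l 13))) (b (b (l 13) (l 13)) (b (l 10) (l 10)))) (b (b (b (l 10) (l 10)) (b (l 10) (l 7))) (b (b (l 7) (l 7)) (b (l 7) (l 5)))))) (b (b (b (b (b (l 5) (l 5)) (b (l 7) (l 7))) (b (b (l 7) (l 7)) (b (l 10) (l 10)))) (b (b (b (l 10) (l 10)) (b (l 13) (l 13))) (b (b (l 13) (l 13)) (l 22)))) (b (b (b (l 29) (l 29)) (b (l 29) (l 29))) (b (b (l 37) (l 37)) (b (l 37) (b (l 29) (l 29))))))) (by decide +kernel)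

theorem nh_2 : Cov near1T 140737488355328 211106232532992 (-70368744177664) 70368744177664 0 0 :=
  .of (b (a (b (a (b (l 3) (l 3)) (b (l 3) (l 3))) (a (b (l 3) (l 3)) (b (l 3) (l 3)))) (b (a (b (l 3) (l 3)) (l 3)) (a (l 5) (l 3)))) (a (b (a (b (l 3) (l 3)) (b (l 3) (l 3))) (a (b (l 3) (l 3)) (b (l 3) (l 3)))) (b (a (l 5) (l 3)) (a (b (l 3) (l 3)) (l 3))))) (by decide +kernel)

theorem d4_2 : Cov (oneD 4) 0 281474976710656 4503599627370496 9007199254740992 0 0 :=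
  .of (b (b (b (b (l 29) (l 29)) (b (l 37) (l 37))) (b (b (l 37) (l 37)) (b (l 37) (l 37)))) (b (b (b (l 37) (a (l 29) (l 29))) (b (a (l 29) (l 29)) (a (l 29) (l 29)))) (b (b (a (l 37) (l 29)) (a (l 37) (l 37))) (b (a (l 37) (l 37)) (a (l 37) (l 37)))))) (by decide +kernel)

theorem qP_5 : Cov (oneB 281474976710656) 0 140737488355328 4398046511104 8796093022208 0 35184372088832 :=
  .of (a (c (b (a (c (l 0) (b (a (c (b (l 39) (l 38)) (l 50)) (c (b (l 39) (l 38)) (l 50))) (l 50))) (c (l 0) (b (a (c (b (l 39) (l 38)) (l 50)) (c (b (l 38) (l 38)) (l 50))) (l 50)))) (a (c (l 0) (b (l 38) (l 0))) (c (l 0) (b (l 38) (l 0))))) (b (a (c (b (l 50) (l 38)) (b (l 38) (l 38))) (c (b (l 50) (l 38)) (b (l 38) (l 38)))) (a (c (b (l 38) (l 31)) (b (l 31) (l 30))) (c (b (l 38) (l 30)) (b (l 30) (l 30)))))) (c (b (a (c (l 0) (b (a (c (b (l 38) (l 38)) (l 50)) (c (b (l 38) (l 38)) (l 50))) (l 50))) (c (l 0) (b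 (a (c (b (l 38) (l 38)) (l 50)) (c (b (l 38) (l 38)) (l 51))) (a (l 50) (l 50))))) (a (c (l 0) (b (l 38) (l 0))) (c (l 0) (b (l 38) (l 0))))) (b (a (c (b (l 50) (l 38)) (b (l 38) (l 38))) (c (b (l 50) (l 38)) (b (l 38) (l 31)))) (a (c (b (l 38) (l 30)) (b (l 30) (l 30))) (c (b (l 38) (l 30)) (b (l 30) (l 30))))))) (by decide +kernel)

theorem dM2_0 : Cov (oneD 2) 0 281474976710656 (-9007199254740992) (-985162418487296) 0 0 :=
  .of (b (b (b (b (b (l 37) (l 29)) (b (l 29) (l 29))) (b (b (l 29) (l 29)) (b (l 29) (l 29)))) (b (b (b (l 29) (l 29)) (b (l 29) (l 22))) (b (l 37) (l 37)))) (b (b (b (l 37) (l 37)) (b (l 29) (l 29))) (b (b (l 29) (l 22)) (b (l 22) (b (l 10) (a (l 7) (l 5))))))) (by decide +kernel)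

theorem n1_1 : Cov (near0T 281474976710656) 281474976710656 351843720888320 (-70368744177664) 70368744177664 0 0 :=
  .of (b (a (b (a (b (l 3) (l 3)) (l 3)) (a (l 3) (l 3))) (b (a (l 3) (l 3)) (l 3))) (a (b (a (l 3) (l 3)) (a (b (l 3) (l 3)) (l 3))) (b (l 3) (a (l 3) (l 3))))) (by decide +kernel)

theorem d29_0 : Cov (oneD 29) 0 281474976710656 (-9007199254740992) 9007199254740992 0 0 :=
  .of (b (b (b (b (l 37) (l 37)) (b (b (l 17) (l 17)) (b (l 17) (l 13)))) (b (b (l 22) (l 13)) (b (l 10) (l 10)))) (b (b (b (l 7) (l 10)) (b (l 13) (l 17))) (b (b (l 22) (l 22)) (b (l 29) (l 29))))) (by decide +kernel)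

theorem d34_0 : Cov (oneD 34) 0 281474976710656 (-9007199254740992) 9007199254740992 0 0 :=
  .of (b (b (b (b (l 29) (l 29)) (b (l 22) (l 17))) (b (b (l 17) (l 13)) (b (l 10) (l 10)))) (b (b (b (l 10) (l 10)) (b (l 13) (l 17))) (b (b (l 17) (l 22)) (b (l 22) (l 29))))) (by decide +kernel)

theorem d45_0 : Cov (oneD 45) 0 281474976710656 (-9007199254740992) 9007199254740992 0 0 :=
  .of (b (b (b (b (l 22) (l 22)) (b (l 17) (l 17))) (b (b (l 13) (l 13)) (l 13))) (b (b (l 13) (b (l 13) (l 13))) (b (b (l 17) (l 17)) (b (l 22) (l 22))))) (by decide +kernel)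

theorem t0_6 : Cov (twoT 0) 562949953421312 1125899906842624 0 1125899906842624 0 0 :=
  .of (b (a (b (a (b (l 11) (l 11)) (l 11)) (a (b (l 11) (l 11)) (l 15))) (b (l 15) (l 19))) (a (b (a (l 23) (l 15)) (a (l 23) (l 19))) (b (l 29) (l 35)))) (by decide +kernel)

end Crest.Agent.R086.NB.Run
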