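import Crest.Agent.R086.NB.Cov

/-! # Row 86, part N: kernel evaluation of the certificates -/

set_option Elab.async false

namespace Crest.Agent.R086.NB.Run

open T

theorem t1_6 : Cov (twoT 1) 0 70368744177664 70368744177664 140737488355328 0 0 :=
  .of (a (b (a (b (a (b (a (b (l 15) (l 15)) (b (l 15) (l 15))) (a (b (l 15) (l 15)) (b (l 15) (l 15)))) (b (a (b (l 15) (l 15)) (b (l 15) (l 15))) (a (b (l 15) (l 15)) (l 16)))) (a (b (a (l 16) (l 16)) (a (l 15) (l 15))) (b (a (l 15) (l 15)) (a (l 15) (l 15))))) (b (a (b (a (b (l 15) (l 15)) (b (l 15) (l 15))) (a (l 16) (l 16))) (b (a (b (l 15) (l 15)) (l 16)) (a (l 16) (l 15)))) (a (b (a (l 15) (l 15)) (a (l 15) (l 15))) (b (a (l 15) (l 15)) (l 16))))) (a (b (a (b (l 20) (l 16)) (b (l 16) (l 15))) (a (b (l 15) (l 15)) (b (l 15) (l 15)))) (b (a (b (l 16) (l 15)) (b (l 15) (l 15))) (a (b (l 15) (l 15)) (b (l 15) (l 15)))))) (b (a (b (a (b (a (l 16)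 (l 16)) (a (l 15) (l 15))) (b (a (l 16) (l 16)) (a (l 15) (l 15)))) (a (b (a (l 15) (l 15)) (l 16)) (b (l 20) (l 16)))) (b (a (b (a (l 15) (l 15)) (a (l 15) (l 15))) (b (a (l 15) (l 15)) (a (l 15) (l 15)))) (a (b (l 16) (l 15)) (b (l 16) (l 15))))) (a (b (a (b (l 15) (l 15)) (b (l 15) (l 15))) (a (l 20) (l 16))) (b (a (b (l 15) (l 15)) (b (l 15) (l 15))) (a (l 16) (l 16)))))) (by decide +kernel)

theorem t0_0 : Cov (twoT 0) 0 140737488355328 0 140737488355328 0 0 :=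
  .of (a (b (l 0) (a (b (a (b (a (b (l 15) (l 15)) (l 15)) (a (b (l 15) (l 15)) (l 15))) (b (a (l 15) (l 15)) (a (l 15) (l 15)))) (a (b (a (b (l 15) (l 15)) (b (l 15) (l 15))) (a (b (l 15) (a (l 15) (l 12))) (b (l 15) (l 15)))) (b (a (l 15) (l 15)) (a (b (l 15) (l 15)) (b (l 12) (l 12)))))) (b (a (b (a (l 15) (l 15)) (a (l 15) (l 15))) (b (a (l 15) (l 15)) (a (l 15) (l 15)))) (a (b (a (l 15) (l 15)) (a (l 15) (l 15))) (b (a (l 15) (l 15)) (a (l 15) (l 15))))))) (b (a (b (a (b (l 15) (l 15)) (b (l 15) (l 15))) (a (b (l 15) (l 15)) (b (l 15) (l 15)))) (b (a (b (l 12) (l 12)) (b (l 12) (l 12))) (a (b (l 12) (l 12)) (b (l 12) (l 12))))) (a (b (a (b (l 15) (l 15)) (b (l 15) (l 15))) (a (b (l 19) (a (l 12) (l 12))) (b (l 15) (l 15)))) (b (a (b (l 12) (l 12)) (b (l 12) (l 12))) (a (b (l 12) (l 12)) (b (l 12) (l 12))))))) (by decide +kernel)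

theorem d3_3 : Cov (oneD 3) 0 281474976710656 4503599627370496 9007199254740992 0 0 :=
  .of (b (b (b (b (l 37) (l 37)) (b (l 37) (l 37))) (b (b (l 37) (l 37)) (b (l 37) (a (l 29) (l 29))))) (b (b (b (a (l 29) (l 29)) (a (l 29) (l 29))) (b (a (l 29) (l 29)) (a (l 37) (l 37)))) (b (b (a (l 37) (l 37)) (a (l 37) (l 37))) (b (a (l 37) (l 37)) (a (l 37) (l 37)))))) (by decide +kernel)

theorem t1_8 : Cov (twoT 1) 0 140737488355328 140737488355328 281474976710656 0 0 :=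
  .of (a (b (a (b (a (b (a (l 16) (l 16)) (a (l 16) (l 16))) (b (a (l 16) (l 16)) (a (l 16) (l 16)))) (a (b (l 16) (l 16)) (b (l 16) (l 16)))) (b (a (b (a (l 16) (l 16)) (l 16)) (b (a (l 15) (l 15)) (l 16))) (a (b (l 16) (l 16)) (b (l 16) (l 16))))) (a (b (a (b (l 16) (l 16)) (b (l 16) (l 16))) (a (l 16) (l 16))) (b (a (b (l 12) (l 12)) (l 16)) (a (l 16) (l 16))))) (b (a (b (a (b (a (l 15) (l 15)) (l 16)) (b (a (l 12) (l 12)) (l 16))) (a (b (l 16) (l 12)) (b (l 12) (l 12)))) (b (a (b (l 16) (l 15)) (b (l 15) (l 12))) (a (b (l 12) (l 12)) (b (l 12) (l 12))))) (a (b (a (l 16) (l 16)) (a (l 16) (l 12))) (b (a (l 16) (l 16)) (a (l 12) (l 12)))))) (by decide +kernel)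

theorem t0_5 : Cov (twoT 0) 0 562949953421312 562949953421312 1125899906842624 0 0 :=
  .of (a (b (a (b (a (b (a (l 30) (l 16)) (a (l 20) (l 16))) (b (a (l 16) (l 16)) (l 20))) (a (b (a (l 16) (l 16)) (l 24)) (b (l 20) (l 16)))) (b (a (b (l 16) (l 16)) (b (l 16) (l 16))) (a (b (l 16) (l 16)) (b (l 16) (l 16))))) (a (b (a (b (l 20) (l 20)) (b (l 16) (l 16))) (a (b (l 20) (l 20)) (b (l 20) (l 20)))) (b (a (b (l 16) (l 16)) (l 20)) (a (l 24) (l 20))))) (b (a (b (a (b (l 12) (l 12)) (l 19)) (a (l 20) (l 16))) (b (l 19) (l 19))) (a (b (a (l 16) (l 16)) (l 43)) (b (l 19) (l 19))))) (by decide +kernel)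

theorem qP_2 : Cov (oneB 281474976710656) 35184372088832 70368744177664 2199023255552 4398046511104 0 17592186044416 :=
  .of (c (b (a (c (l 0) (b (a (c (b (l 51) (l 50)) (b (l 51) (l 50))) (c (b (l 51) (l 50)) (b (l 23) (l 50)))) (a (c (l 0) (l 51)) (c (l 0) (l 51))))) (c (l 0) (b (a (c (b (l 22) (l 50)) (b (l 22) (l 50))) (c (b (l 22) (l 50)) (b (l 22) (l 50)))) (a (c (l 0) (l 51)) (c (l 0) (l 51)))))) (a (c (l 0) (b (l 50) (l 0))) (c (l 0) (b (l 50) (l 0))))) (b (a (c (b (a (c (b (l 50) (l 50)) (b (l 23) (l 50))) (c (b (l 23) (l 50)) (b (l 22) (l 50)))) (l 51)) (b (l 52) (l 50))) (c (b (a (c (b (l 22) (l 50)) (b (l 22) (l 50))) (c (b (l 22) (l 50)) (b (l 22) (l 50)))) (l 51)) (b (l 52) (l 50)))) (a (c (b (l 50) (l 50)) (b (l 50) (l 39))) (c (b (l 50) (l 50)) (b (l 50) (l 39)))))) (by decide +kernel)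

theorem d22_0 : Cov (oneD 22) 0 281474976710656 (-9007199254740992) 9007199254740992 0 0 :=
  .of (b (b (b (b (b (l 29) (l 29)) (b (l 22) (l 22))) (b (b (l 22) (l 17)) (b (l 17) (l 17)))) (b (b (b (l 13) (l 13)) (b (l 13) (l 10))) (b (b (l 10) (l 7)) (l 10)))) (b (b (b (l 7) (b (l 7) (l 10))) (b (b (l 10) (l 10)) (b (l 13) (l 13)))) (b (b (b (l 17) (l 17)) (b (l 17) (l 22))) (b (b (l 22) (l 22)) (b (l 29) (l 29)))))) (by decide +kernel)

theorem t1_11 : Cov (twoT 1) 281474976710656 562949953421312 0 562949953421312 0 0 :=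
  .of (b (a (b (a (b (a (b (l 15) (l 15)) (b (l 11) (l 11))) (a (b (l 12) (l 11)) (l 15))) (b (a (l 11) (l 11)) (l 15))) (a (b (a (l 19) (l 11)) (a (l 12) (l 11))) (b (l 11) (l 11)))) (b (a (b (l 11) (l 11)) (l 11)) (a (l 11) (l 11)))) (a (b (a (b (l 12) (l 12)) (l 15)) (a (b (l 12) (l 12)) (l 15))) (b (l 15) (l 15)))) (by decide +kernel)

theorem qM_1 : Cov (oneB (-281474976710656)) 0 281474976710656 0 8796093022208 140737488355328 281474976710656 :=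
  .of (c (a (c (b (l 38) (a (c (b (l 30) (a (l 38) (l 38))) (b (l 22) (l 30))) (c (b (l 22) (a (l 38) (l 38))) (l 30)))) (b (l 30) (a (c (l 30) (l 30)) (c (l 30) (l 22))))) (c (b (l 30) (a (c (b (l 22) (a (c (l 22) (l 22)) (c (l 22) (l 22)))) (l 30)) (c (b (l 22) (a (c (l 22) (l 22)) (c (l 22) (l 22)))) (l 30)))) (b (l 22) (a (l 30) (l 30))))) (a (c (b (l 22) (a (c (l 22) (l 22)) (l 22))) (b (l 22) (l 22))) (c (b (l 22) (l 22)) (l 22)))) (by decide +kernel)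

theorem d40_0 : Cov (oneD 40) 0 281474976710656 (-9007199254740992) 9007199254740992 0 0 :=
  .of (b (b (b (b (l 29) (l 22)) (b (l 22) (l 17))) (b (b (l 13) (l 13)) (l 13))) (b (b (l 13) (b (l 13) (l 13))) (b (b (l 17) (l 17)) (b (l 22) (l 29))))) (by decide +kernel)

theorem d55_0 : Cov (oneD 55) 0 281474976710656 (-9007199254740992) 9007199254740992 0 0 :=
  .of (b (b (b (b (l 22) (l 22)) (b (l 17) (l 17))) (b (l 17) (l 13))) (b (b (l 13) (l 17)) (b (l 22) (b (l 22) (l 22))))) (by decide +kernel)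

end Crest.Agent.R086.NB.Run
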