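import Crest.Agent.R086.NB.Cov

/-! # Row 86, part N: kernel evaluation of the certificates -/

set_option Elab.async false

namespace Crest.Agent.R086.NB.Run

open T

theorem t1_4 : Cov (twoT 1) 35184372088832 70368744177664 0 35184372088832 0 0 :=
  .of (a (b (a (b (a (b (a (l 16) (l 15)) (a (l 16) (l 15))) (b (a (l 15) (l 15)) (a (l 15) (l 15)))) (a (b (a (l 16) (l 15)) (a (l 15) (l 15))) (b (a (l 15) (l 15)) (a (l 15) (l 15))))) (b (a (b (l 20) (l 20)) (b (l 16) (l 16))) (a (b (l 20) (l 16)) (b (l 16) (l 16))))) (a (b (a (b (a (l 15) (l 15)) (a (l 15) (l 15))) (b (l 20) (l 16))) (a (b (l 20) (l 16)) (b (l 16) (l 16)))) (b (a (b (l 16) (l 16)) (b (l 16) (l 16))) (a (b (l 16) (l 16)) (b (l 16) (l 16)))))) (b (a (b (a (b (l 16) (l 16)) (b (l 16) (l 16))) (a (b (l 16) (l 16)) (b (l 16) (l 16)))) (b (a (b (l 16) (l 16)) (b (l 16) (l 16))) (a (b (l 16) (l 16)) (b (l 16) (l 16))))) (a (b (a (b (l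 16) (l 16)) (b (l 16) (l 16))) (a (b (l 16) (l 16)) (b (l 16) (l 16)))) (b (a (b (l 16) (l 16)) (b (l 16) (l 16))) (a (b (l 16) (l 15)) (b (l 16) (l 15))))))) (by decide +kernel)

theorem nh_1 : Cov near1T 70368744177664 140737488355328 0 70368744177664 0 0 :=
  .of (a (b (a (b (a (b (l 3) (l 3)) (l 5)) (a (b (l 3) (l 3)) (l 5))) (b (a (l 3) (l 3)) (a (l 5) (l 3)))) (a (b (a (b (l 3) (l 3)) (l 5)) (a (b (l 3) (l 3)) (l 5))) (b (a (l 3) (l 3)) (a (l 3) (l 3))))) (b (a (b (l 5) (l 7)) (b (l 3) (l 3))) (a (b (a (l 3) (l 3)) (l 5)) (b (l 3) (l 3))))) (by decide +kernel)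

theorem t1_2 : Cov (twoT 1) 17592186044416 35184372088832 0 35184372088832 0 0 :=
  .of (b (a (b (a (b (a (b (l 15) (l 15)) (l 20)) (a (b (l 15) (l 15)) (l 20))) (b (a (l 16) (l 16)) (a (l 16) (l 16)))) (a (b (a (l 20) (l 16)) (a (l 20) (l 16))) (b (a (l 16) (l 16)) (a (l 16) (l 16))))) (b (a (b (a (l 16) (l 16)) (a (l 16) (l 16))) (b (a (l 16) (l 16)) (a (l 16) (l 16)))) (a (b (a (l 16) (l 16)) (a (l 16) (l 16))) (b (a (l 16) (l 16)) (a (l 16) (l 16)))))) (a (b (a (b (a (l 16) (l 16)) (a (l 16) (l 16))) (b (a (l 16) (l 16)) (a (l 16) (l 16)))) (a (b (a (l 16) (l 16)) (a (l 16) (l 16))) (b (a (l 16) (l 16)) (a (l 16) (l 16))))) (b (a (b (a (l 16) (l 16)) (a (l 16) (l 16))) (b (a (l 16) (l 15)) (a (l 15) (l 15)))) (a (b (a (l 16) (l 15)) (a (l 15) (l 15))) (b (a (l 15) (l 15)) (l 20)))))) (by decide +kernel)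

theorem m3_1 : Cov (matT f3) 94228252053519 94228252053520 925889417891566 925906306390169 0 0 :=
  .of (b (b (b (b (b (b (l 14) (l 14)) (b (l 14) (l 14))) (b (b (l 14) (l 14)) (b (l 14) (l 14)))) (b (b (b (l 14) (l 14)) (b (l 14) (l 14))) (b (b (l 14) (l 14)) (b (l 14) (l 14))))) (b (b (b (b (l 14) (l 14)) (b (l 14) (l 14))) (b (b (l 14) (l 14)) (b (l 14) (l 14)))) (b (b (b (l 14) (l 14)) (b (l 14) (l 14))) (b (b (l 14) (l 14)) (b (l 14) (l 14)))))) (b (b (b (b (b (l 14) (l 14)) (b (l 14) (l 14))) (b (b (l 14) (l 14)) (b (l 14) (l 14)))) (b (b (b (l 14) (l 14)) (b (l 14) (l 14))) (b (b (l 14) (l 14)) (b (l 14) (l 14))))) (b (b (b (b (l 14) (l 14)) (b (l 14) (l 14))) (b (b (l 14) (l 14)) (b (l 14) (l 14)))) (b (b (b (l 14) (l 14)) (b (l 14) (l 14))) (b (b (l 14) (l 14)) (b (l 14) (l 14))))))) (by decide +kernel)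

theorem dM0_0 : Cov (oneD 0) 0 281474976710656 (-9007199254740992) (-985162418487296) 0 0 :=
  .of (b (b (b (b (b (l 37) (l 29)) (b (l 29) (l 29))) (b (b (l 29) (l 29)) (b (l 29) (l 29)))) (b (b (b (l 29) (l 29)) (b (l 29) (l 29))) (b (b (l 22) (l 22)) (l 37)))) (b (b (b (l 37) (l 37)) (b (l 37) (l 37))) (b (b (l 29) (l 29)) (b (l 29) (b (l 10) (l 10)))))) (by decide +kernel)

theorem d8_0 : Cov (oneD 8) 0 281474976710656 (-9007199254740992) 0 0 0 :=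
  .of (b (b (b (b (b (l 29) (l 29)) (b (l 29) (l 29))) (b (b (l 29) (l 29)) (l 37))) (b (b (l 37) (l 37)) (b (l 29) (l 29)))) (b (b (b (l 29) (l 29)) (b (b (l 13) (l 13)) (b (l 13) (l 17)))) (b (b (b (a (l 10) (l 10)) (a (l 10) (l 7))) (b (a (b (l 7) (l 7)) (l 7)) (a (b (l 7) (l 5)) (l 7)))) (b (b (a (b (l 5) (l 5)) (l 7)) (a (b (l 5) (l 5)) (l 5))) (b (a (b (l 5) (l 5)) (l 5)) (a (b (l 5) (l 5)) (l 5))))))) (by decide +kernel)

theorem d25_0 : Cov (oneD 25) 0 281474976710656 (-9007199254740992) 9007199254740992 0 0 :=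
  .of (b (b (b (b (b (l 29) (l 22)) (b (l 22) (l 22))) (b (b (l 22) (l 17)) (b (l 17) (l 17)))) (b (b (b (l 13) (l 13)) (b (l 10) (l 10))) (b (b (l 10) (l 7)) (l 10)))) (b (b (b (l 7) (l 10)) (b (b (l 10) (l 10)) (b (l 13) (l 13)))) (b (b (b (l 13) (l 17)) (b (l 17) (l 17))) (b (b (l 22) (l 22)) (b (l 22) (l 29)))))) (by decide +kernel)

theorem qP_3 : Cov (oneB 281474976710656) 0 70368744177664 0 4398046511104 17592186044416 35184372088832 :=
  .of (b (a (c (b (l 22) (a (c (b (l 22) (l 23)) (b (l 22) (l 22))) (c (b (l 22) (l 22)) (l 23)))) (b (l 22) (l 31))) (c (b (l 22) (l 23)) (b (l 22) (l 22)))) (a (c (b (a (c (b (l 50) (l 50)) (l 51)) (c (b (l 50) (l 50)) (l 51))) (a (c (l 51) (l 50)) (c (l 51) (l 50)))) (b (l 50) (l 50))) (c (b (a (c (b (l 50) (l 50)) (l 51)) (c (b (l 50) (l 50)) (l 51))) (a (c (l 51) (l 50)) (c (l 51) (l 50)))) (b (l 50) (l 39))))) (by decide +kernel)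

theorem d37_0 : Cov (oneD 37) 0 281474976710656 (-9007199254740992) 9007199254740992 0 0 :=
  .of (b (b (b (b (l 29) (l 22)) (b (l 22) (l 17))) (b (b (l 17) (l 13)) (b (l 10) (l 10)))) (b (b (l 13) (b (l 13) (l 13))) (b (b (l 17) (l 22)) (b (l 22) (l 29))))) (by decide +kernel)

theorem d47_0 : Cov (oneD 47) 0 281474976710656 (-9007199254740992) 9007199254740992 0 0 :=
  .of (b (b (b (b (l 22) (l 22)) (b (l 17) (l 17))) (b (b (l 13) (l 13)) (l 13))) (b (b (l 13) (l 17)) (b (b (l 17) (l 17)) (b (l 22) (l 22))))) (by decide +kernel)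

theorem d57_0 : Cov (oneD 57) 0 281474976710656 (-9007199254740992) 9007199254740992 0 0 :=
  .of (b (b (b (b (l 22) (l 22)) (l 22)) (b (l 17) (l 13))) (b (b (l 13) (l 17)) (b (l 22) (b (l 17) (l 22))))) (by decide +kernel)

end Crest.Agent.R086.NB.Run
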