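import Crest.Agent.R086.NB.Cov

/-! # Row 86, part N: kernel evaluation of the certificates -/

set_option Elab.async false

namespace Crest.Agent.R086.NB.Run

open T

theorem d11_0 : Cov (oneD 11) 0 281474976710656 (-9007199254740992) 9007199254740992 0 0 :=
  .of (b (b (b (b (b (l 37) (l 37)) (b (l 37) (l 37))) (b (b (l 29) (l 29)) (b (l 29) (l 29)))) (b (b (b (b (l 17) (l 17)) (b (l 13) (l 13))) (b (b (l 13) (l 13)) (b (l 10) (l 10)))) (b (b (b (l 10) (l 10)) (b (l 10) (l 13))) (b (b (a (l 7) (l 5)) (a (l 5) (l 5))) (b (a (l 5) (l 5)) (l 7)))))) (b (b (b (b (b (l 5) (l 5)) (b (l 7) (l 7))) (b (b (l 7) (l 10)) (b (l 10) (l 10)))) (b (b (b (l 10) (l 10)) (b (l 13) (l 13))) (b (b (l 13) (l 13)) (b (l 17) (l 17))))) (b (b (b (l 29) (l 29)) (b (l 29) (l 37))) (b (b (l 37) (l 37)) (b (b (l 29) (l 29)) (b (l 29) (l 37))))))) (by decide +kernel)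

theorem nh_0 : Cov near1T 70368744177664 140737488355328 (-70368744177664) 0 0 0 :=
  .of (a (b (a (b (a (b (l 3) (l 3)) (l 5)) (a (b (l 3) (l 3)) (l 5))) (b (a (l 3) (l 3)) (a (l 3) (l 3)))) (a (b (a (b (l 3) (l 3)) (l 5)) (a (b (l 3) (l 3)) (l 5))) (b (a (l 5) (l 3)) (a (l 3) (l 3))))) (b (a (b (l 5) (a (l 3) (l 3))) (b (l 3) (l 3))) (a (b (l 7) (l 5)) (b (l 3) (l 3))))) (by decide +kernel)

theorem t2_5 : Cov (twoT 2) 0 281474976710656 281474976710656 562949953421312 0 0 :=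
  .of (a (b (a (b (a (b (a (b (a (b (l 19) (l 19)) (b (l 16) (l 16))) (a (l 23) (l 19))) (b (a (l 23) (l 19)) (a (l 19) (l 16)))) (a (b (a (l 16) (l 16)) (l 19)) (b (l 19) (l 16)))) (b (a (b (a (l 16) (l 15)) (l 19)) (b (l 16) (l 15))) (a (b (l 15) (l 15)) (l 19)))) (a (b (a (b (l 16) (l 15)) (l 19)) (a (l 16) (l 15))) (b (a (l 19) (l 15)) (l 19)))) (b (a (b (a (b (l 15) (l 15)) (l 16)) (a (l 15) (l 15))) (b (l 19) (l 15))) (a (b (l 19) (l 15)) (b (l 15) (l 15))))) (a (b (a (b (l 16) (l 16)) (b (l 16) (l 15))) (a (l 20) (l 16))) (b (a (l 23) (l 15)) (a (l 16) (l 15))))) (b (a (b (a (b (l 15) (l 15)) (l 15)) (a (l 15) (l 15))) (b (l 15) (l 15))) (a (b (l 19) (l 15)) (b (l 15) (l 15))))) (by decide +kernel)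

theorem m3_0 : Cov (matT f3) 94228252053519 94228252053520 925872529392963 925889417891566 0 0 :=
  .of (b (b (b (b (b (b (l 14) (l 14)) (b (l 14) (l 14))) (b (b (l 14) (l 14)) (b (l 14) (l 14)))) (b (b (b (l 14) (l 14)) (b (l 14) (l 14))) (b (b (l 14) (l 14)) (b (l 14) (l 14))))) (b (b (b (b (l 14) (l 14)) (b (l 14) (l 14))) (b (b (l 14) (l 14)) (b (l 14) (l 14)))) (b (b (b (l 14) (l 14)) (b (l 14) (l 14))) (b (b (l 14) (l 14)) (b (l 14) (l 14)))))) (b (b (b (b (b (l 14) (l 14)) (b (l 14) (l 14))) (b (b (l 14) (l 14)) (b (l 14) (l 14)))) (b (b (b (l 14) (l 14)) (b (l 14) (l 14))) (b (b (l 14) (l 14)) (b (l 14) (l 14))))) (b (b (b (b (l 14) (l 14)) (b (l 14) (l 14))) (b (b (l 14) (l 14)) (b (l 14) (l 14)))) (b (b (b (l 14) (l 14)) (b (l 14) (l 14))) (b (b (l 14) (l 14)) (b (l 14) (l 14))))))) (by decide +kernel)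

theorem dP1_0 : Cov (oneD 1) 0 281474976710656 985162418487296 4996180836614144 0 0 :=
  .of (b (b (b (b (a (b (a (b (l 7) (l 7)) (l 10)) (a (l 10) (l 7))) (b (a (l 7) (l 5)) (l 13))) (a (b (a (l 10) (l 7)) (a (l 10) (l 7))) (b (l 10) (l 10)))) (b (a (b (l 13) (l 13)) (b (l 10) (l 10))) (a (b (l 13) (l 13)) (b (l 10) (l 10))))) (b (b (a (b (l 13) (l 13)) (l 22)) (a (b (l 13) (l 13)) (l 17))) (b (a (l 22) (l 17)) (a (l 22) (l 17))))) (b (b (b (a (l 22) (l 17)) (a (l 22) (l 22))) (b (a (l 22) (l 22)) (l 37))) (b (b (l 37) (l 37)) (b (l 37) (l 37))))) (by decide +kernel)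

theorem d19_0 : Cov (oneD 19) 0 281474976710656 (-9007199254740992) 9007199254740992 0 0 :=
  .of (b (b (b (b (b (l 29) (l 29)) (b (l 29) (l 29))) (b (b (l 22) (l 22)) (b (l 17) (l 17)))) (b (b (b (l 17) (l 13)) (b (l 13) (l 10))) (b (b (l 10) (l 10)) (b (l 7) (l 7))))) (b (b (b (l 10) (b (l 7) (l 10))) (b (b (l 10) (l 13)) (b (l 13) (l 17)))) (b (b (b (l 17) (l 17)) (b (l 22) (l 22))) (b (b (l 22) (l 29)) (b (l 29) (l 29)))))) (by decide +kernel)

theorem t1_10 : Cov (twoT 1) 0 281474976710656 281474976710656 562949953421312 0 0 :=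
  .of (a (b (a (b (a (b (a (l 16) (l 16)) (l 16)) (b (a (l 16) (l 16)) (l 16))) (a (b (l 16) (l 16)) (b (l 16) (l 16)))) (b (a (b (l 16) (l 16)) (b (l 16) (l 12))) (a (b (l 16) (l 12)) (b (l 12) (l 12))))) (a (b (a (b (l 16) (l 16)) (l 16)) (a (l 16) (l 16))) (b (a (l 16) (l 16)) (a (l 16) (l 16))))) (b (a (b (a (b (l 12) (l 12)) (b (l 12) (l 12))) (a (l 16) (l 16))) (b (a (l 15) (l 12)) (a (l 12) (l 12)))) (a (b (a (l 16) (l 12)) (l 16)) (b (l 16) (l 15))))) (by decide +kernel)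

theorem t2_3 : Cov (twoT 2) 70368744177664 140737488355328 140737488355328 281474976710656 0 0 :=
  .of (b (a (b (a (b (l 16) (l 16)) (b (l 16) (l 16))) (a (b (l 16) (l 16)) (b (l 16) (l 16)))) (b (a (l 20) (l 16)) (a (b (l 15) (l 15)) (l 16)))) (a (b (a (b (l 16) (l 16)) (b (l 15) (l 15))) (a (b (l 16) (l 15)) (b (l 15) (l 15)))) (b (a (l 16) (l 15)) (a (l 15) (l 15))))) (by decide +kernel)

theorem d32_0 : Cov (oneD 32) 0 281474976710656 (-9007199254740992) 9007199254740992 0 0 :=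
  .of (b (b (b (b (l 29) (l 29)) (b (l 22) (l 22))) (b (b (l 17) (l 13)) (b (l 10) (l 10)))) (b (b (b (l 10) (l 10)) (b (l 13) (l 17))) (b (b (l 17) (l 22)) (b (l 29) (l 29))))) (by decide +kernel)

theorem d44_0 : Cov (oneD 44) 0 281474976710656 (-9007199254740992) 9007199254740992 0 0 :=
  .of (b (b (b (b (l 22) (l 22)) (b (l 17) (l 17))) (b (b (l 13) (l 13)) (l 13))) (b (b (l 13) (b (l 13) (l 13))) (b (b (l 17) (l 17)) (b (l 22) (l 22))))) (by decide +kernel)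

theorem d56_0 : Cov (oneD 56) 0 281474976710656 (-9007199254740992) 9007199254740992 0 0 :=
  .of (b (b (b (b (l 22) (l 22)) (b (l 17) (l 17))) (b (l 17) (l 13))) (b (b (l 13) (l 17)) (b (l 22) (b (l 22) (l 22))))) (by decide +kernel)

end Crest.Agent.R086.NB.Run
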