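import Crest.Agent.R086.NB.Cov

/-! # Row 86, part N: kernel evaluation of the certificates -/

set_option Elab.async false

namespace Crest.Agent.R086.NB.Run

open T

theorem t0_1 : Cov (twoT 0) 0 140737488355328 140737488355328 281474976710656 0 0 :=
  .of (a (b (a (b (a (b (a (b (a (l 15) (l 15)) (a (l 15) (l 15))) (b (l 15) (l 15))) (a (b (a (l 15) (l 15)) (l 23)) (b (l 15) (l 15)))) (b (a (b (l 15) (l 15)) (b (l 12) (l 12))) (a (b (l 15) (l 15)) (b (l 12) (l 12))))) (a (b (a (b (l 15) (l 15)) (b (l 15) (l 15))) (a (b (l 15) (l 12)) (b (l 12) (l 12)))) (b (a (b (l 12) (l 12)) (b (l 12) (l 12))) (a (l 16) (l 16))))) (b (a (b (a (b (l 12) (l 12)) (l 15)) (a (b (l 12) (l 12)) (l 15))) (b (a (l 15) (l 12)) (a (l 15) (l 12)))) (a (b (a (l 16) (l 15)) (a (l 16) (l 12))) (b (a (l 12) (l 12)) (a (l 12) (l 12)))))) (a (b (a (b (a (l 16) (l 16)) (a (l 16) (l 16))) (b (a (l 16) (l 16)) (a (l 12) (l 12)))) (a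 (b (l 20) (l 16)) (b (l 16) (l 16)))) (b (a (b (a (l 12) (l 12)) (l 16)) (b (l 16) (l 12))) (a (b (l 16) (l 12)) (b (l 12) (l 12)))))) (b (a (b (a (b (a (l 12) (l 12)) (a (l 12) (l 12))) (b (l 12) (l 12))) (a (b (l 16) (l 16)) (b (l 12) (l 12)))) (b (a (b (l 12) (l 12)) (b (l 12) (l 12))) (a (b (l 12) (l 12)) (b (l 12) (l 12))))) (a (b (a (b (l 12) (l 12)) (b (l 12) (l 12))) (a (b (l 12) (l 12)) (l 16))) (b (a (l 16) (l 12)) (a (l 12) (l 12)))))) (by decide +kernel)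

theorem dP1_1 : Cov (oneD 1) 0 281474976710656 4996180836614144 9007199254740992 0 0 :=
  .of (b (b (b (b (l 37) (l 37)) (b (l 37) (l 37))) (b (b (a (l 29) (l 29)) (a (l 29) (l 29))) (b (a (l 29) (l 29)) (a (l 29) (l 29))))) (b (b (b (a (l 37) (l 29)) (a (l 37) (l 37))) (b (a (l 37) (l 37)) (a (l 37) (l 37)))) (b (b (a (l 37) (l 37)) (a (l 37) (l 37))) (b (a (l 37) (l 37)) (a (l 37) (l 37)))))) (by decide +kernel)

theorem d13_0 : Cov (oneD 13) 0 281474976710656 (-9007199254740992) 9007199254740992 0 0 :=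
  .of (b (b (b (b (b (l 37) (l 37)) (b (l 37) (l 29))) (b (b (l 29) (l 29)) (b (l 22) (l 29)))) (b (b (b (b (l 17) (l 13)) (b (l 13) (l 13))) (b (b (l 13) (l 10)) (b (l 10) (l 10)))) (b (b (b (l 10) (l 10)) (b (l 7) (l 7))) (b (b (l 7) (l 7)) (b (l 5) (l 5)))))) (b (b (b (b (l 7) (b (l 5) (l 7))) (b (b (l 7) (l 7)) (b (l 10) (l 10)))) (b (b (b (l 10) (l 10)) (l 22)) (b (l 22) (l 22)))) (b (b (b (l 22) (l 22)) (b (l 29) (l 29))) (b (b (l 29) (l 37)) (b (l 37) (l 37)))))) (by decide +kernel)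

theorem t0_3 : Cov (twoT 0) 0 281474976710656 281474976710656 562949953421312 0 0 :=
  .of (a (b (a (b (a (b (a (b (l 16) (l 16)) (b (l 16) (l 12))) (a (b (l 16) (l 16)) (l 16))) (b (a (b (l 12) (l 12)) (l 16)) (a (l 16) (l 16)))) (a (b (a (l 16) (l 16)) (a (l 16) (l 16))) (b (a (l 16) (l 12)) (l 16)))) (b (a (b (a (l 16) (l 12)) (a (l 12) (l 12))) (b (a (l 12) (l 12)) (l 16))) (a (b (l 16) (l 16)) (b (l 12) (l 12))))) (a (b (a (b (l 16) (l 16)) (b (l 16) (l 16))) (a (b (l 16) (l 16)) (b (l 16) (l 16)))) (b (a (b (l 16) (l 16)) (l 16)) (a (l 16) (l 16))))) (b (a (b (a (b (l 12) (l 12)) (b (l 12) (l 12))) (a (b (l 12) (l 12)) (l 16))) (b (a (b (l 12) (l 12)) (l 16)) (a (l 12) (l 12)))) (a (b (a (l 16) (l 12)) (a (l 16) (l 12))) (b (a (l 12) (l 12)) (l 16))))) (by decide +kernel)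

theorem d8_1 : Cov (oneD 8) 0 281474976710656 0 9007199254740992 0 0 :=
  .of (b (b (b (b (b (a (b (l 5) (l 5)) (l 5)) (a (l 5) (l 5))) (b (a (l 7) (l 5)) (a (l 7) (l 5)))) (b (b (a (l 7) (l 5)) (a (l 7) (l 7))) (b (a (l 10) (l 7)) (l 13)))) (b (b (b (l 13) (l 13)) (b (l 13) (l 17))) (b (b (l 17) (l 17)) (b (l 17) (l 22))))) (b (b (b (b (l 22) (l 22)) (b (l 22) (l 22))) (b (b (l 29) (l 29)) (b (l 29) (l 29)))) (b (b (b (l 29) (l 29)) (b (l 29) (l 37))) (b (b (l 37) (l 37)) (b (l 37) (l 37)))))) (by decide +kernel)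

theorem d21_0 : Cov (oneD 21) 0 281474976710656 (-9007199254740992) 9007199254740992 0 0 :=
  .of (b (b (b (b (b (l 29) (l 29)) (b (l 29) (l 22))) (b (b (l 22) (l 22)) (b (l 17) (l 17)))) (b (b (b (l 13) (l 13)) (b (l 13) (l 10))) (b (b (l 10) (l 10)) (b (l 7) (l 7))))) (b (b (b (l 10) (b (l 7) (l 10))) (b (b (l 10) (l 13)) (b (l 13) (l 13)))) (b (b (b (l 17) (l 17)) (b (l 22) (l 22))) (b (b (l 22) (l 29)) (b (l 29) (l 29)))))) (by decide +kernel)

theorem t1_12 : Cov (twoT 1) 0 562949953421312 562949953421312 1125899906842624 0 0 :=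
  .of (a (b (a (b (a (b (a (l 16) (l 16)) (l 20)) (b (l 16) (l 16))) (a (b (l 20) (l 20)) (b (l 16) (l 16)))) (b (a (b (l 16) (l 16)) (b (l 15) (l 15))) (a (b (l 16) (l 16)) (l 20)))) (a (b (a (b (l 16) (l 16)) (b (l 16) (l 16))) (a (b (l 20) (l 20)) (l 20))) (b (a (l 20) (l 16)) (a (l 20) (l 16))))) (b (a (b (a (l 15) (l 15)) (a (l 15) (l 15))) (b (l 15) (l 15))) (a (b (l 23) (l 23)) (b (l 15) (l 19))))) (by decide +kernel)

theorem d30_0 : Cov (oneD 30) 0 281474976710656 (-9007199254740992) 9007199254740992 0 0 :=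
  .of (b (b (b (b (l 29) (l 29)) (b (l 29) (l 22))) (b (b (l 17) (l 13)) (b (l 10) (l 10)))) (b (b (b (l 10) (l 10)) (b (l 13) (l 17))) (b (b (l 22) (l 22)) (b (l 29) (l 29))))) (by decide +kernel)

theorem d31_0 : Cov (oneD 31) 0 281474976710656 (-9007199254740992) 9007199254740992 0 0 :=
  .of (b (b (b (b (l 29) (l 29)) (b (l 22) (l 22))) (b (b (l 17) (l 13)) (b (l 10) (l 10)))) (b (b (b (l 10) (l 10)) (b (l 13) (l 17))) (b (b (l 17) (l 22)) (b (l 29) (l 29))))) (by decide +kernel)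

theorem d41_0 : Cov (oneD 41) 0 281474976710656 (-9007199254740992) 9007199254740992 0 0 :=
  .of (b (b (b (b (l 29) (l 22)) (b (l 17) (l 17))) (b (b (l 13) (l 13)) (l 13))) (b (b (l 13) (b (l 13) (l 13))) (b (b (l 17) (l 17)) (b (l 22) (l 22))))) (by decide +kernel)

theorem d54_0 : Cov (oneD 54) 0 281474976710656 (-9007199254740992) 9007199254740992 0 0 :=
  .of (b (b (b (b (l 22) (l 22)) (b (l 17) (l 17))) (b (l 17) (l 13))) (b (b (l 13) (l 17)) (b (l 22) (b (l 22) (l 22))))) (by decide +kernel)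

theorem qP_11 : Cov (oneB 281474976710656) 0 281474976710656 0 8796093022208 140737488355328 281474976710656 :=
  .of (c (a (c (b (l 22) (a (l 30) (l 22))) (b (l 22) (l 22))) (c (b (l 22) (l 22)) (b (l 22) (l 22)))) (a (c (b (l 22) (l 22)) (b (l 22) (l 22))) (c (l 22) (l 22)))) (by decide +kernel)

end Crest.Agent.R086.NB.Run
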