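import Crest.Agent.R086.NB.Cov

/-! # Row 86, part N: kernel evaluation of the certificates -/

set_option Elab.async false

namespace Crest.Agent.R086.NB.Run

open T

theorem qP_4 : Cov (oneB 281474976710656) 70368744177664 140737488355328 0 4398046511104 0 35184372088832 :=
  .of (c (b (a (c (b (l 22) (l 23)) (b (l 22) (l 23))) (c (b (l 22) (l 22)) (b (l 22) (l 22)))) (a (c (b (a (c (l 0) (b (a (c (b (l 22) (l 50)) (b (l 22) (l 50))) (c (b (l 22) (l 50)) (b (l 22) (l 23)))) (a (c (l 0) (l 51)) (c (l 0) (l 51))))) (c (l 0) (b (a (c (b (l 22) (l 23)) (b (l 22) (l 22))) (c (b (l 22) (l 22)) (b (l 22) (l 22)))) (a (c (l 0) (l 51)) (c (l 0) (l 51)))))) (a (c (l 0) (b (l 50) (l 0))) (c (l 0) (b (l 50) (l 0))))) (b (a (c (b (a (c (b (l 22) (l 50)) (b (l 22) (l 23))) (c (b (l 22) (l 23)) (b (l 22) (l 22)))) (l 51)) (b (l 51) (l 50))) (c (b (a (c (b (l 22) (l 22)) (b (l 22) (l 22))) (c (b (l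 22) (l 22)) (l 23))) (l 51)) (b (l 23) (l 50)))) (a (c (b (l 50) (l 50)) (b (l 50) (l 39))) (c (b (l 50) (l 50)) (b (l 50) (l 39)))))) (c (b (a (c (l 0) (b (a (c (b (l 22) (l 22)) (l 23)) (l 23)) (a (c (l 0) (l 51)) (l 51)))) (c (l 0) (b (l 23) (a (l 51) (l 51))))) (a (c (l 0) (b (l 50) (l 0))) (c (l 0) (b (l 50) (l 0))))) (b (a (c (b (l 23) (l 51)) (b (l 22) (l 50))) (c (b (l 22) (l 51)) (b (l 22) (l 50)))) (a (c (b (l 50) (l 50)) (b (l 50) (l 39))) (c (b (l 50) (l 50)) (b (l 50) (l 38)))))))) (b (a (c (b (l 22) (l 22)) (l 23)) (c (l 23) (l 23))) (a (c (b (a (c (b (l 23) (l 50)) (l 51)) (c (b (l 22) (l 39)) (l 51))) (a (c (l 51) (l 50)) (c (l 51) (l 50)))) (b (l 50) (l 39))) (c (b (a (c (b (l 22) (l 39)) (l 51)) (c (b (l 22) (l 39)) (l 51))) (a (c (b (l 38) (l 38)) (l 50)) (c (b (l 38) (l 38)) (l 50)))) (b (l 50) (l 39)))))) (by decide +kernel)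

theorem t2_0 : Cov (twoT 2) 0 140737488355328 0 140737488355328 0 0 :=
  .of (a (b (a (b (a (b (a (l 15) (l 15)) (a (l 15) (l 15))) (b (l 16) (l 16))) (a (b (a (l 15) (l 15)) (a (l 16) (l 15))) (b (a (l 15) (l 15)) (a (l 15) (l 15))))) (b (a (b (l 15) (l 15)) (b (l 15) (l 15))) (a (b (l 15) (l 16)) (b (l 15) (l 15))))) (a (b (a (b (a (l 16) (l 16)) (a (l 16) (l 16))) (b (a (l 16) (l 15)) (a (l 16) (l 16)))) (a (b (a (l 16) (l 16)) (a (l 16) (l 16))) (b (a (l 16) (l 16)) (a (l 16) (l 16))))) (b (a (b (l 16) (l 16)) (b (l 16) (l 16))) (a (b (l 16) (a (l 16) (l 16))) (b (l 16) (l 16)))))) (b (a (b (a (b (l 15) (l 15)) (l 19)) (a (b (l 15) (l 15)) (b (l 15) (l 15)))) (b (a (l 15) (l 15)) (a (l 15) (l 15)))) (a (b (a (b (l 15) (l 15)) (b (l 15) (l 15))) (a (b (l 16) (l 16)) (b (l 15) (l 15)))) (b (a (l 16) (l 15)) (a (l 16) (l 15)))))) (by decide +kernel)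

theorem dP2_1 : Cov (oneD 2) 0 281474976710656 4996180836614144 9007199254740992 0 0 :=
  .of (b (b (b (b (l 37) (l 37)) (b (l 37) (l 37))) (b (b (l 37) (l 37)) (b (a (l 29) (l 29)) (a (l 29) (l 29))))) (b (b (b (a (l 29) (l 29)) (a (l 29) (l 29))) (b (a (l 37) (l 29)) (a (l 37) (l 37)))) (b (b (a (l 37) (l 37)) (a (l 37) (l 37))) (b (a (l 37) (l 37)) (a (l 37) (l 37)))))) (by decide +kernel)

theorem qP_1 : Cov (oneB 281474976710656) 0 35184372088832 2199023255552 4398046511104 0 17592186044416 :=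
  .of (c (b (a (c (l 0) (b (a (c (b (a (c (b (l 50) (l 0)) (l 51)) (c (b (l 50) (l 0)) (l 51))) (l 50)) (b (l 51) (l 50))) (c (b (a (c (b (l 50) (l 0)) (l 51)) (c (l 51) (l 51))) (l 50)) (b (l 51) (l 50)))) (a (c (l 0) (l 51)) (c (l 0) (l 51))))) (c (l 0) (b (a (c (b (a (l 51) (l 51)) (l 50)) (b (l 51) (l 50))) (c (b (l 51) (l 50)) (b (l 51) (l 50)))) (a (c (l 0) (l 51)) (c (l 0) (l 51)))))) (a (c (l 0) (b (l 50) (l 0))) (c (l 0) (b (l 50) (l 0))))) (b (a (c (b (a (c (b (l 50) (l 50)) (b (l 50) (l 50))) (c (b (l 50) (l 50)) (b (l 50) (l 50)))) (l 51)) (b (a (l 52) (l 52)) (l 50))) (c (b (a (c (b (l 50) (l 50)) (b (l 50) (l 50))) (c (b (l 50) (l 50)) (b (l 50) (l 50)))) (l 51)) (b (l 52) (l 50)))) (a (c (b (l 50) (l 50)) (b (l 50) (l 50))) (c (b (l 50) (l 50)) (b (l 50) (l 50)))))) (by decide +kernel)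

theorem d7_0 : Cov (oneD 7) 0 281474976710656 (-9007199254740992) 0 0 0 :=
  .of (b (b (b (b (b (l 29) (l 29)) (b (l 29) (l 29))) (b (b (l 29) (l 29)) (b (l 29) (l 29)))) (b (b (l 37) (l 37)) (b (l 37) (l 29)))) (b (b (b (l 29) (l 29)) (b (b (l 13) (l 13)) (b (l 13) (l 13)))) (b (b (b (a (l 10) (l 10)) (a (b (l 7) (l 7)) (l 10))) (b (a (b (l 7) (l 7)) (l 10)) (a (b (l 7) (l 7)) (b (l 5) (l 5))))) (b (b (a (b (l 7) (l 7)) (b (l 5) (l 5))) (a (b (l 7) (l 7)) (b (l 5) (l 5)))) (b (a (b (l 7) (l 7)) (b (l 5) (l 3))) (a (b (l 5) (l 5)) (l 5))))))) (by decide +kernel)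

theorem d17_0 : Cov (oneD 17) 0 281474976710656 (-9007199254740992) 9007199254740992 0 0 :=
  .of (b (b (b (b (b (l 37) (l 29)) (b (l 29) (l 29))) (b (b (l 22) (l 22)) (b (l 22) (l 17)))) (b (b (b (l 17) (l 17)) (b (l 13) (l 13))) (b (b (l 10) (l 10)) (b (l 7) (l 7))))) (b (b (b (b (l 7) (l 7)) (b (l 10) (l 10))) (b (b (l 10) (l 13)) (b (l 13) (l 17)))) (b (b (b (l 17) (l 22)) (b (l 22) (l 22))) (b (b (l 29) (l 29)) (b (l 29) (l 37)))))) (by decide +kernel)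

theorem n0_1 : Cov (near0T 0) 35184372088832 70368744177664 (-70368744177664) 0 0 0 :=
  .of (b (a (b (a (l 3) (l 3)) (a (l 3) (l 3))) (b (a (l 3) (l 3)) (a (l 3) (l 3)))) (a (b (a (l 3) (l 3)) (a (l 3) (l 3))) (b (a (l 3) (l 3)) (a (l 3) (l 3))))) (by decide +kernel)

theorem d3_0 : Cov (oneD 3) 0 281474976710656 (-9007199254740992) (-4503599627370496) 0 0 :=
  .of (b (b (b (b (l 37) (l 37)) (b (l 29) (l 29))) (b (b (l 29) (l 29)) (b (l 29) (l 29)))) (b (b (b (l 29) (l 29)) (b (l 29) (l 22))) (b (b (l 22) (l 22)) (l 37)))) (by decide +kernel)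

theorem qA_0 : Cov oneA 0 281474976710656 0 8796093022208 (-281474976710656) 281474976710656 :=
  .of (c (c (c (a (c (b (l 5) (l 5)) (b (l 5) (l 7))) (c (l 5) (l 7))) (a (c (b (l 5) (l 7)) (b (l 5) (l 5))) (c (l 7) (l 5)))) (c (a (c (b (l 5) (l 5)) (b (l 5) (l 5))) (c (l 5) (l 5))) (a (c (b (l 5) (l 5)) (l 5)) (l 5)))) (c (c (a (c (l 5) (l 7)) (l 5)) (a (c (l 7) (b (l 5) (l 5))) (l 5))) (c (a (c (b (l 5) (l 5)) (b (l 5) (l 5))) (l 9)) (a (c (l 7) (l 7)) (l 7))))) (by decide +kernel)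

theorem d50_0 : Cov (oneD 50) 0 281474976710656 (-9007199254740992) 9007199254740992 0 0 :=
  .of (b (b (b (b (l 22) (l 22)) (b (l 17) (l 17))) (b (l 22) (l 13))) (b (b (l 13) (l 17)) (b (b (l 17) (l 17)) (b (l 22) (l 22))))) (by decide +kernel)

theorem t2_6 : Cov (twoT 2) 281474976710656 562949953421312 0 562949953421312 0 0 :=
  .of (b (a (b (a (b (l 15) (l 15)) (l 19)) (a (b (l 15) (l 15)) (l 15))) (b (l 15) (l 15))) (a (b (a (l 19) (l 15)) (a (l 15) (l 12))) (b (l 15) (l 15)))) (by decide +kernel)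

theorem m2_0 : Cov (matT f2) 94228252053519 94233881553054 925903491640401 925906306390169 0 0 :=
  .of (l 14) (by decide +kernel)

end Crest.Agent.R086.NB.Run
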