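import Crest.Agent.R086.NB.Cov

/-! # Row 86, part N: kernel evaluation of the certificates -/

set_option Elab.async false

namespace Crest.Agent.R086.NB.Run

open T

theorem d5_1 : Cov (oneD 5) 0 281474976710656 0 9007199254740992 0 0 :=
  .of (b (b (b (b (b (a (b (a (b (l 5) (l 5)) (l 5)) (a (l 5) (l 3))) (b (l 5) (l 3))) (a (b (a (l 5) (l 3)) (a (l 5) (l 5))) (b (l 3) (l 5)))) (b (a (b (a (l 5) (l 5)) (a (l 5) (l 5))) (b (l 5) (l 5))) (a (b (l 7) (l 7)) (b (l 5) (l 5))))) (b (b (a (b (l 7) (l 7)) (l 10)) (a (b (l 7) (l 7)) (l 10))) (b (a (b (l 7) (l 7)) (l 10)) (a (l 13) (l 10))))) (b (b (b (a (l 13) (l 10)) (a (l 13) (l 13))) (b (l 29) (l 22))) (b (b (l 22) (l 22)) (b (l 29) (l 29))))) (b (b (b (b (l 29) (l 29)) (b (l 29) (l 29))) (b (b (l 29) (l 37)) (b (l 37) (l 37)))) (b (b (b (l 37) (l 37)) (b (l 37) (l 37))) (b (b (a (l 29) (l 29)) (a (l 29) (l 29))) (b (a (l 37) (l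 37)) (a (l 37) (l 37))))))) (by decide +kernel)

theorem n0_2 : Cov (near0T 0) 0 35184372088832 0 70368744177664 0 0 :=
  .of (b (a (b (a (b (l 3) (l 3)) (b (l 3) (l 3))) (a (b (l 3) (l 3)) (b (l 3) (l 3)))) (b (a (b (l 3) (l 3)) (l 5)) (a (b (l 3) (l 3)) (l 7)))) (a (b (a (b (l 3) (l 3)) (b (l 3) (l 3))) (a (b (l 3) (l 3)) (b (l 3) (l 3)))) (b (a (b (l 3) (l 3)) (b (l 3) (l 3))) (a (b (l 3) (l 3)) (b (l 3) (l 3)))))) (by decide +kernel)

theorem d7_1 : Cov (oneD 7) 0 281474976710656 0 9007199254740992 0 0 :=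
  .of (b (b (b (b (b (a (b (l 5) (l 5)) (l 5)) (a (b (l 5) (l 5)) (l 5))) (b (a (b (l 5) (l 5)) (l 5)) (a (b (l 5) (l 5)) (l 5)))) (b (b (a (l 10) (l 7)) (a (l 10) (l 7))) (b (a (l 10) (l 7)) (a (l 10) (l 10))))) (b (b (b (l 17) (l 17)) (b (l 17) (l 17))) (b (b (l 17) (l 22)) (b (l 22) (l 22))))) (b (b (b (b (l 22) (l 22)) (b (l 29) (l 29))) (b (b (l 29) (l 29)) (b (l 29) (l 29)))) (b (b (b (l 29) (l 37)) (b (l 37) (l 37))) (b (b (l 37) (l 37)) (b (l 37) (l 37)))))) (by decide +kernel)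

theorem d6_0 : Cov (oneD 6) 0 281474976710656 (-9007199254740992) 0 0 0 :=
  .of (b (b (b (b (b (l 37) (l 29)) (b (l 29) (l 29))) (b (b (l 29) (l 29)) (b (l 29) (l 29)))) (b (b (b (l 29) (l 22)) (l 37)) (b (l 37) (l 37)))) (b (b (b (l 29) (l 29)) (b (l 22) (b (l 13) (l 13)))) (b (b (b (l 17) (a (b (l 7) (l 7)) (l 10))) (b (a (b (l 7) (l 7)) (b (l 5) (l 5))) (a (b (l 7) (l 7)) (b (l 5) (l 5))))) (b (b (a (b (a (l 5) (l 5)) (a (l 5) (l 5))) (b (l 5) (l 5))) (a (b (a (l 5) (l 5)) (a (l 5) (l 5))) (b (l 5) (l 5)))) (b (a (b (a (l 5) (l 5)) (a (l 5) (l 5))) (b (l 5) (l 5))) (a (b (a (l 5) (l 5)) (a (l 5) (l 3))) (b (l 3) (l 3)))))))) (by decide +kernel)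

theorem d9_1 : Cov (oneD 9) 0 281474976710656 0 9007199254740992 0 0 :=
  .of (b (b (b (b (b (a (l 5) (l 3)) (a (l 5) (l 5))) (b (a (l 5) (l 5)) (a (l 7) (l 5)))) (b (b (a (l 7) (l 5)) (l 10)) (b (l 10) (l 10)))) (b (b (b (l 13) (l 13)) (b (l 13) (l 13))) (b (b (l 17) (l 17)) (b (l 17) (l 17))))) (b (b (b (b (l 22) (l 22)) (b (l 22) (l 22))) (b (b (l 22) (l 29)) (b (l 29) (l 29)))) (b (b (b (l 29) (l 29)) (b (l 29) (l 29))) (b (b (l 37) (l 37)) (b (l 37) (l 37)))))) (by decide +kernel)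

theorem dP2_0 : Cov (oneD 2) 0 281474976710656 985162418487296 4996180836614144 0 0 :=
  .of (b (b (b (b (a (b (a (l 10) (l 7)) (a (l 7) (l 7))) (b (l 10) (l 7))) (a (b (a (l 7) (l 7)) (l 10)) (b (l 7) (l 7)))) (b (a (b (l 10) (l 10)) (b (l 7) (l 10))) (a (b (l 10) (l 10)) (l 17)))) (b (b (a (b (l 10) (l 10)) (l 17)) (a (l 22) (l 17))) (b (a (l 17) (l 17)) (a (l 17) (l 17))))) (b (b (b (a (l 17) (l 17)) (a (l 22) (l 17))) (b (l 29) (l 29))) (b (b (l 29) (l 37)) (b (l 37) (l 37))))) (by decide +kernel)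

theorem qP_0 : Cov (oneB 281474976710656) 0 70368744177664 0 2199023255552 0 17592186044416 :=
  .of (a (c (b (l 22) (a (c (b (l 22) (a (c (l 0) (b (l 22) (l 0))) (c (l 0) (b (l 22) (l 0))))) (b (l 22) (a (c (b (l 22) (a (c (b (l 22) (l 23)) (b (l 22) (l 23))) (c (b (l 22) (l 22)) (b (l 22) (l 22))))) (b (l 22) (a (c (b (l 22) (l 22)) (b (l 22) (l 22))) (c (b (l 22) (l 22)) (l 23))))) (c (b (l 22) (l 23)) (b (l 22) (l 23)))))) (c (b (l 22) (a (c (l 0) (b (l 22) (l 0))) (l 23))) (b (l 22) (a (c (b (l 22) (l 22)) (b (l 22) (l 22))) (l 23)))))) (b (l 22) (a (c (b (l 22) (a (c (b (l 22) (l 31)) (b (l 22) (l 23))) (c (b (l 22) (l 22)) (b (l 22) (l 22))))) (b (l 22) (a (c (b (l 22) (l 22)) (b (l 22) (l 22))) (c (l 23) (l 23))))) (c (b (l 22) (a (c (l 23) (l 23)) (l 23))) (b (l 22) (l 23)))))) (c (b (l 22) (a (c (b (l 22) (l 23)) (b (l 22) (l 23))) (c (b (l 22) (l 22)) (b (l 22) (l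 22))))) (b (l 22) (a (c (b (l 22) (l 22)) (b (l 22) (l 22))) (c (l 23) (l 23)))))) (by decide +kernel)

theorem qP_6 : Cov (oneB 281474976710656) 0 140737488355328 0 8796093022208 35184372088832 70368744177664 :=
  .of (b (a (c (b (a (c (b (l 22) (l 22)) (l 23)) (c (l 23) (l 23))) (a (c (b (l 31) (l 38)) (l 39)) (c (b (l 31) (l 31)) (l 39)))) (b (l 23) (l 38))) (c (b (l 23) (a (c (b (l 30) (l 31)) (l 39)) (c (b (l 22) (l 30)) (l 38)))) (b (l 22) (l 31)))) (a (c (b (a (c (l 39) (l 38)) (c (l 39) (l 31))) (a (c (l 31) (l 30)) (c (l 31) (l 30)))) (b (l 31) (l 30))) (c (b (a (c (l 39) (l 31)) (c (l 39) (l 31))) (a (c (l 31) (l 30)) (c (l 31) (l 30)))) (b (l 30) (l 30))))) (by decide +kernel)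

theorem d35_0 : Cov (oneD 35) 0 281474976710656 (-9007199254740992) 9007199254740992 0 0 :=
  .of (b (b (b (b (l 29) (l 22)) (b (l 22) (l 17))) (b (b (l 17) (l 13)) (b (l 10) (l 10)))) (b (b (l 13) (b (l 13) (l 13))) (b (b (l 17) (l 22)) (b (l 22) (l 29))))) (by decide +kernel)

theorem d43_0 : Cov (oneD 43) 0 281474976710656 (-9007199254740992) 9007199254740992 0 0 :=
  .of (b (b (b (b (l 22) (l 22)) (b (l 17) (l 17))) (b (b (l 13) (l 13)) (l 13))) (b (b (l 13) (b (l 13) (l 13))) (b (b (l 17) (l 17)) (b (l 22) (l 22))))) (by decide +kernel)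

theorem d53_0 : Cov (oneD 53) 0 281474976710656 (-9007199254740992) 9007199254740992 0 0 :=
  .of (b (b (b (b (l 22) (l 22)) (b (l 17) (l 17))) (b (l 17) (l 13))) (b (b (l 13) (l 17)) (b (l 29) (b (l 22) (l 22))))) (by decide +kernel)

end Crest.Agent.R086.NB.Run
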