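import Crest.Agent.R086.NB.Cov

/-! # Row 86, part N: kernel evaluation of the certificates -/

set_option Elab.async false

namespace Crest.Agent.R086.NB.Run

open T

theorem d3_1 : Cov (oneD 3) 0 281474976710656 (-4503599627370496) 0 0 0 :=
  .of (b (b (b (l 37) (l 37)) (b (l 29) (l 29))) (b (b (b (l 13) (l 10)) (b (l 10) (a (b (l 5) (l 5)) (l 7)))) (b (b (a (b (l 7) (a (b (l 5) (l 5)) (l 7))) (b (l 5) (l 5))) (a (b (a (b (a (l 5) (l 5)) (a (b (l 5) (l 5)) (l 7))) (b (l 5) (l 5))) (a (b (a (b (l 7) (a (l 5) (l 5))) (b (l 5) (l 5))) (a (b (a (l 7) (l 5)) (a (l 10) (l 5))) (b (l 5) (l 5)))) (b (a (l 5) (l 5)) (a (b (l 3) (l 5)) (l 5))))) (b (a (b (l 3) (l 3)) (l 5)) (a (b (l 3) (l 5)) (b (l 3) (l 3)))))) (b (a (b (a (b (a (b (a (b (l 5) (l 5)) (l 5)) (a (b (l 5) (l 5)) (l 5))) (b (l 5) (l 5))) (a (b (a (b (l 5) (l 5)) (l 5)) (a (l 7) (l 5))) (b (l 5) (l 5)))) (b (a (b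 (l 5) (l 5)) (l 5)) (a (b (l 5) (l 3)) (b (l 3) (l 3))))) (a (b (a (b (a (l 5) (l 5)) (a (l 5) (l 5))) (b (l 5) (l 5))) (a (b (a (l 5) (l 5)) (a (l 5) (l 3))) (b (l 5) (l 5)))) (b (a (b (l 3) (l 3)) (b (l 3) (l 3))) (a (b (l 3) (l 3)) (b (l 3) (l 3)))))) (b (a (b (l 7) (a (l 3) (l 3))) (b (l 3) (l 3))) (a (b (a (l 3) (l 3)) (a (l 3) (l 3))) (b (l 3) (l 3))))) (a (b (a (b (a (b (a (l 5) (l 3)) (a (l 5) (l 3))) (b (l 5) (l 5))) (a (b (a (l 5) (l 3)) (a (l 3) (l 3))) (b (l 5) (l 3)))) (b (a (b (l 3) (l 3)) (l 5)) (a (b (l 3) (l 3)) (l 5)))) (a (b (a (b (a (l 3) (l 3)) (a (l 3) (l 3))) (b (l 3) (l 3))) (a (b (a (l 3) (l 3)) (l 5)) (b (l 3) (l 3)))) (b (a (b (l 3) (l 3)) (l 3)) (a (b (l 3) (l 3)) (l 3))))) (b (a (b (a (l 3) (l 3)) (a (l 3) (l 3))) (b (l 3) (l 3))) (a (b (a (l 3) (l 3)) (l 3)) (b (l 3) (l 3))))))))) (by decide +kernel)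

theorem n0_0 : Cov (near0T 0) 0 35184372088832 (-70368744177664) 0 0 0 :=
  .of (b (a (b (a (b (l 3) (l 3)) (b (l 3) (l 3))) (a (b (l 3) (l 3)) (b (l 3) (l 3)))) (b (a (b (l 3) (l 3)) (b (l 3) (l 3))) (a (b (l 3) (l 3)) (b (l 3) (l 3))))) (a (b (a (b (l 3) (l 3)) (b (l 3) (l 3))) (a (b (l 3) (l 3)) (b (l 3) (l 3)))) (b (a (b (l 3) (l 3)) (l 7)) (a (b (l 3) (l 3)) (l 5))))) (by decide +kernel)

theorem dP0_0 : Cov (oneD 0) 0 281474976710656 985162418487296 4996180836614144 0 0 :=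
  .of (b (b (b (b (a (b (a (b (l 7) (l 7)) (b (l 7) (l 5))) (a (b (l 7) (l 7)) (l 10))) (b (a (l 10) (l 7)) (a (l 7) (l 7)))) (a (b (a (l 13) (l 10)) (a (l 10) (l 10))) (b (a (l 7) (l 7)) (l 13)))) (b (a (b (a (l 10) (l 10)) (l 17)) (b (l 10) (l 10))) (a (b (l 13) (l 13)) (b (l 10) (l 13))))) (b (b (a (b (l 13) (l 13)) (b (l 13) (l 13))) (a (b (l 13) (l 13)) (l 22))) (b (a (b (l 13) (l 13)) (l 22)) (a (l 22) (l 22))))) (b (b (b (a (l 22) (l 22)) (a (l 22) (l 22))) (b (a (l 22) (l 22)) (a (l 22) (l 22)))) (b (b (l 37) (l 37)) (b (l 37) (l 37))))) (by decide +kernel)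

theorem qP_8 : Cov (oneB 281474976710656) 140737488355328 281474976710656 4398046511104 8796093022208 0 35184372088832 :=
  .of (a (c (b (a (c (l 0) (b (a (c (b (l 38) (l 38)) (b (l 38) (l 38))) (c (b (l 38) (l 38)) (b (l 38) (l 38)))) (a (l 50) (l 50)))) (c (l 0) (b (a (c (b (l 38) (l 38)) (b (l 38) (l 38))) (c (b (l 38) (l 38)) (b (l 38) (l 38)))) (a (l 50) (l 50))))) (a (c (l 0) (b (l 38) (l 0))) (c (l 0) (b (l 38) (l 0))))) (b (a (c (b (l 50) (l 38)) (b (l 38) (l 31))) (c (b (l 50) (l 38)) (b (l 38) (l 31)))) (a (c (b (l 38) (l 30)) (b (l 30) (l 30))) (c (b (l 31) (l 30)) (b (l 30) (l 30)))))) (c (b (a (c (l 0) (b (a (c (b (l 38) (l 38)) (b (l 38) (l 38))) (c (b (l 38) (l 38)) (b (l 38) (l 31)))) (a (l 50) (l 50)))) (c (l 0) (b (a (c (b (l 38) (l 38)) (b (l 38) (l 31))) (c (b (l 38) (l 38)) (b (l 38) (l 31)))) (a (c (l 0) (l 38)) (c (l 0) (l 38)))))) (a (c (l 0)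 (b (l 38) (l 0))) (c (l 0) (b (a (l 38) (l 38)) (l 0))))) (b (a (c (b (l 39) (l 38)) (b (l 38) (l 30))) (c (b (l 39) (l 38)) (b (l 31) (l 30)))) (a (c (b (l 31) (l 30)) (b (l 30) (l 30))) (c (b (l 30) (l 30)) (b (l 30) (l 30))))))) (by decide +kernel)

theorem t1_1 : Cov (twoT 1) 0 17592186044416 17592186044416 35184372088832 0 0 :=
  .of (a (b (a (b (a (b (l 16) (l 16)) (b (l 16) (l 16))) (a (b (l 16) (l 16)) (b (l 16) (l 16)))) (b (a (b (l 16) (l 16)) (b (l 16) (l 16))) (a (b (l 16) (l 16)) (b (l 16) (l 15))))) (a (b (a (b (l 16) (l 16)) (b (l 16) (l 16))) (a (b (l 16) (l 15)) (b (l 15) (l 15)))) (b (a (b (l 16) (l 15)) (b (l 15) (l 15))) (a (b (l 15) (l 15)) (b (l 15) (l 15)))))) (b (a (b (a (b (l 16) (l 15)) (b (l 15) (l 15))) (a (b (l 15) (l 15)) (b (l 15) (l 15)))) (b (a (b (l 15) (l 15)) (l 20)) (a (l 20) (l 16)))) (a (b (a (b (l 15) (l 15)) (l 20)) (a (l 20)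 (l 16))) (b (a (l 16) (l 16)) (a (l 16) (l 16)))))) (by decide +kernel)

theorem d20_0 : Cov (oneD 20) 0 281474976710656 (-9007199254740992) 9007199254740992 0 0 :=
  .of (b (b (b (b (b (l 29) (l 29)) (b (l 29) (l 22))) (b (b (l 22) (l 22)) (b (l 17) (l 17)))) (b (b (b (l 17) (l 13)) (b (l 13) (l 10))) (b (b (l 10) (l 10)) (b (l 7) (l 7))))) (b (b (b (l 10) (b (l 7) (l 10))) (b (b (l 10) (l 13)) (b (l 13) (l 17)))) (b (b (b (l 17) (l 17)) (b (l 22) (l 22))) (b (b (l 22) (l 29)) (b (l 29) (l 29)))))) (by decide +kernel)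

theorem t2_1 : Cov (twoT 2) 0 70368744177664 140737488355328 211106232532992 0 0 :=
  .of (a (b (a (b (a (b (l 16) (l 16)) (l 16)) (a (b (l 16) (l 16)) (b (l 16) (l 16)))) (b (a (l 16) (l 16)) (a (l 16) (l 16)))) (a (b (a (b (l 16) (l 16)) (b (l 16) (l 16))) (a (b (l 16) (l 16)) (b (l 16) (l 16)))) (b (a (b (l 16) (l 16)) (l 16)) (a (b (l 16) (l 16)) (b (l 16) (l 16)))))) (b (a (b (a (l 16) (l 16)) (a (l 16) (l 16))) (b (l 16) (l 16))) (a (b (a (l 16) (l 16)) (a (l 16) (l 16))) (b (l 20) (a (l 16) (l 16)))))) (by decide +kernel)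

theorem t2_4 : Cov (twoT 2) 140737488355328 281474976710656 0 281474976710656 0 0 :=
  .of (b (a (b (a (b (l 15) (l 19)) (b (l 12) (l 12))) (a (b (a (l 12) (l 12)) (a (l 15) (l 12))) (b (l 12) (l 12)))) (b (a (l 15) (l 12)) (a (b (l 12) (l 12)) (l 12)))) (a (b (a (b (a (l 15) (l 12)) (a (l 15) (l 12))) (b (l 15) (l 15))) (a (b (l 15) (l 15)) (b (l 15) (l 12)))) (b (a (l 15) (l 15)) (a (l 15) (l 12))))) (by decide +kernel)

theorem d33_0 : Cov (oneD 33) 0 281474976710656 (-9007199254740992) 9007199254740992 0 0 :=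
  .of (b (b (b (b (l 29) (l 29)) (b (l 22) (l 17))) (b (b (l 17) (l 13)) (b (l 10) (l 10)))) (b (b (b (l 10) (l 10)) (b (l 13) (l 17))) (b (b (l 17) (l 22)) (b (l 22) (l 29))))) (by decide +kernel)

theorem d42_0 : Cov (oneD 42) 0 281474976710656 (-9007199254740992) 9007199254740992 0 0 :=
  .of (b (b (b (b (l 22) (l 22)) (b (l 17) (l 17))) (b (b (l 13) (l 13)) (l 13))) (b (b (l 13) (b (l 13) (l 13))) (b (b (l 17) (l 17)) (b (l 22) (l 22))))) (by decide +kernel)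

theorem d52_0 : Cov (oneD 52) 0 281474976710656 (-9007199254740992) 9007199254740992 0 0 :=
  .of (b (b (b (b (l 22) (l 22)) (b (l 17) (l 17))) (b (l 17) (l 13))) (b (b (l 13) (l 17)) (b (b (l 17) (l 17)) (b (l 22) (l 22))))) (by decide +kernel)

end Crest.Agent.R086.NB.Run
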