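import Crest.Agent.R086.NB.Cov

/-! # Row 86, part N: kernel evaluation of the certificates -/

set_option Elab.async false

namespace Crest.Agent.R086.NB.Run

open T

theorem d10_0 : Cov (oneD 10) 0 281474976710656 (-9007199254740992) 9007199254740992 0 0 :=
  .of (b (b (b (b (b (b (l 29) (l 29)) (l 37)) (b (l 37) (l 37))) (b (b (l 37) (l 29)) (b (l 29) (l 29)))) (b (b (b (b (l 17) (l 17)) (b (l 13) (l 13))) (b (b (l 13) (l 13)) (b (l 13) (l 13)))) (b (b (b (l 13) (a (l 10) (l 7))) (b (a (l 7) (l 7)) (a (l 7) (l 5)))) (b (b (a (l 7) (l 5)) (a (l 7) (l 5))) (b (a (l 5) (l 5)) (a (l 5) (l 5))))))) (b (b (b (b (b (l 7) (l 7)) (b (l 7) (l 7))) (b (b (l 10) (l 10)) (b (l 10) (l 10)))) (b (b (b (l 10) (l 13)) (b (l 13) (l 13))) (b (b (l 13) (l 17)) (b (l 17) (l 17))))) (b (b (b (b (l 17) (l 22)) (l 37)) (b (l 37) (l 37))) (b (b (l 37) (b (l 29) (l 29))) (b (b (l 29) (l 29)) (b (l 37) (l 37))))))) (by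 decide +kernel)

theorem d6_1 : Cov (oneD 6) 0 281474976710656 0 9007199254740992 0 0 :=
  .of (b (b (b (b (b (a (b (a (l 5) (l 3)) (a (l 5) (l 3))) (b (l 3) (l 3))) (a (b (l 5) (l 5)) (l 5))) (b (a (b (l 5) (l 5)) (l 5)) (a (b (l 5) (l 7)) (l 7)))) (b (b (a (b (l 7) (l 7)) (l 7)) (a (b (l 7) (l 7)) (l 7))) (b (a (l 10) (l 10)) (a (l 10) (l 10))))) (b (b (b (a (l 13) (l 10)) (l 22)) (b (l 22) (l 22))) (b (b (l 22) (l 22)) (b (l 22) (l 22))))) (b (b (b (b (l 29) (l 29)) (b (l 29) (l 29))) (b (b (l 29) (l 29)) (b (l 29) (l 37)))) (b (b (b (l 37) (l 37)) (b (l 37) (l 37))) (b (b (l 37) (l 37)) (b (a (l 29) (l 29)) (a (l 37) (l 29))))))) (by decide +kernel)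

theorem t1_0 : Cov (twoT 1) 0 17592186044416 0 17592186044416 0 0 :=
  .of (a (b (a (b (a (b (l 16) (l 16)) (b (l 16) (l 16))) (a (b (l 16) (l 16)) (b (l 16) (l 16)))) (b (a (b (l 16) (l 16)) (b (l 16) (l 16))) (a (b (l 16) (l 16)) (b (l 16) (l 16))))) (a (b (a (b (l 16) (l 16)) (b (l 16) (l 16))) (a (b (l 16) (l 16)) (b (l 16) (l 16)))) (b (a (b (l 16) (l 16)) (b (l 16) (l 16))) (a (b (l 16) (l 16)) (b (l 16) (l 16)))))) (b (a (b (a (b (l 16) (l 16)) (b (l 16) (l 16))) (a (b (l 16) (l 16)) (b (l 16) (l 16)))) (b (a (b (l 15) (l 15)) (b (l 15) (l 15))) (a (b (l 15) (l 15)) (b (l 15) (l 15))))) (a (b (a (b (l 16) (l 16)) (b (l 16) (l 16))) (a (b (l 16) (l 16)) (b (l 16) (l 15)))) (b (a (b (l 15) (l 15)) (b (l 15) (l 15))) (a (b (l 15) (l 15)) (b (l 15) (l 15))))))) (by decide +kernel)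

theorem t1_5 : Cov (twoT 1) 35184372088832 70368744177664 35184372088832 70368744177664 0 0 :=
  .of (a (b (a (b (a (b (l 16) (l 16)) (b (l 16) (l 16))) (a (b (l 16) (l 15)) (b (l 15) (l 15)))) (b (a (b (l 16) (l 16)) (b (l 16) (l 15))) (a (b (l 15) (l 15)) (b (l 15) (l 15))))) (a (b (a (b (l 15) (l 15)) (b (l 15) (l 15))) (a (b (l 15) (l 15)) (b (l 15) (l 15)))) (b (a (b (l 15) (l 15)) (b (l 15) (l 15))) (a (l 24) (l 16))))) (b (a (b (a (b (l 15) (l 15)) (b (l 15) (l 15))) (a (b (l 15) (l 15)) (b (l 15) (l 15)))) (b (a (b (l 15) (l 15)) (b (l 15) (l 15))) (a (b (l 15) (l 15)) (b (l 15) (l 15))))) (a (b (a (b (l 15) (l 15)) (b (l 15) (l 15))) (a (l 16) (l 16))) (b (a (b (l 15) (l 15)) (b (l 15) (l 15))) (a (l 16) (l 16)))))) (by decide +kernel)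

theorem t1_7 : Cov (twoT 1) 70368744177664 140737488355328 0 140737488355328 0 0 :=
  .of (b (l 2) (a (b (a (b (a (b (a (l 15) (l 15)) (a (l 15) (l 15))) (b (a (l 15) (l 15)) (l 16))) (a (b (l 15) (l 15)) (b (l 15) (l 15)))) (b (a (b (a (l 15) (l 15)) (l 16)) (b (a (l 15) (l 15)) (l 15))) (a (b (l 15) (l 15)) (b (l 15) (l 15))))) (a (b (a (b (l 15) (l 15)) (b (l 15) (l 12))) (a (l 16) (l 15))) (b (a (b (l 15) (l 12)) (b (l 12) (l 12))) (a (l 15) (l 15))))) (b (a (b (a (b (a (l 15) (l 15)) (l 15)) (b (l 16) (l 15))) (a (b (l 15) (l 12)) (b (l 15) (l 12)))) (b (a (b (l 16) (l 15)) (b (l 15) (l 15))) (a (b (l 12) (l 12)) (b (l 12) (l 12))))) (a (b (a (l 16) (l 15)) (a (l 15) (l 12))) (b (a (l 15) (l 15)) (a (l 12) (l 12))))))) (by decide +kernel)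

theorem d18_0 : Cov (oneD 18) 0 281474976710656 (-9007199254740992) 9007199254740992 0 0 :=
  .of (b (b (b (b (b (l 29) (l 29)) (b (l 29) (l 29))) (b (b (l 22) (l 22)) (b (l 22) (l 17)))) (b (b (b (l 17) (l 13)) (b (l 13) (l 13))) (b (b (l 10) (l 10)) (b (l 7) (l 7))))) (b (b (b (b (l 7) (l 7)) (b (l 7) (l 10))) (b (b (l 10) (l 13)) (b (l 13) (l 17)))) (b (b (b (l 17) (l 22)) (b (l 22) (l 22))) (b (b (l 29) (l 29)) (b (l 29) (l 29)))))) (by decide +kernel)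

theorem d24_0 : Cov (oneD 24) 0 281474976710656 (-9007199254740992) 9007199254740992 0 0 :=
  .of (b (b (b (b (b (l 29) (l 29)) (b (l 22) (l 22))) (b (b (l 22) (l 17)) (b (l 17) (l 17)))) (b (b (b (l 13) (l 13)) (b (l 10) (l 10))) (b (b (l 10) (l 7)) (l 10)))) (b (b (b (l 7) (l 13)) (b (b (l 10) (l 10)) (b (l 13) (l 13)))) (b (b (b (l 17) (l 17)) (b (l 17) (l 22))) (b (b (l 22) (l 22)) (b (l 22) (l 29)))))) (by decide +kernel)

theorem d26_0 : Cov (oneD 26) 0 281474976710656 (-9007199254740992) 9007199254740992 0 0 :=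
  .of (b (b (b (b (b (l 29) (l 22)) (b (l 22) (l 22))) (b (b (l 17) (l 17)) (b (l 17) (l 13)))) (b (b (b (l 13) (l 13)) (b (l 10) (l 10))) (b (l 13) (l 10)))) (b (b (b (l 7) (l 10)) (b (l 17) (b (l 13) (l 13)))) (b (b (b (l 13) (l 17)) (b (l 17) (l 17))) (b (l 37) (l 37))))) (by decide +kernel)

theorem qP_9 : Cov (oneB 281474976710656) 140737488355328 281474976710656 0 8796093022208 35184372088832 70368744177664 :=
  .of (b (a (c (b (l 22) (a (c (b (l 22) (l 30)) (l 31)) (c (b (l 22) (l 23)) (l 31)))) (b (l 22) (l 23))) (c (b (l 22) (a (c (b (l 22) (l 22)) (l 23)) (c (b (l 22) (l 22)) (l 23)))) (b (l 22) (l 22)))) (a (c (b (a (c (l 39) (l 31)) (c (l 39) (l 30))) (a (l 31) (l 31))) (b (l 30) (l 30))) (c (b (a (c (l 39) (l 30)) (c (l 39) (l 30))) (a (l 31) (l 31))) (b (l 23) (l 23))))) (by decide +kernel)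

theorem d51_0 : Cov (oneD 51) 0 281474976710656 (-9007199254740992) 9007199254740992 0 0 :=
  .of (b (b (b (b (l 22) (l 22)) (b (l 17) (l 17))) (b (l 17) (l 13))) (b (b (l 13) (l 17)) (b (b (l 17) (l 17)) (b (l 22) (l 22))))) (by decide +kernel)

theorem t1_13 : Cov (twoT 1) 562949953421312 1125899906842624 0 1125899906842624 0 0 :=
  .of (b (a (b (a (b (l 11) (l 11)) (l 11)) (a (l 15) (l 11))) (b (l 11) (l 15))) (a (b (a (l 15) (l 15)) (a (l 19) (l 19))) (b (l 19) (l 29)))) (by decide +kernel)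

end Crest.Agent.R086.NB.Run
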