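import Crest.Agent.R086.NB.Cov

/-! # Row 86, part N: kernel evaluation of the certificates -/

set_option Elab.async false

namespace Crest.Agent.R086.NB.Run

open T

theorem d4_0 : Cov (oneD 4) 0 281474976710656 (-9007199254740992) 0 0 0 :=
  .of (b (b (b (b (b (l 37) (l 29)) (b (l 29) (l 29))) (b (b (l 29) (l 29)) (b (l 29) (l 29)))) (b (b (b (l 29) (l 29)) (b (l 22) (l 22))) (b (l 37) (l 37)))) (b (b (b (l 37) (l 29)) (b (l 29) (l 29))) (b (b (b (l 10) (l 10)) (b (a (l 10) (l 7)) (a (b (l 7) (a (l 5) (l 5))) (b (l 5) (l 5))))) (b (b (a (b (a (b (l 5) (l 5)) (l 5)) (a (b (l 5) (l 5)) (b (l 5) (l 5)))) (b (l 5) (a (l 5) (l 5)))) (a (b (a (b (l 7) (a (l 5) (l 5))) (b (l 5) (l 5))) (a (b (a (l 5) (l 5)) (a (l 5) (l 5))) (b (l 5) (l 5)))) (b (a (l 7) (l 5)) (a (b (l 3) (l 3)) (l 5))))) (b (a (b (a (b (a (l 5) (l 5)) (a (l 5) (l 5))) (b (l 5) (l 5))) (a (b (a (l 5) (l 5)) (a (l 5)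 (l 5))) (b (l 5) (l 5)))) (b (a (b (l 3) (l 3)) (l 3)) (a (b (l 3) (l 3)) (l 3)))) (a (b (a (b (a (l 5) (l 5)) (a (l 5) (l 3))) (b (l 5) (l 5))) (a (b (a (l 5) (l 3)) (a (l 5) (l 3))) (b (l 3) (l 3)))) (b (a (b (l 3) (l 3)) (l 3)) (a (b (l 3) (l 3)) (l 3))))))))) (by decide +kernel)

theorem qM_0 : Cov (oneB (-281474976710656)) 0 281474976710656 0 8796093022208 0 140737488355328 :=
  .of (c (a (c (b (l 23) (l 23)) (b (a (c (l 23) (b (l 22) (l 22))) (c (l 23) (b (l 22) (l 22)))) (a (c (l 23) (l 23)) (c (l 23) (l 23))))) (c (b (l 23) (l 23)) (b (a (c (l 23) (l 23)) (c (l 23) (l 23))) (a (c (l 23) (l 23)) (c (l 23) (l 23)))))) (a (c (b (a (c (b (l 22) (l 22)) (b (l 22) (l 22))) (c (b (l 22) (l 22)) (b (l 22) (l 22)))) (a (c (b (l 22) (l 23)) (b (a (c (l 22) (l 22)) (c (l 22) (l 22))) (a (c (l 22) (l 23)) (c (l 22) (l 23))))) (c (b (l 22) (l 23)) (b (l 23) (a (c (l 22) (l 23)) (c (l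 22) (l 23))))))) (b (a (c (b (l 22) (l 23)) (l 38)) (c (b (l 22) (l 22)) (l 31))) (a (c (b (a (c (l 22) (l 23)) (c (l 22) (l 22))) (a (c (b (l 22) (l 22)) (b (l 22) (l 22))) (c (l 23) (b (l 22) (l 22))))) (b (a (l 38) (l 38)) (a (c (b (l 22) (l 22)) (b (l 22) (l 22))) (c (b (l 22) (l 22)) (l 38))))) (c (b (a (c (l 22) (l 22)) (c (l 22) (l 22))) (a (c (l 23) (b (l 22) (l 22))) (c (l 23) (l 23)))) (b (l 38) (a (c (b (l 22) (l 22)) (l 38)) (c (b (l 22) (l 22)) (l 23)))))))) (c (b (a (c (b (l 22) (l 22)) (b (l 22) (l 22))) (c (b (l 22) (l 22)) (b (l 22) (l 22)))) (a (c (b (l 23) (l 23)) (b (l 23) (a (c (l 22) (l 23)) (c (l 22) (l 23))))) (c (b (l 23) (l 23)) (b (l 23) (a (c (l 22) (l 23)) (c (l 23) (l 23))))))) (b (a (c (b (l 22) (l 22)) (l 30)) (c (b (l 22) (l 22)) (l 22))) (a (c (b (a (c (l 22) (l 22)) (l 23)) (a (c (l 23) (l 23)) (c (l 23) (l 23)))) (b (l 23) (a (c (l 23) (l 22))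 (c (l 22) (l 22))))) (c (b (l 23) (a (c (l 23) (l 22)) (c (l 22) (l 22)))) (b (l 22) (a (c (l 22) (l 22)) (c (l 22) (l 22)))))))))) (by decide +kernel)

theorem t2_2 : Cov (twoT 2) 0 70368744177664 211106232532992 281474976710656 0 0 :=
  .of (a (b (a (b (a (b (a (l 16) (l 16)) (a (l 16) (l 16))) (b (l 16) (l 20))) (a (b (a (l 20) (l 16)) (a (b (l 16) (l 16)) (l 16))) (b (a (l 16) (l 16)) (a (l 16) (l 16))))) (b (a (b (l 16) (l 16)) (b (l 16) (l 16))) (a (b (l 16) (l 16)) (b (l 16) (l 16))))) (a (b (a (b (a (b (l 16) (l 16)) (l 19)) (a (l 23) (l 19))) (b (a (l 16) (l 16)) (a (l 16) (l 16)))) (a (b (a (l 19) (l 16)) (a (l 19) (l 16))) (b (l 19) (l 19)))) (b (a (b (l 16) (l 16)) (b (l 16) (l 16))) (a (b (l 16) (l 16)) (b (l 16) (l 16)))))) (b (a (b (a (l 20) (l 16)) (a (b (l 16) (l 16)) (l 16))) (b (a (l 16) (l 16)) (a (l 16) (l 16)))) (a (b (a (l 20) (l 16)) (a (l 16) (l 16))) (b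 (l 20) (l 16))))) (by decide +kernel)

theorem m4_1 : Cov (matT f4) 94233881553053 94233881553054 925889417891566 925906306390169 0 0 :=
  .of (b (b (b (b (b (b (l 14) (l 14)) (b (l 14) (l 14))) (b (b (l 14) (l 14)) (b (l 14) (l 14)))) (b (b (b (l 14) (l 14)) (b (l 14) (l 14))) (b (b (l 14) (l 14)) (b (l 14) (l 14))))) (b (b (b (b (l 14) (l 14)) (b (l 14) (l 14))) (b (b (l 14) (l 14)) (b (l 14) (l 14)))) (b (b (b (l 14) (l 14)) (b (l 14) (l 14))) (b (b (l 14) (l 14)) (b (l 14) (l 14)))))) (b (b (b (b (b (l 14) (l 14)) (b (l 14) (l 14))) (b (b (l 14) (l 14)) (b (l 14) (l 14)))) (b (b (b (l 14) (l 14)) (b (l 14) (l 14))) (b (b (l 14) (l 14)) (b (l 14) (l 14))))) (b (b (b (b (l 14) (l 14)) (b (l 14) (l 14))) (b (b (l 14) (l 14)) (b (l 14) (l 14)))) (b (b (b (l 14) (l 14)) (b (l 14) (l 14))) (b (b (l 14) (l 14)) (b (l 14) (l 14))))))) (by decide +kernel)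

theorem t0_2 : Cov (twoT 0) 140737488355328 281474976710656 0 281474976710656 0 0 :=
  .of (b (a (b (a (b (a (b (l 11) (l 11)) (b (l 11) (l 11))) (a (b (l 12) (l 12)) (b (l 12) (l 12)))) (b (a (b (l 11) (l 11)) (b (l 12) (l 12))) (a (b (l 12) (l 12)) (b (l 12) (l 12))))) (a (b (a (b (l 12) (l 12)) (b (l 12) (l 12))) (a (b (l 12) (l 12)) (l 16))) (b (a (b (l 12) (l 12)) (b (l 12) (l 12))) (a (l 12) (l 12))))) (b (l 1) (a (b (a (b (l 12) (l 12)) (b (l 12) (l 12))) (a (l 12) (l 12))) (b (a (b (l 12) (l 12)) (b (l 12) (l 12))) (a (l 12) (l 12)))))) (a (b (a (b (a (l 16) (l 12)) (a (l 12) (l 12))) (b (a (l 12) (l 12)) (a (l 12) (l 12)))) (a (b (a (l 12) (l 12)) (l 20)) (b (l 16) (l 12)))) (b (a (b (a (l 12) (l 12)) (l 12)) (b (l 12) (l 12))) (a (b (l 12) (l 12)) (b (l 12) (l 12)))))) (by decide +kernel)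

theorem d4_1 : Cov (oneD 4) 0 281474976710656 0 4503599627370496 0 0 :=
  .of (b (b (b (b (a (b (a (b (a (l 5) (l 3)) (a (l 5) (l 3))) (b (l 3) (l 3))) (a (b (l 5) (l 5)) (b (l 3) (l 3)))) (b (a (l 3) (l 3)) (a (l 3) (l 3)))) (a (b (a (b (l 5) (l 5)) (l 5)) (a (b (l 5) (l 5)) (l 5))) (b (l 5) (l 5)))) (b (a (b (a (b (l 5) (l 5)) (l 5)) (a (l 7) (l 5))) (b (l 5) (l 5))) (a (b (a (l 7) (l 5)) (a (l 7) (l 5))) (b (l 5) (l 5))))) (b (b (a (b (l 10) (l 10)) (b (l 5) (l 7))) (a (b (l 10) (l 10)) (l 22))) (b (a (b (l 10) (l 10)) (l 13)) (a (l 22) (l 13))))) (b (b (b (a (l 17) (l 13)) (a (l 17) (l 13))) (b (a (l 17) (l 13)) (l 29))) (b (b (l 29) (l 29)) (b (l 29) (l 29))))) (by decide +kernel)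

theorem t2_7 : Cov (twoT 2) 0 562949953421312 562949953421312 1125899906842624 0 0 :=
  .of (a (b (a (b (a (b (a (l 16) (l 16)) (l 20)) (b (l 20) (l 16))) (a (b (l 16) (l 16)) (b (l 16) (l 16)))) (b (a (b (l 15) (l 15)) (l 19)) (a (l 23) (l 19)))) (a (b (a (b (l 16) (l 16)) (l 24)) (a (l 24) (l 20))) (b (a (l 19) (l 16)) (a (l 19) (l 16))))) (b (a (b (l 19) (l 19)) (l 19)) (a (b (l 19) (l 19)) (l 23)))) (by decide +kernel)

theorem t0_4 : Cov (twoT 0) 281474976710656 562949953421312 0 562949953421312 0 0 :=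
  .of (b (a (b (a (b (l 1) (a (b (a (l 12) (l 12)) (l 12)) (b (a (l 12) (l 11)) (l 12)))) (b (a (b (l 11) (l 11)) (l 15)) (a (b (l 11) (l 11)) (b (l 11) (l 11))))) (a (b (a (b (l 12) (l 12)) (b (l 12) (l 12))) (a (b (l 12) (l 12)) (l 12))) (b (a (l 12) (l 12)) (l 12)))) (b (a (b (l 11) (l 11)) (l 15)) (a (b (l 12) (l 11)) (l 15)))) (a (b (a (b (a (l 12) (l 12)) (a (l 12) (l 12))) (b (l 12) (l 12))) (a (b (l 16) (l 12)) (b (l 12) (l 12)))) (b (a (b (l 11) (l 11)) (l 11)) (a (l 15) (l 11))))) (by decide +kernel)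

theorem d39_0 : Cov (oneD 39) 0 281474976710656 (-9007199254740992) 9007199254740992 0 0 :=
  .of (b (b (b (b (l 29) (l 22)) (b (l 22) (l 17))) (b (b (l 13) (l 13)) (l 17))) (b (b (l 13) (b (l 13) (l 13))) (b (b (l 17) (l 22)) (b (l 22) (l 29))))) (by decide +kernel)

theorem d49_0 : Cov (oneD 49) 0 281474976710656 (-9007199254740992) 9007199254740992 0 0 :=
  .of (b (b (b (b (l 22) (l 22)) (b (l 17) (l 17))) (b (b (l 13) (l 13)) (l 13))) (b (b (l 13) (l 17)) (b (b (l 17) (l 17)) (b (l 22) (l 22))))) (by decide +kernel)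

theorem d59_0 : Cov (oneD 59) 0 281474976710656 (-9007199254740992) 9007199254740992 0 0 :=
  .of (b (b (b (b (l 22) (l 17)) (l 22)) (b (l 17) (l 13))) (b (b (l 13) (l 17)) (b (l 22) (l 29)))) (by decide +kernel)

theorem m1_0 : Cov (matT f1) 94228252053519 94233881553054 925872529392963 925875344142731 0 0 :=
  .of (l 14) (by decide +kernel)

end Crest.Agent.R086.NB.Run
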