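import Crest.Agent.R086.NB.Cov

/-! # Row 86, part N: kernel evaluation of the certificates -/

set_option Elab.async false

namespace Crest.Agent.R086.NB.Run

open T

theorem n1_0 : Cov (near0T 281474976710656) 211106232532992 281474976710656 (-70368744177664) 70368744177664 0 0 :=
  .of (b (a (b (a (b (a (l 3) (l 3)) (l 3)) (b (a (l 3) (l 3)) (l 3))) (a (b (l 3) (l 3)) (b (l 3) (l 3)))) (b (a (b (l 3) (l 3)) (b (l 3) (l 3))) (a (b (l 3) (l 3)) (l 3)))) (a (b (a (b (l 3) (l 3)) (b (l 3) (l 3))) (a (b (l 3) (a (l 3) (l 3))) (b (l 3) (a (l 3) (l 3))))) (b (a (b (l 3) (l 3)) (l 3)) (a (b (l 3) (l 3)) (b (l 3) (l 3)))))) (by decide +kernel)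

theorem dP0_1 : Cov (oneD 0) 0 281474976710656 4996180836614144 9007199254740992 0 0 :=
  .of (b (b (b (b (l 37) (l 37)) (b (a (l 29) (l 29)) (a (l 29) (l 29)))) (b (b (a (l 29) (l 29)) (a (l 29) (l 29))) (b (a (l 29) (l 29)) (a (l 37) (l 29))))) (b (b (b (a (l 37) (l 37)) (a (l 37) (l 37))) (b (a (l 37) (l 37)) (a (l 37) (l 37)))) (b (b (a (l 37) (l 37)) (a (l 37) (l 37))) (b (a (l 37) (l 37)) (a (l 37) (l 37)))))) (by decide +kernel)

theorem d3_2 : Cov (oneD 3) 0 281474976710656 0 4503599627370496 0 0 :=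
  .of (b (b (b (b (a (b (a (b (a (b (l 5) (l 5)) (b (l 3) (l 3))) (a (b (l 5) (l 5)) (b (l 3) (l 3)))) (b (a (l 3) (l 3)) (a (l 3) (l 3)))) (a (b (a (b (l 3) (l 3)) (l 5)) (a (b (l 3) (l 3)) (l 5))) (b (a (l 3) (l 3)) (l 5)))) (b (a (b (l 3) (l 3)) (b (l 3) (l 3))) (a (b (l 3) (l 3)) (l 3)))) (a (b (a (b (a (l 5) (l 3)) (a (l 5) (l 3))) (b (l 5) (l 5))) (a (b (a (l 5) (l 3)) (l 5)) (b (l 5) (l 5)))) (b (a (l 5) (l 3)) (a (l 5) (l 3))))) (b (a (b (a (b (l 5) (l 5)) (b (l 5) (l 5))) (a (b (l 5) (l 5)) (l 7))) (b (a (l 5) (l 3)) (a (l 5) (l 3)))) (a (b (a (b (l 5) (l 5)) (l 5)) (a (l 7) (l 5))) (b (l 7) (l 7))))) (b (b (a (b (a (l 7) (l 7)) (l 10)) (b (l 7) (l 7))) (a (b (l 10) (l 10)) (b (l 7) (l 7)))) (b (a (b (l 10) (l 10)) (b (l 7) (l 10))) (a (b (l 10) (l 10)) (l 13))))) (b (b (b (a (l 22) (l 17)) (a (l 17) (l 17))) (b (a (l 17) (l 17)) (a (l 17) (l 17)))) (b (b (a (l 22) (l 17)) (l 29)) (b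 (l 29) (l 29))))) (by decide +kernel)

theorem m4_0 : Cov (matT f4) 94233881553053 94233881553054 925872529392963 925889417891566 0 0 :=
  .of (b (b (b (b (b (b (l 14) (l 14)) (b (l 14) (l 14))) (b (b (l 14) (l 14)) (b (l 14) (l 14)))) (b (b (b (l 14) (l 14)) (b (l 14) (l 14))) (b (b (l 14) (l 14)) (b (l 14) (l 14))))) (b (b (b (b (l 14) (l 14)) (b (l 14) (l 14))) (b (b (l 14) (l 14)) (b (l 14) (l 14)))) (b (b (b (l 14) (l 14)) (b (l 14) (l 14))) (b (b (l 14) (l 14)) (b (l 14) (l 14)))))) (b (b (b (b (b (l 14) (l 14)) (b (l 14) (l 14))) (b (b (l 14) (l 14)) (b (l 14) (l 14)))) (b (b (b (l 14) (l 14)) (b (l 14) (l 14))) (b (b (l 14) (l 14)) (b (l 14) (l 14))))) (b (b (b (b (l 14) (l 14)) (b (l 14) (l 14))) (b (b (l 14) (l 14)) (b (l 14) (l 14)))) (b (b (b (l 14) (l 14)) (b (l 14) (l 14))) (b (b (l 14) (l 14)) (b (l 14) (l 14))))))) (by decide +kernel)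

theorem d16_0 : Cov (oneD 16) 0 281474976710656 (-9007199254740992) 9007199254740992 0 0 :=
  .of (b (b (b (b (b (l 37) (l 29)) (b (l 29) (l 29))) (b (b (l 29) (l 22)) (b (l 22) (l 22)))) (b (b (b (l 17) (l 17)) (b (l 17) (l 17))) (b (b (b (l 10) (l 7)) (b (l 7) (l 7))) (b (l 10) (l 7))))) (b (b (b (b (l 7) (l 7)) (b (l 10) (l 10))) (b (b (l 13) (l 13)) (b (l 17) (l 17)))) (b (b (b (l 17) (l 22)) (b (l 22) (l 29))) (b (b (l 29) (l 29)) (b (l 29) (l 37)))))) (by decide +kernel)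

theorem dM1_0 : Cov (oneD 1) 0 281474976710656 (-9007199254740992) (-985162418487296) 0 0 :=
  .of (b (b (b (b (b (l 37) (l 29)) (b (l 29) (l 29))) (b (b (l 29) (l 29)) (b (l 29) (l 29)))) (b (b (b (l 29) (l 29)) (b (l 29) (l 22))) (b (l 37) (l 37)))) (b (b (b (l 37) (l 37)) (b (l 37) (l 29))) (b (b (l 29) (l 29)) (b (l 22) (b (l 10) (l 10)))))) (by decide +kernel)

theorem n0_3 : Cov (near0T 0) 35184372088832 70368744177664 0 70368744177664 0 0 :=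
  .of (b (a (b (a (l 3) (l 3)) (a (l 3) (l 3))) (b (a (l 3) (l 3)) (a (l 3) (l 3)))) (a (b (a (l 3) (l 3)) (a (l 3) (l 3))) (b (a (l 3) (l 3)) (a (l 3) (l 3))))) (by decide +kernel)

theorem d27_0 : Cov (oneD 27) 0 281474976710656 (-9007199254740992) 9007199254740992 0 0 :=
  .of (b (b (b (b (b (l 29) (l 22)) (b (l 22) (l 22))) (b (b (l 17) (l 17)) (b (l 17) (l 13)))) (b (b (b (l 13) (l 13)) (b (l 10) (l 10))) (b (l 13) (l 10)))) (b (b (b (l 7) (l 10)) (b (l 13) (l 17))) (b (b (l 22) (l 29)) (b (l 29) (l 37))))) (by decide +kernel)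

theorem d38_0 : Cov (oneD 38) 0 281474976710656 (-9007199254740992) 9007199254740992 0 0 :=
  .of (b (b (b (b (l 29) (l 22)) (b (l 22) (l 17))) (b (b (l 13) (l 13)) (b (l 10) (l 10)))) (b (b (l 13) (b (l 13) (l 13))) (b (b (l 17) (l 22)) (b (l 22) (l 29))))) (by decide +kernel)

theorem d48_0 : Cov (oneD 48) 0 281474976710656 (-9007199254740992) 9007199254740992 0 0 :=
  .of (b (b (b (b (l 22) (l 22)) (b (l 17) (l 17))) (b (b (l 13) (l 13)) (l 13))) (b (b (l 13) (l 17)) (b (b (l 17) (l 17)) (b (l 22) (l 22))))) (by decide +kernel)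

theorem qP_10 : Cov (oneB 281474976710656) 0 281474976710656 0 8796093022208 70368744177664 140737488355328 :=
  .of (a (c (b (a (c (l 50) (l 31)) (c (l 39) (l 30))) (a (c (l 31) (l 30)) (c (l 30) (l 30)))) (b (l 30) (a (c (l 30) (l 22)) (l 30)))) (c (b (a (c (l 39) (l 23)) (c (l 38) (l 22))) (a (c (l 30) (l 22)) (c (l 30) (l 22)))) (b (l 22) (l 22)))) (by decide +kernel)

theorem m0_0 : Cov (matT f0) 94228252053519 94233881553054 925872529392963 925906306390169 0 0 :=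
  .of (l 14) (by decide +kernel)

end Crest.Agent.R086.NB.Run
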