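import Crest.Agent.R086.NB.Eng
import Crest.Agent.R086.NB.RDisc

/-! # Row 86, part N: soundness of the disc recursion and of the subdivision -/

open scoped ComplexConjugate

namespace Crest.Agent.R086.NB

open RB

/-- meaning of a state -/
def St.V (s : St) (M ρ : ℝ) (α : ℂ) : Prop :=
  s.ok = true → Dsc M ρ α (val s.cr + val s.ci * Complex.I) (valN s.r)

/-- meaning of the parameters -/
structure Pm.Ok (P : Pm) (M ρ : ℝ) (α : ℂ) : Prop where
  sg : P.sg.mem α.re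
  t : P.t.mem α.im
  rho : P.rho.mem ρ
  hr : P.hr.mem (ρ / 2)
  ki : P.ki.mem (ρ / 2 - α.im)
  S : P.S.mem ((M + 25) / 4 + α.im ^ 2)
  nq : P.nq.mem ((M + 25) / 4 - (ρ / 2) ^ 2)

variable {M ρ : ℝ} {α : ℂ} {P : Pm}

theorem mkP_ok {sg t n2 rho : RB} (h1 : sg.mem α.re) (h2 : t.mem α.im) (h3 : n2.mem ((M + 25) / 4))
    (h4 : rho.mem ρ) : (mkP sg t n2 rho).Ok M ρ α :=
  ⟨h1, h2, h4, h4.half, h4.half.sub h2, h3.add h2.sq, h3.sub h4.half.sq⟩

theorem val_one : val (Int.ofNat one) = 1 := by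
  rw [val_ofNat]; unfold valN; rw [one_eq]; simp

theorem val_zero : val (Int.ofNat 0) = 0 := by unfold val; simp

theorem val_gI (j : ℕ) : val (gI j) = 5 / 2 - j := by
  unfold gI val
  rw [Int.subNatNat_eq_coe]
  have : ((Nat.mul j one : ℕ) : ℤ) = j * 2 ^ 48 := by
    show ((j * one : ℕ) : ℤ) = _
    unfold one; push_cast; norm_num
  rw [this]; push_cast; ring

theorem gB_mem {sg : RB} {σ : ℝ} (h : sg.mem σ) (j : ℕ) : (gB sg j).mem (5 / 2 - (σ + j)) := by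
  have := (mem_pt (gI j)).sub h
  rw [val_gI] at this
  have e : 5 / 2 - (σ + j) = 5 / 2 - j - σ := by ring
  rw [e]; exact this

theorem dot_mem (a b c d : ℤ) : (dot a b c d).mem (val a * val b + val c * val d) := by
  have h := round (p := Int.add (Int.mul a b) (Int.mul c d)) (q := 0) (k := 48) (z := val a * val b + val c * val d) (by
    have e1 : ((Int.add (Int.mul a b) (Int.mul c d) : ℤ) : ℝ) = a * b + c * d := by
      show ((a * b + c * d : ℤ) : ℝ) = _; push_cast; ring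
    rw [e1]; unfold val
    have : ((a : ℝ) / 2 ^ 48 * (b / 2 ^ 48) + c / 2 ^ 48 * (d / 2 ^ 48)) * 2 ^ 48 - (a * b + c * d) / 2 ^ 48 = 0 := by
      ring
    rw [this]; simp)
  exact h

theorem valN_mul (a b : ℕ) : ((Nat.mul a b : ℕ) : ℝ) / 2 ^ 96 = valN a * valN b := by
  show ((a * b : ℕ) : ℝ) / 2 ^ 96 = _
  unfold valN; push_cast; ring

theorem valN_one : valN one = 1 := by unfold valN; rw [one_eq]; simp

theorem cast_add96 (a b : ℕ) : ((Nat.add a b : ℕ) : ℝ) / 2 ^ 96 = (a : ℝ) / 2 ^ 96 + (b : ℝ) / 2 ^ 96 := by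
  show ((a + b : ℕ) : ℝ) / 2 ^ 96 = _
  push_cast; ring

/-- `a / 2^96 ≤ cdiv a b * b` -/
theorem cdiv_ge (a : ℕ) {b : ℕ} (hb : 0 < b) : (a : ℝ) / 2 ^ 96 ≤ valN (cdiv a b) * valN b := by
  have h := div_err a hb
  have hr : (0 : ℝ) < b := by exact_mod_cast hb
  rw [div_le_iff₀ hr] at h
  unfold cdiv valN
  simp only [Nat.succ_eq_add_one]
  push_cast
  have e : ((Nat.div a b : ℕ) + 1 : ℝ) / 2 ^ 48 * (b / 2 ^ 48) = ((Nat.div a b : ℕ) + 1 : ℝ) * b / 2 ^ 96 := by ring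
  rw [e]; gcongr

theorem pos_natAbs {a : ℤ} (h : ltZ (Int.ofNat 0) a = true) : 0 < a.natAbs ∧ valN a.natAbs = val a ∧ 0 < val a := by
  have h1 := ltZ_iff h
  have h2 := val_lt h
  rw [val_zero] at h2
  refine ⟨Int.natAbs_pos.2 (ne_of_gt h1), ?_, h2⟩
  rw [valN_natAbs, abs_of_pos h2]

theorem start_ok (h : P.Ok M ρ α) (j : ℕ) : (start P j).V M ρ (α + j) := by
  intro hok
  have hg := gB_mem h.sg j
  set g : ℝ := 5 / 2 - (α.re + j) with hgd
  have hG := hg.two.neg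
  have hok' : ltZ (Int.ofNat 0) (neg (two (gB P.sg j))).lo = true := by
    simpa only [start] using hok
  obtain ⟨p1, p2, p3⟩ := pos_natAbs hok'
  have hl := hG.lo
  set cr := (start P j).cr with hcr
  set ci := (start P j).ci with hci
  have e1 := hyp_ge ((hg.sq.add h.S).sub (mem.cmul cr hg.two)).mag ((hg.mul h.rho).sub (mem.cmul ci hg.two)).mag
  have e2 := hyp_ge (h.S.sub hg.sq).mag (hg.mul h.t).two.mag
  have e3 := cdiv_ge (Nat.mul (Nat.add (hyp (sub (add (sq (gB P.sg j)) P.S) (cmul cr (two (gB P.sg j)))).mag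
    (sub (mul (gB P.sg j) P.rho) (cmul ci (two (gB P.sg j)))).mag)
    (hyp (sub P.S (sq (gB P.sg j))).mag (two (mul (gB P.sg j) P.t)).mag)) one) p1
  rw [valN_mul, valN_add, valN_one, mul_one, p2] at e3
  refine dsc_start (g := g) (t := α.im) (n2 := (M + 25) / 4) (by simp [hgd]) (by simp) rfl (by linarith)
    (h₁ := _) (h₂ := _) ?_ e2 (e3.trans ?_)
  · rw [show g ^ 2 + ((M + 25) / 4 + α.im ^ 2) - 2 * g * val cr = g ^ 2 + ((M + 25) / 4 + α.im ^ 2) - val cr * (2 * g) by ring,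
      show g * ρ - 2 * g * val ci = g * ρ - val ci * (2 * g) by ring]
    exact e1
  · exact mul_le_mul_of_nonneg_left hl (valN_nonneg _)

theorem step_ok (h : P.Ok M ρ α) (j : ℕ) {s : St} (hs : s.V M ρ (α + j + 1)) : (step P j s).V M ρ (α + j) := by
  unfold St.V step
  dsimp only
  generalize Int.add (gB P.sg j).m _ = cr
  generalize Int.add P.ki.m _ = ci
  intro hok'
  rw [Bool.and_eq_true] at hok'
  obtain ⟨p1, p2, p3⟩ := pos_natAbs hok'.2
  have hg := gB_mem h.sg j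
  set g : ℝ := 5 / 2 - (α.re + j) with hgd
  have hDr := hg.add (mem_pt s.cr)
  have hDi := h.ki.add (mem_pt s.ci)
  have hR := (mem_pt (Int.ofNat s.r)).sq
  have hΔ := ((hDr.sq.add hDi.sq).sub hR).lo
  rw [val_ofNat] at hR hΔ
  have hpe := h.rho.add (mem_pt (Int.sub s.ci ci))
  have hnr := (((h.nq.sub (dot_mem s.cr cr (Int.neg s.ci) ci)).add (mem.cmul (Int.sub s.cr cr) hg)).add
    (h.t.mul hpe)).sub (mem.cmul (Int.sub s.ci ci) h.hr)
  have hni := ((hg.mul hpe).sub (dot_mem s.cr ci s.ci cr)).add (mem.cmul (Int.sub s.cr cr) h.ki)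
  have hNr := ((hnr.mul hDr).add (hni.mul hDi)).sub (hR.mul (hg.sub (mem_pt cr)))
  have hNi := ((hni.mul hDr).sub (hnr.mul hDi)).sub (hR.mul (h.ki.sub (mem_pt ci)))
  have e1 := hyp_ge hNr.mag hNi.mag
  have e2 := hyp_ge (h.S.sub hg.sq).mag (hg.mul h.t).two.mag
  have e3 : ∀ x y : ℕ, valN x + valN y * valN s.r ≤
      valN (cdiv (Nat.add (Nat.mul x one) (Nat.mul y s.r)) _) * _ := fun x y => by
    have := cdiv_ge (Nat.add (Nat.mul x one) (Nat.mul y s.r)) p1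
    rwa [cast_add96, valN_mul, valN_mul, valN_one, mul_one, p2] at this
  refine dsc_step (g := g) (t := α.im) (n2 := (M + 25) / 4) (hs hok'.1) (by simp [hgd]) (by simp) rfl
    (valN_nonneg _) (valN_nonneg _) rfl rfl ?_ ?_ p3 hΔ e1 e2 (e3 _ _)
  · rw [val_sub, val_sub, val_neg]; ring
  · rw [val_sub, val_sub]

theorem iter_ok (h : P.Ok M ρ α) (N k : ℕ) (hk : k ≤ N) : (iter P N k).V M ρ (α + (N - k : ℕ)) := by
  induction k with
  | zero => exact start_ok h N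
  | succ k ih =>
    have h1 := ih (by omega)
    have e : (α + (N - k : ℕ) : ℂ) = α + (N - (k + 1) : ℕ) + 1 := by
      rw [show N - k = N - (k + 1) + 1 by omega]; push_cast; ring
    rw [e] at h1
    have e2 : iter P N (k + 1) = step P (N - (k + 1)) (iter P N k) := rfl
    rw [e2]
    exact step_ok h (N - (k + 1)) h1

theorem rhoB_mem (h : ρ ∈ Set.Icc (2.704972 : ℝ) 2.705170) : rhoB.mem ρ := by
  refine mem_iv (le_trans ?_ h.1) (h.2.trans ?_) <;> · rw [val_ofNat]; unfold valN; norm_num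

theorem bB_mem {b : ℝ} (h : b ∈ Set.Icc (0.334766 : ℝ) 0.334786) : bB.mem b := by
  refine mem_iv (le_trans ?_ h.1) (h.2.trans ?_) <;> · rw [val_ofNat]; unfold valN; norm_num

theorem valN_nuI (m : ℕ) : valN (nuI m) = (5 + m) / 2 := by
  show valN ((m + 5) * 140737488355328) = _
  unfold valN; push_cast; ring

theorem n2B_mem (m : ℕ) : (n2B m).mem ((MM m + 25) / 4) := by
  have := mem_pt (Int.ofNat (Nat.mul (Nat.mul (Nat.add m 5) (Nat.add m 5)) 70368744177664))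
  rw [val_ofNat] at this
  have e : valN (Nat.mul (Nat.mul (Nat.add m 5) (Nat.add m 5)) 70368744177664) = (MM m + 25) / 4 := by
    show valN ((m + 5) * (m + 5) * 70368744177664) = _
    unfold valN MM; push_cast; ring
  rwa [e] at this

theorem tst_ok {nu : ℕ} {s : St} (hs : s.V M ρ α) (h : tst nu s = true) : One M ρ (valN nu) α := by
  unfold tst at h
  rw [Bool.and_eq_true] at h
  have := val_lt h.2
  rw [val_add, val_ofNat, val_ofNat] at this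
  exact (hs h.1).one this

/-- `Q` holds on the box -/
def Box (Q : ℝ → ℝ → ℝ → Prop) (x₁ x₂ y₁ y₂ z₁ z₂ : ℤ) : Prop :=
  ∀ x y z : ℝ, val x₁ ≤ x → x ≤ val x₂ → val y₁ ≤ y → y ≤ val y₂ → val z₁ ≤ z → z ≤ val z₂ → Q x y z

theorem T.chk_ok {f : ℕ → ℤ → ℤ → ℤ → ℤ → ℤ → ℤ → Bool} {Q : ℝ → ℝ → ℝ → Prop}
    (hf : ∀ n x₁ x₂ y₁ y₂ z₁ z₂, f n x₁ x₂ y₁ y₂ z₁ z₂ = true → Box Q x₁ x₂ y₁ y₂ z₁ z₂) (τ : T) :
    ∀ x₁ x₂ y₁ y₂ z₁ z₂, τ.chk f x₁ x₂ y₁ y₂ z₁ z₂ = true → Box Q x₁ x₂ y₁ y₂ z₁ z₂ := by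
  induction τ with
  | l n => exact hf n
  | a p q ihp ihq =>
    intro x₁ x₂ y₁ y₂ z₁ z₂ h x y z h1 h2 h3 h4 h5 h6
    have h' : (p.chk f x₁ (mid x₁ x₂) y₁ y₂ z₁ z₂ && q.chk f (mid x₁ x₂) x₂ y₁ y₂ z₁ z₂) = true := h
    rw [Bool.and_eq_true] at h'
    rcases le_total x (val (mid x₁ x₂)) with hm | hm
    · exact ihp _ _ _ _ _ _ h'.1 x y z h1 hm h3 h4 h5 h6
    · exact ihq _ _ _ _ _ _ h'.2 x y z hm h2 h3 h4 h5 h6
  | b p q ihp ihq =>
    intro x₁ x₂ y₁ y₂ z₁ z₂ h x y z h1 h2 h3 h4 h5 h6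
    have h' : (p.chk f x₁ x₂ y₁ (mid y₁ y₂) z₁ z₂ && q.chk f x₁ x₂ (mid y₁ y₂) y₂ z₁ z₂) = true := h
    rw [Bool.and_eq_true] at h'
    rcases le_total y (val (mid y₁ y₂)) with hm | hm
    · exact ihp _ _ _ _ _ _ h'.1 x y z h1 h2 h3 hm h5 h6
    · exact ihq _ _ _ _ _ _ h'.2 x y z h1 h2 hm h4 h5 h6
  | c p q ihp ihq =>
    intro x₁ x₂ y₁ y₂ z₁ z₂ h x y z h1 h2 h3 h4 h5 h6
    have h' : (p.chk f x₁ x₂ y₁ y₂ z₁ (mid z₁ z₂) && q.chk f x₁ x₂ y₁ y₂ (mid z₁ z₂) z₂) = true := h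
    rw [Bool.and_eq_true] at h'
    rcases le_total z (val (mid z₁ z₂)) with hm | hm
    · exact ihp _ _ _ _ _ _ h'.1 x y z h1 h2 h3 h4 h5 hm
    · exact ihq _ _ _ _ _ _ h'.2 x y z h1 h2 h3 h4 hm h6

/-- the one-sided criterion at the levels 0,…,3 -/
def One4 (M ρ ν σ t : ℝ) : Prop := ∀ j : ℕ, j ≤ 3 → One M ρ ν ((σ : ℂ) + t * Complex.I + j)

theorem oneD_ok (m : ℕ) (hρ : ρ ∈ Set.Icc (2.704972 : ℝ) 2.705170) (n : ℕ) (s₁ s₂ t₁ t₂ z₁ z₂ : ℤ)
    (h : oneD m n s₁ s₂ t₁ t₂ z₁ z₂ = true) :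
    Box (fun σ t _ => One4 (MM m) ρ ((5 + m) / 2) σ t) s₁ s₂ t₁ t₂ z₁ z₂ := by
  intro σ t z h1 h2 h3 h4 _ _
  have hP : (mkP (iv s₁ s₂) (iv t₁ t₂) (n2B m) rhoB).Ok (MM m) ρ ((σ : ℂ) + t * Complex.I) :=
    mkP_ok (by simpa using mem_iv h1 h2) (by simpa using mem_iv h3 h4) (n2B_mem m) (rhoB_mem hρ)
  unfold oneD at h
  simp only [Bool.and_eq_true] at h
  obtain ⟨t3, t2, t1, t0⟩ := h
  have a3 := iter_ok hP (Nat.add n 3) n (Nat.le_add_right n 3)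
  rw [show Nat.add n 3 - n = 3 from Nat.add_sub_cancel_left n 3] at a3
  have a2 := step_ok hP 2 (by convert a3 using 1; push_cast; ring)
  have a1 := step_ok hP 1 (by convert a2 using 1; push_cast; ring)
  have a0 := step_ok hP 0 (by convert a1 using 1; push_cast; ring)
  rw [← valN_nuI]
  intro j hj
  interval_cases j
  · exact tst_ok a0 t0
  · exact tst_ok a1 t1
  · exact tst_ok a2 t2
  · exact tst_ok a3 t3

end Crest.Agent.R086.NB
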