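import Crest.Agent.R086.NB.SDisc

/-! # Row 86, part N: soundness of the complex rectangles and of the two-sided test (task) -/

open scoped ComplexConjugate

namespace Crest.Agent.R086.NB

open RB

/-- membership -/
def CB.mem (a : CB) (z : ℂ) : Prop := a.re.mem z.re ∧ a.im.mem z.im

variable {a b : CB} {z w : ℂ} {M ρ : ℝ} {α : ℂ} {P : Pm}

theorem CB.mem.sub (ha : a.mem z) (hb : b.mem w) : (a.sub b).mem (z - w) :=
  ⟨ha.1.sub hb.1, ha.2.sub hb.2⟩

theorem CB.mem.mul (ha : a.mem z) (hb : b.mem w) : (a.mul b).mem (z * w) :=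
  ⟨(ha.1.mul hb.1).sub (ha.2.mul hb.2), (ha.1.mul hb.2).add (ha.2.mul hb.1)⟩

theorem CB.mem.cmul (x y : ℤ) (hb : b.mem w) : (CB.cmul x y b).mem ((val x + val y * Complex.I) * w) := by
  have e1 : (((val x : ℂ) + val y * Complex.I) * w).re = val x * w.re - val y * w.im := by simp
  have e2 : (((val x : ℂ) + val y * Complex.I) * w).im = val x * w.im + val y * w.re := by simp
  unfold CB.mem
  rw [e1, e2]
  exact ⟨(RB.mem.cmul x hb.1).sub (RB.mem.cmul y hb.2), (RB.mem.cmul x hb.2).add (RB.mem.cmul y hb.1)⟩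

theorem CB.mem.cj (ha : a.mem z) : a.cj.mem (conj z) :=
  ⟨ha.1, ha.2.neg⟩

theorem CB.mem.up (ha : a.mem z) : ‖z‖ ≤ valN a.up := by
  have := hyp_ge ha.1.mag ha.2.mag
  rwa [Complex.re_add_im] at this

/-- s/h ≤ √s when s ≤ h² (`newt_ge`) -/
theorem CB.mem.dn (ha : a.mem z) : valN a.dn ≤ ‖z‖ := by
  have h1 := ha.1.mig
  have h2 := ha.2.mig
  unfold CB.dn
  generalize a.re.mig = x at *
  generalize a.im.mig = y at *
  have h3 : x * x + y * y ≤ hyp x y ^ 2 := newt_ge _ (newt_pos _ _)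
  have h4 : 0 < hyp x y := newt_pos _ _
  have h5 : Nat.div (Nat.add (Nat.mul x x) (Nat.mul y y)) (hyp x y) * hyp x y ≤ x * x + y * y :=
    Nat.div_mul_le_self _ _
  generalize Nat.div (Nat.add (Nat.mul x x) (Nat.mul y y)) (hyp x y) = q at *
  generalize hyp x y = H at *
  have h6 : q ^ 2 ≤ x * x + y * y := by
    refine Nat.le_of_mul_le_mul_right ?_ (pow_pos h4 2)
    rw [← mul_pow]
    exact (Nat.pow_le_pow_left h5 2).trans (by rw [pow_two]; exact Nat.mul_le_mul_left _ h3)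
  have h7 : (q : ℝ) ^ 2 ≤ x * x + y * y := by exact_mod_cast h6
  refine (abs_le_of_sq_le_sq' ?_ (norm_nonneg _)).2
  have h8 : valN x ^ 2 ≤ z.re ^ 2 := by
    rw [← sq_abs z.re]
    exact pow_le_pow_left₀ (valN_nonneg _) h1 2
  have h9 : valN y ^ 2 ≤ z.im ^ 2 := by
    rw [← sq_abs z.im]
    exact pow_le_pow_left₀ (valN_nonneg _) h2 2
  have h10 : valN q ^ 2 ≤ valN x ^ 2 + valN y ^ 2 := by
    unfold valN
    rw [div_pow, div_pow, div_pow, ← add_div]
    exact div_le_div_of_nonneg_right (by linarith) (by positivity)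
  rw [Complex.sq_norm, Complex.normSq_apply]
  linarith

private theorem Nat.lt_of_blt_eq_true' {x y : ℕ} (h : Nat.blt x y = true) :
    (x : ℝ) / 2 ^ 96 < (y : ℝ) / 2 ^ 96 := by
  have h1 : x < y := by simpa [Nat.blt_eq] using h
  have h2 : (x : ℝ) < y := by exact_mod_cast h1
  exact div_lt_div_of_pos_right h2 (by positivity)

theorem homT_ok {X X' A A' K : CB} {x x' p p' k : ℂ} {r r' : ℕ} (hX : X.mem x) (hX' : X'.mem x') (hA : A.mem p)
    (hA' : A'.mem p') (hK : K.mem k) (h : homT X X' A A' K r r' = true) :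
    valN r * ‖x' * k - p'‖ + valN r' * ‖x * k - p‖ + valN r * valN r' * ‖k‖ < ‖x * x' * k - p * x' - p' * x‖ := by
  have u1 := ((hX'.mul hK).sub hA').up
  have u2 := ((hX.mul hK).sub hA).up
  have u3 := hK.up
  have d := ((((hX.mul hX').mul hK).sub (hA.mul hX')).sub (hA'.mul hX)).dn
  unfold homT at h
  generalize ((X'.mul K).sub A').up = n1 at *
  generalize ((X.mul K).sub A).up = n2 at *
  generalize K.up = n3 at *
  generalize ((((X.mul X').mul K).sub (A.mul X')).sub (A'.mul X)).dn = n4 at *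
  have h1 := Nat.lt_of_blt_eq_true' h
  rw [cast_add96, cast_add96, valN_mul, valN_mul, valN_mul, valN_mul, valN_one, mul_one] at h1
  have h2 : valN r * valN r' ≤ valN (Nat.succ (Nat.shiftRight (Nat.mul r r') 48)) := by
    have := (shrN_err (Nat.mul r r') 48).1
    rw [← valN_mul]
    unfold valN
    rw [Nat.cast_succ, le_div_iff₀ (by positivity)]
    have e : ((Nat.mul r r' : ℕ) : ℝ) / 2 ^ 96 * 2 ^ 48 = ((Nat.mul r r' : ℕ) : ℝ) / 2 ^ 48 := by ring
    linarith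
  have h3 := mul_le_mul_of_nonneg_left u1 (valN_nonneg r)
  have h4 := mul_le_mul_of_nonneg_left u2 (valN_nonneg r')
  have h5 := mul_le_mul h2 u3 (norm_nonneg _) (valN_nonneg _)
  linarith

theorem AB_mem (h : P.Ok M ρ α) : (AB P).mem (AA M α) := by
  have hg := gB_mem h.sg 0
  have e1 : (AA M α).re = (M + 25) / 4 + α.im ^ 2 - (5 / 2 - (α.re + (0 : ℕ))) ^ 2 := by
    simp [AA, pow_two]
    ring
  have e2 : (AA M α).im = 2 * ((5 / 2 - (α.re + (0 : ℕ))) * α.im) := by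
    simp [AA, pow_two]
    ring
  unfold CB.mem
  rw [e1, e2]
  exact ⟨h.S.sub hg.sq, (hg.mul h.t).two⟩

/-- the conclusion of `AlgFar` at λ = σ + iτ -/
def Far (m : ℕ) (b ρ σ τ : ℝ) : Prop :=
  ∀ u v : ℕ → ℂ, (m = 0 → ¬ Nr 0 (σ + τ * Complex.I) ∧ ¬ Nr 1 (σ + τ * Complex.I)) →
    (m = 1 → ¬ Nr (1 / 2) (σ + τ * Complex.I)) →
    Seq (MM m) ρ (σ + τ * Complex.I - Complex.I * b) u → Seq (MM m) ρ (conj (σ + τ * Complex.I) - Complex.I * b) v →
    u 0 + conj (v 0) = 0 → u 1 - conj (v 1) = (2 * (σ + τ * Complex.I) + m) * u 0 → u 0 = 0 ∧ u 1 = 0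

private theorem nrT_ok {c s₁ s₂ t₁ t₂ : ℤ} {σ τ : ℝ} (h : nrT c s₁ s₂ t₁ t₂ = true) (h1 : val s₁ ≤ σ)
    (h2 : σ ≤ val s₂) (h3 : val t₁ ≤ τ) (h4 : τ ≤ val t₂) : Nr (val c) (σ + τ * Complex.I) := by
  unfold nrT at h
  simp only [Bool.and_eq_true] at h
  obtain ⟨a1, a2, a3, a4⟩ := h
  have b1 : c - 70368744177665 < s₁ := ltZ_iff a1
  have b2 : s₂ < c + 70368744177665 := ltZ_iff a2
  have b3 : -70368744177665 < t₁ := ltZ_iff a3
  have b4 : t₂ < 70368744177665 := ltZ_iff a4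
  have c1 : (c : ℝ) - 70368744177664 ≤ s₁ := by exact_mod_cast (by omega : c - 70368744177664 ≤ s₁)
  have c2 : (s₂ : ℝ) ≤ c + 70368744177664 := by exact_mod_cast (by omega : s₂ ≤ c + 70368744177664)
  have c3 : (-70368744177664 : ℝ) ≤ t₁ := by exact_mod_cast (by omega : -70368744177664 ≤ t₁)
  have c4 : (t₂ : ℝ) ≤ 70368744177664 := by exact_mod_cast (by omega : t₂ ≤ 70368744177664)
  unfold val at *
  have e1 : ((σ : ℂ) + τ * Complex.I).re = σ := by simp
  have e2 : ((σ : ℂ) + τ * Complex.I).im = τ := by simp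
  unfold Nr
  rw [e1, e2, abs_le, abs_le]
  refine ⟨⟨?_, ?_⟩, ?_, ?_⟩ <;> linarith

private theorem kp_mem (h : P.Ok M ρ α) (x y : ℤ) :
    (CB.mk (add (pt x) (gB P.sg 0)) (add (pt y) P.ki)).mem (val x + val y * Complex.I + kp ρ α) := by
  have e1 : ((val x : ℂ) + val y * Complex.I + kp ρ α).re = val x + (5 / 2 - (α.re + (0 : ℕ))) := by
    simp [kp]
  have e2 : ((val x : ℂ) + val y * Complex.I + kp ρ α).im = val y + (ρ / 2 - α.im) := by
    simp [kp]
  unfold CB.mem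
  rw [e1, e2]
  exact ⟨(mem_pt x).add (gB_mem h.sg 0), (mem_pt y).add h.ki⟩

/-- hints 0,1,2: the box lies in an excluded region (integers: c - 2^46 - 1 < s₁ means c - 2^46 ≤ s₁); odd: `two0` with `iter_ok`; even: `Dsc.back` on both sides
(conjugate the G side: u₀ = -conj v₀) and `hom3` with f = u 0, p = u 1, q = conj (v 1) -/
theorem twoT_ok (m : ℕ) {b : ℝ} (hb : Bx b ρ) (n : ℕ) (s₁ s₂ t₁ t₂ z₁ z₂ : ℤ)
    (h : twoT m n s₁ s₂ t₁ t₂ z₁ z₂ = true) : Box (fun σ τ _ => Far m b ρ σ τ) s₁ s₂ t₁ t₂ z₁ z₂ := by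
  intro σ τ _ h1 h2 h3 h4 _ _ u v x0 x1 hu hv e0 e1
  rcases n with _ | _ | _ | n
  · have h' : (Nat.beq m 0 && nrT (Int.ofNat 0) s₁ s₂ t₁ t₂) = true := h
    rw [Bool.and_eq_true] at h'
    have := nrT_ok h'.2 h1 h2 h3 h4
    rw [val_zero] at this
    exact absurd this (x0 (Nat.eq_of_beq_eq_true h'.1)).1
  · have h' : (Nat.beq m 0 && nrT (Int.ofNat one) s₁ s₂ t₁ t₂) = true := h
    rw [Bool.and_eq_true] at h'
    have := nrT_ok h'.2 h1 h2 h3 h4
    rw [val_one] at this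
    exact absurd this (x0 (Nat.eq_of_beq_eq_true h'.1)).2
  · have h' : (Nat.beq m 1 && nrT (Int.ofNat 140737488355328) s₁ s₂ t₁ t₂) = true := h
    rw [Bool.and_eq_true] at h'
    have := nrT_ok h'.2 h1 h2 h3 h4
    rw [show val (Int.ofNat 140737488355328) = 1 / 2 by rw [val_ofNat]; unfold valN; norm_num] at this
    exact absurd this (x1 (Nat.eq_of_beq_eq_true h'.1))
  have hs := mem_iv h1 h2
  have ht := mem_iv h3 h4
  have hP : (mkP (iv s₁ s₂) (sub (iv t₁ t₂) bB) (n2B m) rhoB).Ok (MM m) ρ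
      (σ + τ * Complex.I - Complex.I * b) :=
    mkP_ok (by simpa using hs) (by simpa using ht.sub (bB_mem hb.1)) (n2B_mem m) (rhoB_mem hb.2)
  have hQ : (mkP (iv s₁ s₂) (sub (neg (iv t₁ t₂)) bB) (n2B m) rhoB).Ok (MM m) ρ
      (conj (σ + τ * Complex.I) - Complex.I * b) :=
    mkP_ok (by simpa using hs) (by simpa using ht.neg.sub (bB_mem hb.1)) (n2B_mem m) (rhoB_mem hb.2)
  unfold twoT at h
  dsimp only at h
  generalize mkP (iv s₁ s₂) (sub (iv t₁ t₂) bB) (n2B m) rhoB = P at hP h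
  generalize mkP (iv s₁ s₂) (sub (neg (iv t₁ t₂)) bB) (n2B m) rhoB = Q at hQ h
  generalize Nat.shiftRight n 1 = k at h
  generalize Nat.mod n 2 = i at h
  rcases i with _ | i
  · have a1 := iter_ok hP k k le_rfl
    have a2 := iter_ok hQ k k le_rfl
    rw [Nat.sub_self, Nat.cast_zero, add_zero] at a1 a2
    generalize iter P k k = A at a1 h
    generalize iter Q k k = B at a2 h
    simp only [Nat.rec_zero, Bool.and_eq_true] at h
    refine two0 (a1 h.1) (a2 h.2.1) ?_ hu hv e0 e1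
    have hm : (CB.mk (pt (Int.sub (Int.add A.cr B.cr) (Int.ofNat (Nat.mul 2 (nuI m)))))
        (pt (Int.sub A.ci B.ci))).mem (val A.cr + val A.ci * Complex.I
          + conj (val B.cr + val B.ci * Complex.I : ℂ) - (5 + m)) := by
      have c1 := mem_pt (Int.sub (Int.add A.cr B.cr) (Int.ofNat (Nat.mul 2 (nuI m))))
      have c2 := mem_pt (Int.sub A.ci B.ci)
      have c3 : valN (Nat.mul 2 (nuI m)) = 5 + m := by
        rw [Nat.mul_eq, two_mul, ← Nat.add_eq, valN_add, valN_nuI]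
        ring
      rw [val_sub, val_add, val_ofNat, c3] at c1
      rw [val_sub] at c2
      exact ⟨by simpa using c1, by simpa [sub_eq_add_neg] using c2⟩
    refine lt_of_lt_of_le ?_ hm.dn
    have h5 : _ < _ := Nat.blt_eq.mp h.2.2
    rw [← valN_add]
    unfold valN
    exact div_lt_div_of_pos_right (by exact_mod_cast h5) (by positivity)
  · dsimp only at h
    have a1 := iter_ok hP (Nat.succ k) k (Nat.le_succ k)
    have a2 := iter_ok hQ (Nat.succ k) k (Nat.le_succ k)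
    rw [show Nat.succ k - k = 1 from Nat.add_sub_cancel_left k 1, Nat.cast_one] at a1 a2
    generalize iter P (Nat.succ k) k = A at a1 h
    generalize iter Q (Nat.succ k) k = B at a2 h
    simp only [Bool.and_eq_true] at h
    have hK : (CB.mk (add (two (iv s₁ s₂)) (pt (Int.ofNat (Nat.mul m one)))) (two (iv t₁ t₂))).mem
        (2 * (σ + τ * Complex.I) + m) := by
      have c1 := hs.two.add (mem_pt (Int.ofNat (Nat.mul m one)))
      have c3 : valN (Nat.mul m one) = m := by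
        unfold valN
        rw [Nat.mul_eq, Nat.cast_mul, one_eq]
        field_simp
      rw [val_ofNat, c3] at c1
      exact ⟨by simpa using c1, by simpa using ht.two⟩
    have b1 := homT_ok (kp_mem hP A.cr A.ci) (kp_mem hQ B.cr B.ci).cj (AB_mem hP) (AB_mem hQ).cj hK
      h.2.2
    have b2 := (a2 h.2.1).back hv
    rw [← Complex.norm_conj, ← Complex.norm_conj (v 1), map_sub, map_mul, map_mul,
      eq_neg_of_add_eq_zero_right e0, mul_neg, ← neg_add', norm_neg] at b2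
    have := hom3 (valN_nonneg _) (valN_nonneg _) ((a1 h.1).back hu) b2 e1 b1
    exact ⟨this.1, this.2.1⟩

/-- from the disc at level 0: ℓ = w₁/w₀ + ib = ζ₀ - 5/2 - iρ/2 -/
theorem matT_ok {f : CB → Bool} {F : ℂ → Prop} (hf : ∀ (l : CB) (z : ℂ), l.mem z → f l = true → F z)
    (n : ℕ) (b₁ b₂ r₁ r₂ z₁ z₂ : ℤ) (h : matT f n b₁ b₂ r₁ r₂ z₁ z₂ = true) :
    Box (fun b r _ => ∀ w : ℕ → ℂ, Seq 0 (r ^ 2 / 4) (-Complex.I * b) w → (w 0 ≠ 0 ∨ w 1 ≠ 0) →
      w 0 ≠ 0 ∧ F (w 1 / w 0 + Complex.I * b)) b₁ b₂ r₁ r₂ z₁ z₂ := by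
  intro b r _ h1 h2 h3 h4 _ _ w hw hne
  have hρ := (mem_iv h3 h4).sq.half.half
  rw [show r ^ 2 / 2 / 2 = r ^ 2 / 4 by ring] at hρ
  have hP : (mkP (pt (Int.ofNat 0)) (neg (iv b₁ b₂)) (n2B 0) (half (half (sq (iv r₁ r₂))))).Ok 0
      (r ^ 2 / 4) (-Complex.I * b) := by
    refine mkP_ok ?_ (by simpa using (mem_iv h1 h2).neg) (by simpa [MM] using n2B_mem 0) hρ
    have := mem_pt (Int.ofNat 0)
    rw [val_zero] at this
    simpa using this
  unfold matT at h
  dsimp only at h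
  generalize mkP (pt (Int.ofNat 0)) (neg (iv b₁ b₂)) (n2B 0) (half (half (sq (iv r₁ r₂)))) = P at hP h
  have a1 := iter_ok hP n n le_rfl
  rw [Nat.sub_self, Nat.cast_zero, add_zero] at a1
  generalize iter P n n = A at a1 h
  rw [Bool.and_eq_true] at h
  have a2 := a1 h.1 w hw
  have h0 : w 0 ≠ 0 := by
    intro h0
    rw [h0] at a2
    exact hne.elim (fun x => x h0) (fun x => x (by simpa using a2))
  refine ⟨h0, hf _ _ ?_ h.2⟩
  generalize r ^ 2 / 4 = ρ at *
  have a3 : ‖w 1 / w 0 + kp ρ (-Complex.I * b) - (val A.cr + val A.ci * Complex.I)‖ ≤ valN A.r := by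
    refine le_of_mul_le_mul_right ?_ (norm_pos_iff.2 h0)
    rw [← norm_mul]
    refine le_trans (le_of_eq (congrArg norm ?_)) a2
    field_simp
    ring
  generalize w 1 / w 0 = q at a3
  have a4 := (Complex.abs_re_le_norm _).trans a3
  have a5 := (Complex.abs_im_le_norm _).trans a3
  have c1 : val (Int.ofNat 703687441776640) = 5 / 2 := by rw [val_ofNat]; unfold valN; norm_num
  constructor
  · show |_ - val (Int.sub _ _)| ≤ valN A.r
    rw [val_sub, c1]
    refine le_trans (le_of_eq (congrArg abs ?_)) a4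
    simp [kp]
    ring
  · have c2 : (RB.mk A.ci A.r).mem (q.im + b + ρ / 2) := by
      refine le_trans (le_of_eq (congrArg abs ?_)) a5
      simp [kp]
      ring
    simpa using c2.sub hP.hr

end Crest.Agent.R086.NB
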